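import Vale.Agent.P254.Slices

/-!
The Brunn–Minkowski inequality for compact convex sets, by induction on the dimension.
-/

open MeasureTheory Set Real
open scoped Pointwise

namespace Vale.Agent.P254

/-- Length of an order-connected subset of a bounded interval. -/
lemma combo_interval {I J L : Set ℝ} (hI : I.OrdConnected) (hJ : J.OrdConnected) {a b : ℝ}
    (ha : 0 < a) (hb : 0 < b) (hIne : I.Nonempty) (hJne : J.Nonempty)
    (hIb : Bornology.IsBounded I) (hJb : Bornology.IsBounded J)
    (hLf : volume L ≠ ⊤)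
    (h : ∀ x ∈ I, ∀ y ∈ J, a * x + b * y ∈ L) :
    a * volume.real I + b * volume.real J ≤ volume.real L := by
  set p := sInf I
  set q := sSup I
  set r := sInf J
  set w := sSup J
  have hIl := hIb.bddBelow
  have hIu := hIb.bddAbove
  have hJl := hJb.bddBelow
  have hJu := hJb.bddAbove
  have hpq : p ≤ q := csInf_le_csSup hIne hIl hIu
  have hrw : r ≤ w := csInf_le_csSup hJne hJl hJu
  have vI : volume.real I ≤ q - p := by
    refine le_trans (measureReal_mono (s₂ := Icc p q) (fun x hx => ⟨csInf_le hIl hx, le_csSup hIu hx⟩)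
      (by simp [Real.volume_Icc])) ?_
    simp [Measure.real, hpq]
  have vJ : volume.real J ≤ w - r := by
    refine le_trans (measureReal_mono (s₂ := Icc r w) (fun x hx => ⟨csInf_le hJl hx, le_csSup hJu hx⟩)
      (by simp [Real.volume_Icc])) ?_
    simp [Measure.real, hrw]
  have hsub : Ioo (a * p + b * r) (a * q + b * w) ⊆ L := by
    intro z hz
    set θ : ℝ := (z - (a * p + b * r)) / ((a * q + b * w) - (a * p + b * r)) with hθ
    have hd : 0 < (a * q + b * w) - (a * p + b * r) := by linarith [hz.1, hz.2]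
    have h0 : 0 < θ := div_pos (by linarith [hz.1]) hd
    have h1 : θ < 1 := (div_lt_one hd).2 (by linarith [hz.2])
    have hz' : z = a * (p + θ * (q - p)) + b * (r + θ * (w - r)) := by
      have : θ * ((a * q + b * w) - (a * p + b * r)) = z - (a * p + b * r) :=
        div_mul_cancel₀ _ hd.ne'
      linarith
    have mem : ∀ {K : Set ℝ}, K.OrdConnected → K.Nonempty → BddBelow K → BddAbove K →
        sInf K + θ * (sSup K - sInf K) ∈ K := by
      intro K hK hne hl hu
      rcases (csInf_le_csSup hne hl hu).eq_or_lt with he | hlt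
      · obtain ⟨x, hx⟩ := hne
        have e1 : sInf K ≤ x := csInf_le hl hx
        have e2 : x ≤ sSup K := le_csSup hu hx
        rw [← he] at e2 ⊢
        have : x = sInf K := le_antisymm e2 e1
        simp only [sub_self, mul_zero, add_zero, ← this, hx]
      · have l1 : sInf K < sInf K + θ * (sSup K - sInf K) := by
          have : 0 < θ * (sSup K - sInf K) := mul_pos h0 (by linarith)
          linarith
        have l2 : sInf K + θ * (sSup K - sInf K) < sSup K := by
          nlinarith
        obtain ⟨x, hx, hxl⟩ := exists_lt_of_csInf_lt hne l1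
        obtain ⟨y, hy, hyl⟩ := exists_lt_of_lt_csSup hne l2
        exact hK.out hx hy ⟨hxl.le, hyl.le⟩
    rw [hz']
    exact h _ (mem hI hIne hIl hIu) _ (mem hJ hJne hJl hJu)
  have := measureReal_mono hsub hLf
  rw [Measure.real, Real.volume_Ioo, ENNReal.toReal_ofReal (by nlinarith)] at this
  nlinarith [vI, vJ]

lemma layer_levels {f : ℝ → ℝ} {M : ℝ} (hf : Integrable f) (h0 : ∀ t, 0 ≤ f t)
    (hM : ∀ t, f t ≤ M) :
    ∫ t, f t = ∫ s in Ioc 0 M, volume.real {t | s ≤ f t} :=
  hf.integral_eq_integral_Ioc_meas_le (.of_forall h0) (.of_forall hM)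

/-- Geometric form of the Brunn–Minkowski inequality for compact convex sets. -/
theorem bm_mul : ∀ (n : ℕ) (A B C : Set (Fin n → ℝ)), Convex ℝ A → IsCompact A → A.Nonempty →
    Convex ℝ B → IsCompact B → B.Nonempty → Convex ℝ C → IsCompact C →
    ∀ a b : ℝ, 0 < a → 0 < b → a + b = 1 → (∀ x ∈ A, ∀ y ∈ B, a • x + b • y ∈ C) →
    vol A ^ a * vol B ^ b ≤ vol C := by
  intro n
  induction n with
  | zero =>
    intro A B C _ _ hAne _ _ hBne _ _ a b _ _ _ h
    obtain ⟨x, hx⟩ := hAne
    obtain ⟨y, hy⟩ := hBne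
    have hC : C.Nonempty := ⟨_, h x hx y hy⟩
    have e : ∀ S : Set (Fin 0 → ℝ), S.Nonempty → vol S = 1 := by
      intro S hS
      have : S = univ := Subsingleton.eq_univ_of_nonempty hS
      simp [vol, this, volume_pi, Measure.pi_of_empty]
    simp [e A ⟨x, hx⟩, e B ⟨y, hy⟩, e C hC]
  | succ n ih =>
    intro A B C hA hAc _ hB hBc _ hC hCc a b ha hb hab h
    have hAn : 0 ≤ vol A := ENNReal.toReal_nonneg
    have hBn : 0 ≤ vol B := ENNReal.toReal_nonneg
    rcases hAn.eq_or_lt with hA0 | hA0
    · rw [← hA0, zero_rpow ha.ne', zero_mul]; exact ENNReal.toReal_nonneg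
    rcases hBn.eq_or_lt with hB0 | hB0
    · rw [← hB0, zero_rpow hb.ne', mul_zero]; exact ENNReal.toReal_nonneg
    -- the slice functions
    obtain ⟨hfi, hfv⟩ := vol_slices hAc
    obtain ⟨hgi, hgv⟩ := vol_slices hBc
    obtain ⟨hhi, hhv⟩ := vol_slices hCc
    set f := slv A
    set g := slv B
    set k := slv C
    have key : ∀ x y, 0 < f x → 0 < g y → f x ^ a * g y ^ b ≤ k (a * x + b * y) := by
      intro x y hx hy
      refine ih _ _ _ (slc_convex hA x) (slc_isCompact hAc x) (slc_nonempty_of_pos hx)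
        (slc_convex hB y) (slc_isCompact hBc y) (slc_nonempty_of_pos hy) (slc_convex hC _)
        (slc_isCompact hCc _) a b ha hb hab ?_
      intro u hu v hv
      have := h _ hu _ hv
      rwa [combo_cons] at this
    have quasi : ∀ (S : Set (Fin (n + 1) → ℝ)), Convex ℝ S → IsCompact S →
        ∀ s : ℝ, 0 < s → OrdConnected {t | s ≤ slv S t} := by
      intro S hS hSc s hs
      refine ⟨fun x hx y hy z hz => ?_⟩
      rcases hz.1.eq_or_lt with rfl | h1
      · exact hx
      rcases hz.2.eq_or_lt with rfl | h2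
      · exact hy
      set μ := (z - x) / (y - x) with hμ
      have hd : 0 < y - x := by linarith
      have m0 : 0 < μ := div_pos (by linarith) hd
      have m1 : μ < 1 := (div_lt_one hd).2 (by linarith)
      have hz' : z = (1 - μ) * x + μ * y := by
        have : μ * (y - x) = z - x := div_mul_cancel₀ _ hd.ne'
        linarith
      have := ih (slc S x) (slc S y) (slc S z) (slc_convex hS x) (slc_isCompact hSc x)
        (slc_nonempty_of_pos (lt_of_lt_of_le hs hx)) (slc_convex hS y) (slc_isCompact hSc y)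
        (slc_nonempty_of_pos (lt_of_lt_of_le hs hy)) (slc_convex hS z) (slc_isCompact hSc z)
        (1 - μ) μ (by linarith) m0 (by ring) (fun u hu v hv => by
          have := hS hu hv (a := 1 - μ) (b := μ) (by linarith) m0.le (by ring)
          rw [combo_cons, ← hz'] at this
          exact this)
      refine le_trans ?_ this
      calc s = s ^ (1 - μ) * s ^ μ := by rw [← rpow_add hs]; simp
        _ ≤ _ := mul_le_mul (rpow_le_rpow hs.le hx (by linarith))
            (rpow_le_rpow hs.le hy m0.le) (by positivity) (rpow_nonneg (slv_nonneg _ _) _)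
    -- suprema
    obtain ⟨Mk, hMk⟩ := slv_bound hCc
    obtain ⟨Mf, hMf⟩ := slv_bound hAc
    obtain ⟨Mg, hMg⟩ := slv_bound hBc
    set F := sSup (range f)
    set G := sSup (range g)
    have hFb : BddAbove (range f) := ⟨Mf, by rintro _ ⟨t, rfl⟩; exact hMf t⟩
    have hGb : BddAbove (range g) := ⟨Mg, by rintro _ ⟨t, rfl⟩; exact hMg t⟩
    have hfF : ∀ t, f t ≤ F := fun t => le_csSup hFb ⟨t, rfl⟩
    have hgG : ∀ t, g t ≤ G := fun t => le_csSup hGb ⟨t, rfl⟩
    have hF : 0 < F := by
      by_contra hle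
      push Not at hle
      have : vol A ≤ 0 := by
        rw [hfv]; exact integral_nonpos fun t => (hfF t).trans hle
      linarith
    have hG : 0 < G := by
      by_contra hle
      push Not at hle
      have : vol B ≤ 0 := by
        rw [hgv]; exact integral_nonpos fun t => (hgG t).trans hle
      linarith
    set P := F ^ a * G ^ b with hP
    have hP0 : 0 < P := by positivity
    -- boundedness of the level sets
    have bdd : ∀ (S : Set (Fin (n + 1) → ℝ)), IsCompact S → ∀ s : ℝ, 0 < s →
        Bornology.IsBounded {t | s ≤ slv S t} := by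
      intro S hSc s hs
      refine (hSc.image (continuous_apply 0)).isBounded.subset fun t ht => ?_
      obtain ⟨y, hy⟩ := slc_nonempty_of_pos (lt_of_lt_of_le hs ht)
      exact ⟨_, hy, by simp⟩
    have lev : ∀ s ∈ Ioo (0:ℝ) 1, a * volume.real {t | F * s ≤ f t} +
        b * volume.real {t | G * s ≤ g t} ≤ volume.real {t | P * s ≤ k t} := by
      intro s hs
      have hFs : 0 < F * s := mul_pos hF hs.1
      have hGs : 0 < G * s := mul_pos hG hs.1
      refine combo_interval (quasi A hA hAc _ hFs) (quasi B hB hBc _ hGs) ha hb ?_ ?_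
        (bdd A hAc _ hFs) (bdd B hBc _ hGs)
        ((bdd C hCc _ (mul_pos hP0 hs.1)).measure_lt_top.ne) ?_
      · obtain ⟨_, ⟨t, rfl⟩, ht⟩ := exists_lt_of_lt_csSup (range_nonempty f)
          (show F * s < F by nlinarith [hs.2])
        exact ⟨t, ht.le⟩
      · obtain ⟨_, ⟨t, rfl⟩, ht⟩ := exists_lt_of_lt_csSup (range_nonempty g)
          (show G * s < G by nlinarith [hs.2])
        exact ⟨t, ht.le⟩
      · intro x hx y hy
        refine le_trans ?_ (key x y (lt_of_lt_of_le hFs hx) (lt_of_lt_of_le hGs hy))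
        calc P * s = (F * s) ^ a * (G * s) ^ b := by
              rw [mul_rpow hF.le hs.1.le, mul_rpow hG.le hs.1.le, hP,
                show F ^ a * s ^ a * (G ^ b * s ^ b) = F ^ a * G ^ b * (s ^ a * s ^ b) by ring,
                ← rpow_add hs.1, hab, rpow_one]
          _ ≤ f x ^ a * g y ^ b :=
              mul_le_mul (rpow_le_rpow hFs.le hx ha.le) (rpow_le_rpow hGs.le hy hb.le)
                (by positivity) (rpow_nonneg (slv_nonneg _ _) _)
    -- layer cake, rescaled to `[0,1]`
    have scale : ∀ (φ : ℝ → ℝ) (c : ℝ), 0 < c →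
        ∫ s in Ioc 0 c, φ s = c * ∫ s in (0:ℝ)..1, φ (c * s) := by
      intro φ c hc
      rw [← intervalIntegral.integral_of_le hc.le]
      have := intervalIntegral.mul_integral_comp_mul_left (f := φ) (a := 0) (b := 1) c
      simpa using this.symm
    have anti : ∀ (φ : ℝ → ℝ) (S : Set (Fin (n + 1) → ℝ)) (c : ℝ), IsCompact S →
        φ = slv S → 0 < c →
        IntervalIntegrable (fun s => volume.real {t | c * s ≤ φ t}) volume 0 1 := by
      intro φ S c hSc hφ hc
      subst hφ
      obtain ⟨R, hR⟩ : ∃ R : ℝ, ∀ s, 0 < s → volume.real {t | s ≤ slv S t} ≤ R := by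
        refine ⟨volume.real ((fun z : Fin (n + 1) → ℝ => z 0) '' S), fun s hs => ?_⟩
        refine measureReal_mono (fun t ht => ?_)
          (hSc.image (continuous_apply 0)).measure_lt_top.ne
        obtain ⟨y, hy⟩ := slc_nonempty_of_pos (lt_of_lt_of_le hs ht)
        exact ⟨_, hy, by simp⟩
      have hanti : AntitoneOn (fun s => volume.real {t | c * s ≤ slv S t}) (Ioc 0 1) := by
        intro x hx y _ hxy
        refine measureReal_mono (fun t ht => le_trans (mul_le_mul_of_nonneg_left hxy hc.le) ht)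
          ((bdd S hSc _ (mul_pos hc hx.1)).measure_lt_top.ne)
      rw [intervalIntegrable_iff_integrableOn_Ioc_of_le zero_le_one]
      refine Integrable.mono' (integrable_const R)
        (aemeasurable_restrict_of_antitoneOn measurableSet_Ioc hanti).aestronglyMeasurable ?_
      filter_upwards [ae_restrict_mem measurableSet_Ioc] with s hs
      rw [Real.norm_of_nonneg measureReal_nonneg]
      exact hR _ (mul_pos hc hs.1)
    have eA : vol A = F * ∫ s in (0:ℝ)..1, volume.real {t | F * s ≤ f t} := by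
      rw [hfv, layer_levels hfi (slv_nonneg A) hfF, scale _ _ hF]
    have eB : vol B = G * ∫ s in (0:ℝ)..1, volume.real {t | G * s ≤ g t} := by
      rw [hgv, layer_levels hgi (slv_nonneg B) hgG, scale _ _ hG]
    have eC : P * ∫ s in (0:ℝ)..1, volume.real {t | P * s ≤ k t} ≤ vol C := by
      rw [← scale (fun s => volume.real {t | s ≤ k t}) _ hP0, hhv,
        hhi.integral_eq_integral_meas_le (.of_forall (slv_nonneg C))]
      refine setIntegral_mono_set ?_ (.of_forall fun s => measureReal_nonneg)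
        (HasSubset.Subset.eventuallyLE Ioc_subset_Ioi_self)
      rw [← integrableOn_congr_fun (f := fun s => volume.real {t | s ≤ k t}) (fun _ _ => rfl)
        measurableSet_Ioi]
      by_contra hni
      have h0 := integral_undef hni
      rw [← hhi.integral_eq_integral_meas_le (.of_forall (slv_nonneg C)), ← hhv] at h0
      have hz : slv C =ᵐ[volume] 0 :=
        (integral_eq_zero_iff_of_nonneg (slv_nonneg C) hhi).1 (hhv ▸ h0)
      apply hni
      refine IntegrableOn.congr_fun (integrableOn_zero) (fun s hs => ?_) measurableSet_Ioi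
      have : volume {t | s ≤ k t} = 0 := by
        refine measure_mono_null (fun t (ht : s ≤ k t) => ?_) hz
        show ¬ slv C t = (0 : ℝ → ℝ) t
        exact (lt_of_lt_of_le hs ht).ne'
      simp [Measure.real, this]
    have hsum : a * (vol A / F) + b * (vol B / G) ≤
        ∫ s in (0:ℝ)..1, volume.real {t | P * s ≤ k t} := by
      have iA := anti f A F hAc rfl hF
      have iB := anti g B G hBc rfl hG
      rw [eA, eB, mul_div_cancel_left₀ _ hF.ne', mul_div_cancel_left₀ _ hG.ne',
        ← intervalIntegral.integral_const_mul, ← intervalIntegral.integral_const_mul,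
        ← intervalIntegral.integral_add (iA.const_mul a) (iB.const_mul b)]
      exact intervalIntegral.integral_mono_on_of_le_Ioo zero_le_one
        ((iA.const_mul a).add (iB.const_mul b)) (anti k C P hCc rfl hP0) lev
    calc vol A ^ a * vol B ^ b = P * ((vol A / F) ^ a * (vol B / G) ^ b) := by
          rw [hP, div_rpow hA0.le hF.le, div_rpow hB0.le hG.le]
          field_simp
      _ ≤ P * (a * (vol A / F) + b * (vol B / G)) :=
          mul_le_mul_of_nonneg_left (geom_mean_le_arith_mean2_weighted ha.le hb.le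
            (div_nonneg hA0.le hF.le) (div_nonneg hB0.le hG.le) hab) hP0.le
      _ ≤ P * ∫ s in (0:ℝ)..1, volume.real {t | P * s ≤ k t} :=
          mul_le_mul_of_nonneg_left hsum hP0.le
      _ ≤ vol C := eC

/-- Additive form: `vol^(1/n)` is concave along Minkowski combinations. -/
theorem bm_root {n : ℕ} (hn : n ≠ 0) {A B C : Set (Fin n → ℝ)} (hA : Convex ℝ A) (hAc : IsCompact A)
    (hAne : A.Nonempty) (hB : Convex ℝ B) (hBc : IsCompact B) (hBne : B.Nonempty) (hC : Convex ℝ C)
    (hCc : IsCompact C) {a b : ℝ} (ha : 0 ≤ a) (hb : 0 ≤ b) (hab : a + b = 1)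
    (h : ∀ x ∈ A, ∀ y ∈ B, a • x + b • y ∈ C) :
    a * vol A ^ (n⁻¹ : ℝ) + b * vol B ^ (n⁻¹ : ℝ) ≤ vol C ^ (n⁻¹ : ℝ) := by
  have hV : ∀ S : Set (Fin n → ℝ), 0 ≤ vol S := fun S => ENNReal.toReal_nonneg
  have hR : ∀ S : Set (Fin n → ℝ), 0 ≤ vol S ^ (n⁻¹ : ℝ) := fun S => rpow_nonneg (hV S) _
  have hscale : ∀ (S : Set (Fin n → ℝ)) (c : ℝ), 0 ≤ c →
      vol (c • S) ^ (n⁻¹ : ℝ) = c * vol S ^ (n⁻¹ : ℝ) := by
    intro S c hc
    unfold vol
    rw [Measure.addHaar_smul_of_nonneg volume hc, ENNReal.toReal_mul,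
      ENNReal.toReal_ofReal (by positivity), Module.finrank_fin_fun,
      mul_rpow (by positivity) ENNReal.toReal_nonneg, pow_rpow_inv_natCast hc hn]
  -- translates inside `C`
  have hmono : ∀ (S T : Set (Fin n → ℝ)) (v : Fin n → ℝ), IsCompact T →
      (∀ x ∈ S, v + x ∈ T) → vol S ^ (n⁻¹ : ℝ) ≤ vol T ^ (n⁻¹ : ℝ) := by
    intro S T v hT hsub
    refine rpow_le_rpow (hV S) ?_ (by positivity)
    refine ENNReal.toReal_mono hT.measure_lt_top.ne ?_
    calc volume S ≤ volume ((fun x => v + x) ⁻¹' T) := measure_mono hsub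
      _ = volume T := measure_preimage_add _ _ _
  obtain ⟨x₀, hx₀⟩ := hAne
  obtain ⟨y₀, hy₀⟩ := hBne
  by_cases h0 : a = 0 ∨ vol A = 0
  · have hz : a * vol A ^ (n⁻¹ : ℝ) = 0 := by
      rcases h0 with h0 | h0
      · simp [h0]
      · rw [h0, zero_rpow (by positivity), mul_zero]
    rw [hz, zero_add, ← hscale B b hb]
    refine hmono _ _ (a • x₀) hCc ?_
    rintro _ ⟨y, hy, rfl⟩
    exact h _ hx₀ _ hy
  by_cases h1 : b = 0 ∨ vol B = 0
  · have hz : b * vol B ^ (n⁻¹ : ℝ) = 0 := by
      rcases h1 with h1 | h1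
      · simp [h1]
      · rw [h1, zero_rpow (by positivity), mul_zero]
    rw [hz, add_zero, ← hscale A a ha]
    refine hmono _ _ (b • y₀) hCc ?_
    rintro _ ⟨x, hx, rfl⟩
    change b • y₀ + a • x ∈ C
    rw [add_comm]
    exact h _ hx _ hy₀
  push Not at h0 h1
  have ha' : 0 < a := lt_of_le_of_ne ha (Ne.symm h0.1)
  have hb' : 0 < b := lt_of_le_of_ne hb (Ne.symm h1.1)
  set α := vol A ^ (n⁻¹ : ℝ)
  set β := vol B ^ (n⁻¹ : ℝ)
  have hα : 0 < α := rpow_pos_of_pos (lt_of_le_of_ne (hV A) (Ne.symm h0.2)) _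
  have hβ : 0 < β := rpow_pos_of_pos (lt_of_le_of_ne (hV B) (Ne.symm h1.2)) _
  set m := a * α + b * β with hm
  have hm0 : 0 < m := by positivity
  have e1 : vol (α⁻¹ • A) = 1 := by
    have := hscale A α⁻¹ (inv_nonneg.2 hα.le)
    rw [inv_mul_cancel₀ hα.ne'] at this
    have h2 := congrArg (fun t => t ^ n) this
    simpa [rpow_inv_natCast_pow (hV _) hn] using h2
  have e2 : vol (β⁻¹ • B) = 1 := by
    have := hscale B β⁻¹ (inv_nonneg.2 hβ.le)
    rw [inv_mul_cancel₀ hβ.ne'] at this
    have h2 := congrArg (fun t => t ^ n) this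
    simpa [rpow_inv_natCast_pow (hV _) hn] using h2
  have := bm_mul n (α⁻¹ • A) (β⁻¹ • B) (m⁻¹ • C) (hA.smul _) (hAc.smul _)
    (Set.Nonempty.smul_set ⟨x₀, hx₀⟩) (hB.smul _) (hBc.smul _) (Set.Nonempty.smul_set ⟨y₀, hy₀⟩)
    (hC.smul _) (hCc.smul _) (a * α / m) (b * β / m) (by positivity) (by positivity)
    (by rw [← add_div, div_self hm0.ne']) (by
      rintro _ ⟨x, hx, rfl⟩ _ ⟨y, hy, rfl⟩
      refine ⟨a • x + b • y, h x hx y hy, ?_⟩
      change m⁻¹ • (a • x + b • y) = (a * α / m) • (α⁻¹ • x) + (b * β / m) • (β⁻¹ • y)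
      rw [smul_add, smul_smul, smul_smul, smul_smul, smul_smul]
      congr 2 <;> field_simp)
  rw [e1, e2, one_rpow, one_rpow, one_mul] at this
  have h3 : 1 ≤ m⁻¹ * vol C ^ (n⁻¹ : ℝ) := by
    rw [← hscale C m⁻¹ (inv_nonneg.2 hm0.le)]
    exact one_le_rpow this (by positivity)
  rwa [le_inv_mul_iff₀ hm0, mul_one] at h3

end Vale.Agent.P254
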