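import Vale.Agent.P254.JoinSimplex

/-!
Affine invariance of the normalised ratio.
-/

open MeasureTheory Set Matrix

namespace Vale.Agent.P254

variable {ι : Type*} [Fintype ι] [DecidableEq ι]

/-- The map `x ↦ a + M x`. -/
def affMap (a : ι → ℝ) (M : Matrix ι ι ℝ) : (ι → ℝ) →ᵃ[ℝ] (ι → ℝ) :=
  (AffineEquiv.constVAdd ℝ (ι → ℝ) a).toAffineMap.comp M.toLin'.toAffineMap

lemma affMap_apply (a : ι → ℝ) (M : Matrix ι ι ℝ) (x : ι → ℝ) : affMap a M x = a + M *ᵥ x := by
  simp [affMap]

lemma affMap_injective {a : ι → ℝ} {M : Matrix ι ι ℝ} (hM : M.det ≠ 0) :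
    Function.Injective (affMap a M) := by
  intro x y h
  rw [affMap_apply, affMap_apply, add_right_inj] at h
  exact (Matrix.mulVec_injective_iff_isUnit.2 ((Matrix.isUnit_iff_isUnit_det _).2
    (Ne.isUnit hM))) h

lemma setIntegral_affMap {a : ι → ℝ} {M : Matrix ι ι ℝ} (hM : M.det ≠ 0) {K : Set (ι → ℝ)}
    (hK : MeasurableSet K) (f : (ι → ℝ) → ℝ) :
    ∫ y in affMap a M '' K, f y = |M.det| * ∫ x in K, f (affMap a M x) := by
  let L : (ι → ℝ) →L[ℝ] (ι → ℝ) := LinearMap.toContinuousLinearMap M.toLin'
  have hd : L.det = M.det := by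
    simp [L, ContinuousLinearMap.det]
  have := integral_image_eq_integral_abs_det_fderiv_smul volume (f := affMap a M) (f' := fun _ => L)
    hK (fun x _ => ?_) (affMap_injective hM).injOn f
  · simpa [hd, integral_const_mul] using this
  · have hfun : (affMap a M : (ι → ℝ) → ι → ℝ) = fun x => a + L x := by
      funext x; simp [affMap_apply, L]
    rw [hfun]
    exact ((L.hasFDerivAt).const_add a).hasFDerivWithinAt

lemma vol_affMap {a : ι → ℝ} {M : Matrix ι ι ℝ} (hM : M.det ≠ 0) {K : Set (ι → ℝ)}
    (hK : MeasurableSet K) : vol (affMap a M '' K) = |M.det| * vol K := by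
  have := setIntegral_affMap (a := a) hM hK (fun _ => (1 : ℝ))
  simpa only [setIntegral_one] using this

lemma isBody_affMap {a : ι → ℝ} {M : Matrix ι ι ℝ} (hM : M.det ≠ 0) {K : Set (ι → ℝ)}
    (hK : IsBody K) : IsBody (affMap a M '' K) := by
  refine ⟨hK.1.affine_image _, hK.2.1.image (affMap a M).continuous_of_finiteDimensional, ?_⟩
  have hs : Function.Surjective (affMap a M) := by
    intro y
    refine ⟨M⁻¹ *ᵥ (y - a), ?_⟩
    rw [affMap_apply, mulVec_mulVec, mul_nonsing_inv _ (Ne.isUnit hM), one_mulVec]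
    abel
  let H : (ι → ℝ) ≃ₜ (ι → ℝ) :=
    (AffineEquiv.ofBijective ⟨affMap_injective hM, hs⟩).toHomeomorphOfFiniteDimensional
  have hH : affMap a M '' K = H '' K := rfl
  rw [hH, ← H.image_interior]
  exact hK.2.2.image _

lemma nrat_affMap {a : ι → ℝ} {M : Matrix ι ι ℝ} (hM : M.det ≠ 0) {K : Set (ι → ℝ)}
    (hK : IsBody K) : nrat (affMap a M '' K) = nrat K := by
  have hm := hK.2.1.measurableSet
  have hKb := isBody_affMap (a := a) hM hK
  have hv := hK.vol_pos
  have hd : 0 < |M.det| := abs_pos.2 hM
  have hint : ∀ {f : (ι → ℝ) → ℝ}, Continuous f → IntegrableOn f K := fun hf =>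
    hf.continuousOn.integrableOn_compact hK.2.1
  have hcoord : ∀ (x : ι → ℝ) i, affMap a M x i = a i + ∑ k, M i k * x k := fun x i => by
    rw [affMap_apply]; rfl
  have hint1 : ∀ i, ∀ k, Integrable (fun x : ι → ℝ => M i k * x k) (volume.restrict K) :=
    fun i k => hint (by fun_prop)
  have hc : ∀ i, centroid (affMap a M '' K) i = a i + ∑ k, M i k * centroid K k := by
    intro i
    unfold centroid
    rw [setIntegral_affMap hM hm, vol_affMap hM hm]
    simp only [hcoord]
    rw [integral_add (by exact hint continuous_const) (integrable_finsetSum _ (fun k _ => hint1 i k)),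
      integral_finsetSum _ (fun k _ => hint1 i k)]
    simp only [integral_const, measureReal_restrict_apply, MeasurableSet.univ, univ_inter,
      smul_eq_mul, integral_const_mul, show volume.real K = vol K from rfl]
    rw [mul_inv, show |M.det|⁻¹ * (vol K)⁻¹ * (|M.det| * (vol K * a i + ∑ k, M i k * ∫ x in K, x k))
      = (vol K)⁻¹ * (vol K * a i + ∑ k, M i k * ∫ x in K, x k) by field_simp,
      mul_add, Finset.mul_sum, ← mul_assoc, inv_mul_cancel₀ hv.ne', one_mul]
    congr 1
    exact Finset.sum_congr rfl fun k _ => by ring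
  have hcov : covMat (affMap a M '' K) = M * covMat K * Mᵀ := by
    ext i j
    have hR : (M * covMat K * Mᵀ) i j = ∑ k, ∑ l, M i k * covMat K k l * M j l := by
      simp only [Matrix.mul_apply, transpose_apply, Finset.sum_mul]
      rw [Finset.sum_comm]
    rw [hR]
    unfold covMat
    rw [setIntegral_affMap hM hm, vol_affMap hM hm]
    simp only [hc, hcoord, add_sub_add_left_eq_sub, ← Finset.sum_sub_distrib, ← mul_sub,
      Finset.sum_mul_sum]
    have hi2 : ∀ k l, Integrable (fun x : ι → ℝ => M i k * (x k - centroid K k) *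
        (M j l * (x l - centroid K l))) (volume.restrict K) := fun k l => hint (by fun_prop)
    rw [integral_finsetSum _ (fun k _ => integrable_finsetSum _ fun l _ => hi2 k l)]
    simp only [Finset.mul_sum]
    refine Finset.sum_congr rfl fun k _ => ?_
    rw [integral_finsetSum _ (fun l _ => hi2 k l), Finset.mul_sum, Finset.mul_sum]
    refine Finset.sum_congr rfl fun l _ => ?_
    have he : (fun x : ι → ℝ => M i k * (x k - centroid K k) * (M j l * (x l - centroid K l))) =
        fun x => M i k * M j l * ((x k - centroid K k) * (x l - centroid K l)) := by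
      funext x; ring
    rw [he, integral_const_mul]
    field_simp
  unfold nrat isoRatio
  rw [hcov, vol_affMap hM hm, det_mul, det_mul, det_transpose, mul_pow, sq_abs]
  field_simp

omit [DecidableEq ι] in
/-- A body spanned by at most `dim + 1` points is a simplex. -/
lemma isSimplexBody_of_card_le {K : Set (ι → ℝ)} (hK : IsBody K) {s : Finset (ι → ℝ)}
    (hs : convexHull ℝ (s : Set (ι → ℝ)) = K) (hc : s.card ≤ Fintype.card ι + 1) :
    IsSimplexBody K := by
  classical
  have hfin : (K.extremePoints ℝ).Finite :=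
    s.finite_toSet.subset (by rw [← hs]; exact extremePoints_convexHull_subset)
  obtain ⟨h1, h2⟩ := card_extreme hK hfin.toFinset hfin.coe_toFinset
  refine h2 (le_antisymm (le_trans (Finset.card_le_card ?_) hc) h1)
  intro x hx
  rw [Set.Finite.mem_toFinset] at hx
  exact Finset.mem_coe.1 ((hs ▸ extremePoints_convexHull_subset :
    K.extremePoints ℝ ⊆ (s : Set (ι → ℝ))) hx)

end Vale.Agent.P254
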