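import Vale.Agent.P254.Defs

/-!
Elementary facts about volume and covariance.
-/

open MeasureTheory Set Matrix

namespace Vale.Agent.P254

variable {ι : Type*} [Fintype ι]

lemma IsBody.vol_pos {K : Set (ι → ℝ)} (h : IsBody K) : 0 < vol K := by
  refine ENNReal.toReal_pos ?_ h.2.1.measure_lt_top.ne
  exact fun h0 => absurd h0 ((MeasureTheory.Measure.measure_pos_of_nonempty_interior volume h.2.2).ne')

omit [Fintype ι] in
lemma IsBody.nonempty {K : Set (ι → ℝ)} (h : IsBody K) : K.Nonempty :=
  h.2.2.mono interior_subset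

lemma setIntegral_one (K : Set (ι → ℝ)) : ∫ _x in K, (1 : ℝ) = vol K := by
  simp [vol, Measure.real]

lemma integral_mul_sub {K : Set (ι → ℝ)} (hK : IsCompact K) (a b : ι → ℝ) (i j : ι) :
    ∫ x in K, (x i - a i) * (x j - b j) =
      (∫ x in K, x i * x j) - b j * (∫ x in K, x i) - a i * (∫ x in K, x j)
        + a i * b j * vol K := by
  have h1 : IntegrableOn (fun x : ι → ℝ => x i * x j) K :=
    ((continuous_apply i).mul (continuous_apply j)).continuousOn.integrableOn_compact hK
  have h2 : IntegrableOn (fun x : ι → ℝ => b j * x i) K :=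
    (continuous_const.mul (continuous_apply i)).continuousOn.integrableOn_compact hK
  have h3 : IntegrableOn (fun x : ι → ℝ => a i * x j) K :=
    (continuous_const.mul (continuous_apply j)).continuousOn.integrableOn_compact hK
  have h4 : IntegrableOn (fun _ : ι → ℝ => a i * b j) K :=
    continuous_const.continuousOn.integrableOn_compact hK
  have : (fun x : ι → ℝ => (x i - a i) * (x j - b j)) =
      fun x => x i * x j - b j * x i - a i * x j + a i * b j := by funext x; ring
  rw [this, integral_add (by exact (h1.sub h2).sub h3) h4, integral_sub (by exact h1.sub h2) h3,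
    integral_sub h1 h2, integral_const_mul, integral_const_mul]
  simp [vol, Measure.real]
  ring

/-- Covariance through raw moments. -/
lemma covMat_apply {K : Set (ι → ℝ)} (hK : IsCompact K) (hv : vol K ≠ 0) (i j : ι) :
    covMat K i j = (vol K)⁻¹ * (∫ x in K, x i * x j)
      - (vol K)⁻¹ * (∫ x in K, x i) * ((vol K)⁻¹ * ∫ x in K, x j) := by
  unfold covMat
  rw [integral_mul_sub hK]
  unfold centroid
  field_simp
  ring

lemma covMat_posSemidef {K : Set (ι → ℝ)} (hK : IsCompact K) :
    (covMat K).PosSemidef := by
  classical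
  refine Matrix.PosSemidef.of_dotProduct_mulVec_nonneg ?_ ?_
  · ext i j
    simp [covMat, mul_comm]
  · intro w
    have : star w ⬝ᵥ (covMat K *ᵥ w) = (vol K)⁻¹ * ∫ x in K,
        (∑ i, w i * (x i - centroid K i)) ^ 2 := by
      have hint : ∀ i j, IntegrableOn (fun x : ι → ℝ =>
          w i * (x i - centroid K i) * (w j * (x j - centroid K j))) K := fun i j =>
        (by fun_prop : Continuous fun x : ι → ℝ =>
          w i * (x i - centroid K i) * (w j * (x j - centroid K j))).continuousOn.integrableOn_compact hK
      simp only [sq, Finset.sum_mul_sum]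
      rw [integral_finsetSum _ (fun i _ => integrable_finsetSum _ fun j _ => hint i j),
        Finset.mul_sum]
      simp only [dotProduct, Matrix.mulVec, covMat, Finset.mul_sum, star_trivial]
      refine Finset.sum_congr rfl fun i _ => ?_
      rw [integral_finsetSum _ (fun j _ => hint i j), Finset.mul_sum]
      refine Finset.sum_congr rfl fun j _ => ?_
      have : (fun x : ι → ℝ => w i * (x i - centroid K i) * (w j * (x j - centroid K j))) =
          fun x => (w i * w j) * ((x i - centroid K i) * (x j - centroid K j)) := by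
        funext x; ring
      rw [this, integral_const_mul]
      ring
    rw [this]
    exact mul_nonneg (inv_nonneg.2 ENNReal.toReal_nonneg) (integral_nonneg fun x => sq_nonneg _)

/-- `det Σ / |K|^2`. -/
noncomputable def isoRatio [DecidableEq ι] (K : Set (ι → ℝ)) : ℝ := (covMat K).det / vol K ^ 2

lemma isoRatio_nonneg [DecidableEq ι] {K : Set (ι → ℝ)} (hK : IsCompact K) : 0 ≤ isoRatio K :=
  div_nonneg (covMat_posSemidef hK).det_nonneg (sq_nonneg _)

/-- The value of `det Σ / |K|^2` on a simplex. -/
noncomputable def sxConst (n : ℕ) : ℝ :=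
  (n.factorial : ℝ) ^ 2 / ((n + 1 : ℝ) ^ (n + 1) * (n + 2 : ℝ) ^ n)

lemma sxConst_pos (n : ℕ) : 0 < sxConst n := by
  unfold sxConst; positivity

/-- The normalised ratio, equal to `1` on simplices. -/
noncomputable def nrat [DecidableEq ι] (K : Set (ι → ℝ)) : ℝ :=
  isoRatio K / sxConst (Fintype.card ι)

lemma isoConst_eq {n : ℕ} (K : Set (Fin n → ℝ)) :
    isoConst K = (sxConst n * nrat K) ^ ((1 : ℝ) / (2 * (n : ℝ))) := by
  unfold isoConst nrat
  rw [Fintype.card_fin, mul_div_cancel₀ _ (sxConst_pos n).ne']
  rfl

lemma nrat_nonneg [DecidableEq ι] {K : Set (ι → ℝ)} (hK : IsCompact K) : 0 ≤ nrat K :=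
  div_nonneg (isoRatio_nonneg hK) (sxConst_pos _).le

end Vale.Agent.P254
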