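import Mathlib

/-!
Basic definitions for the isotropic constant of a convex body.
-/

open MeasureTheory Set

namespace Vale.Agent.P254

variable {ι : Type*} [Fintype ι]

/-- Lebesgue volume as a real number. -/
noncomputable def vol (K : Set (ι → ℝ)) : ℝ := (volume K).toReal

/-- Centroid of `K`. -/
noncomputable def centroid (K : Set (ι → ℝ)) : ι → ℝ :=
  fun i => (vol K)⁻¹ * ∫ x in K, x i

/-- Covariance matrix of the uniform distribution on `K`. -/
noncomputable def covMat (K : Set (ι → ℝ)) : Matrix ι ι ℝ :=
  fun i j => (vol K)⁻¹ * ∫ x in K, (x i - centroid K i) * (x j - centroid K j)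

/-- The isotropic constant `(det Σ_K / |K|^2)^(1/(2n))`. -/
noncomputable def isoConst {n : ℕ} (K : Set (Fin n → ℝ)) : ℝ :=
  ((covMat K).det / vol K ^ 2) ^ ((1 : ℝ) / (2 * (n : ℝ)))

/-- A convex body: compact, convex, with nonempty interior. -/
def IsBody (K : Set (ι → ℝ)) : Prop :=
  Convex ℝ K ∧ IsCompact K ∧ (interior K).Nonempty

/-- An `n`-simplex in an `n`-dimensional space: hull of `n+1` affinely independent points. -/
def IsSimplexBody (K : Set (ι → ℝ)) : Prop :=
  ∃ v : Fin (Fintype.card ι + 1) → (ι → ℝ),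
    AffineIndependent ℝ v ∧ convexHull ℝ (range v) = K

/-- The standard simplex, hull of the origin and the unit vectors. -/
def stdSimp (n : ℕ) : Set (Fin n → ℝ) :=
  convexHull ℝ (insert 0 (range fun i => Pi.single i (1 : ℝ)))

end Vale.Agent.P254
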