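import Vale.Agent.P254.JoinSimplex

/-!
Consequences of multiplicativity: monotonicity in dimension, asymptotic equivalence.
-/

open MeasureTheory Set Real

namespace Vale.Agent.P254

/-- The inequality of the conjecture in dimension `n`. -/
def IneqAt (n : ℕ) : Prop :=
  ∀ K : Set (Fin n → ℝ), IsBody K → isoConst K ≤ isoConst (stdSimp n)

/-- The conjecture in dimension `n`, with its equality case. -/
def StrongAt (n : ℕ) : Prop :=
  ∀ K : Set (Fin n → ℝ), IsBody K →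
    isoConst K ≤ isoConst (stdSimp n) ∧ (isoConst K = isoConst (stdSimp n) → IsSimplexBody K)

lemma expo_pos {n : ℕ} (hn : 1 ≤ n) : (0:ℝ) < 1 / (2 * (n : ℝ)) := by positivity

lemma isoConst_stdSimp (n : ℕ) :
    isoConst (stdSimp n) = (sxConst n) ^ ((1 : ℝ) / (2 * (n : ℝ))) := by
  rw [isoConst_eq, nrat_stdSimp, mul_one]

lemma isoConst_le_iff {n : ℕ} (hn : 1 ≤ n) {K : Set (Fin n → ℝ)} (hK : IsBody K) :
    isoConst K ≤ isoConst (stdSimp n) ↔ nrat K ≤ 1 := by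
  rw [isoConst_stdSimp, isoConst_eq, Real.rpow_le_rpow_iff
    (mul_nonneg (sxConst_pos n).le (nrat_nonneg hK.2.1)) (sxConst_pos n).le (expo_pos hn),
    mul_le_iff_le_one_right (sxConst_pos n)]

lemma isoConst_eq_iff {n : ℕ} (hn : 1 ≤ n) {K : Set (Fin n → ℝ)} (hK : IsBody K) :
    isoConst K = isoConst (stdSimp n) ↔ nrat K = 1 := by
  rw [isoConst_stdSimp, isoConst_eq, Real.rpow_left_inj
    (mul_nonneg (sxConst_pos n).le (nrat_nonneg hK.2.1)) (sxConst_pos n).le (expo_pos hn).ne',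
    mul_eq_left₀ (sxConst_pos n).ne']

/-- A body in a larger dimension with the same ratio. -/
lemma lift_body {n N : ℕ} (hN : n < N) {K : Set (Fin n → ℝ)} (hK : IsBody K) :
    ∃ K' : Set (Fin N → ℝ), IsBody K' ∧ nrat K' = nrat K ∧
      (IsSimplexBody K' → IsSimplexBody K) := by
  obtain ⟨m, rfl⟩ := Nat.exists_eq_add_of_lt hN
  have hS : IsBody (stdSimp m) := by rw [stdSimp_eq_sx]; exact sx_isBody m
  let e : ((Fin n ⊕ Fin m) ⊕ Unit) ≃ Fin (n + m + 1) := Fintype.equivFinOfCardEq (by simp)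
  refine ⟨reindexSet e (joinBody K (stdSimp m)), isBody_reindexSet e (joinBody_isBody hK hS), ?_,
    fun h => isSimplexBody_of_joinBody hK hS (isSimplexBody_reindexSet_iff e h)⟩
  rw [nrat_reindexSet, nrat_joinBody hK hS, nrat_stdSimp, mul_one]

theorem ineqAt_mono {n N : ℕ} (hn : 1 ≤ n) (hN : n ≤ N) (h : IneqAt N) : IneqAt n := by
  rcases hN.eq_or_lt with rfl | hlt
  · exact h
  · intro K hK
    obtain ⟨K', hK', hr, -⟩ := lift_body hlt hK
    rw [isoConst_le_iff hn hK, ← hr]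
    exact (isoConst_le_iff (hn.trans hN) hK').1 (h K' hK')

theorem strongAt_mono {n N : ℕ} (hn : 1 ≤ n) (hN : n ≤ N) (h : StrongAt N) : StrongAt n := by
  rcases hN.eq_or_lt with rfl | hlt
  · exact h
  · intro K hK
    obtain ⟨K', hK', hr, hs⟩ := lift_body hlt hK
    obtain ⟨h1, h2⟩ := h K' hK'
    refine ⟨?_, fun he => hs (h2 ?_)⟩
    · rw [isoConst_le_iff hn hK, ← hr]
      exact (isoConst_le_iff (hn.trans hN) hK').1 h1
    · rw [isoConst_eq_iff (hn.trans hN) hK', hr]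
      exact (isoConst_eq_iff hn hK).1 he

lemma self_join {n : ℕ} {K : Set (Fin n → ℝ)} (hK : IsBody K) (k : ℕ) :
    ∃ (M : ℕ) (K' : Set (Fin M → ℝ)),
      M + 1 = 2 ^ k * (n + 1) ∧ IsBody K' ∧ nrat K' = nrat K ^ 2 ^ k := by
  induction k with
  | zero => exact ⟨n, K, by simp, hK, by simp⟩
  | succ k ih =>
    obtain ⟨M, K', hM, hK', hr⟩ := ih
    let e : ((Fin M ⊕ Fin M) ⊕ Unit) ≃ Fin (M + M + 1) := Fintype.equivFinOfCardEq (by simp)
    refine ⟨M + M + 1, reindexSet e (joinBody K' K'), ?_,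
      isBody_reindexSet e (joinBody_isBody hK' hK'), ?_⟩
    · rw [pow_succ, mul_comm (2 ^ k) 2, mul_assoc, ← hM]; omega
    · rw [nrat_reindexSet, nrat_joinBody hK' hK', hr, ← pow_add, pow_succ]
      ring_nf

lemma sxConst_le_exp : ∀ n : ℕ, sxConst n ≤ exp (-1) ^ (2 * n) := by
  intro n
  induction n with
  | zero => norm_num [sxConst]
  | succ n ih =>
    set m : ℝ := (n : ℝ) + 1 with hm
    have hm0 : 1 ≤ m := by rw [hm]; linarith [Nat.cast_nonneg (α := ℝ) n]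
    have l1 := Real.le_log_one_add_of_nonneg (show (0:ℝ) ≤ 2 / m by positivity)
    have l2 := Real.le_log_one_add_of_nonneg (show (0:ℝ) ≤ 1 / m by positivity)
    have hkey : exp 2 ≤ (1 + 2 / m) ^ (n + 1) * (1 + 1 / m) ^ 2 := by
      rw [← Real.le_log_iff_exp_le (by positivity), Real.log_mul (by positivity) (by positivity),
        Real.log_pow, Real.log_pow]
      push_cast
      rw [← hm]
      have a : 2 * (2 / m) / (2 / m + 2) = 2 / (m + 1) := by field_simp; ring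
      have b : 2 * (1 / m) / (1 / m + 2) = 2 / (2 * m + 1) := by field_simp; ring
      rw [a] at l1
      rw [b] at l2
      have c : (2:ℝ) ≤ m * (2 / (m + 1)) + 2 * (2 / (2 * m + 1)) := by
        rw [show m * (2 / (m + 1)) + 2 * (2 / (2 * m + 1)) =
          2 + 2 / ((m + 1) * (2 * m + 1)) by field_simp; ring]
        linarith [show (0:ℝ) ≤ 2 / ((m + 1) * (2 * m + 1)) by positivity]
      nlinarith
    have hstep : sxConst (n + 1) * ((1 + 2 / m) ^ (n + 1) * (1 + 1 / m) ^ 2) = sxConst n := by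
      unfold sxConst
      rw [Nat.factorial_succ]
      have : (n.factorial : ℝ) ≠ 0 := by positivity
      push_cast
      rw [← hm]
      have e1 : (n:ℝ) + 1 + 2 = m + 2 := by rw [hm]
      have e2 : (n:ℝ) + 2 = m + 1 := by rw [hm]; ring
      rw [e1, e2, show (1:ℝ) + 2 / m = (m + 2) / m by field_simp,
        show (1:ℝ) + 1 / m = (m + 1) / m by field_simp]
      simp only [div_pow]
      field_simp
      ring
    have h2 : exp (-1) ^ (2 * (n + 1)) * exp 2 = exp (-1) ^ (2 * n) := by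
      rw [← Real.exp_nat_mul, ← Real.exp_nat_mul, ← Real.exp_add]
      push_cast; congr 1; ring
    have : sxConst (n + 1) * exp 2 ≤ exp (-1) ^ (2 * (n + 1)) * exp 2 := by
      rw [h2]
      refine le_trans ?_ ih
      rw [← hstep]
      exact mul_le_mul_of_nonneg_left hkey (sxConst_pos _).le
    exact le_of_mul_le_mul_right this (exp_pos _)

lemma sxConst_ge {δ : ℝ} (hδ : 0 < δ) :
    ∃ M₀ : ℕ, 1 ≤ M₀ ∧ ∀ M ≥ M₀, (exp (-1) / (1 + δ) ^ 2) ^ (2 * M) ≤ sxConst M := by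
  obtain ⟨A, hA⟩ := exists_nat_ge (2 / δ + 3 / δ ^ 2 + 1)
  have h1 : (1:ℝ) ≤ A := le_trans (by linarith [show (0:ℝ) ≤ 2 / δ + 3 / δ ^ 2 by positivity]) hA
  refine ⟨A, by exact_mod_cast h1, fun M hM => ?_⟩
  have hM' : (A:ℝ) ≤ M := by exact_mod_cast hM
  have hM1 : (1:ℝ) ≤ M := h1.trans hM'
  have b1 : (M:ℝ) + 2 ≤ (1 + δ) * M := by
    have : 2 / δ ≤ (M:ℝ) := by linarith [show (0:ℝ) ≤ 3 / δ ^ 2 by positivity]
    rw [div_le_iff₀ hδ] at this
    linarith
  have b2 : (M:ℝ) + 2 ≤ (1 + δ) ^ (2 * M) := by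
    have h3 : 3 / δ ^ 2 ≤ (M:ℝ) := by linarith [show (0:ℝ) ≤ 2 / δ by positivity]
    rw [div_le_iff₀ (by positivity)] at h3
    have hb : (M:ℝ) * δ ≤ (1 + δ) ^ M := by
      have := one_add_mul_le_pow (by linarith : (-2:ℝ) ≤ δ) M
      linarith
    rw [mul_comm 2 M, pow_mul]
    nlinarith
  have hfac : ((M:ℝ) / exp 1) ^ M ≤ M.factorial := by
    refine le_trans ?_ (Stirling.le_factorial_stirling M)
    refine le_mul_of_one_le_left (by positivity) ?_
    rw [Real.one_le_sqrt]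
    nlinarith [Real.two_le_pi]
  unfold sxConst
  rw [le_div_iff₀ (by positivity), Real.exp_neg]
  calc ((exp 1)⁻¹ / (1 + δ) ^ 2) ^ (2 * M) * ((M + 1 : ℝ) ^ (M + 1) * (M + 2 : ℝ) ^ M)
      ≤ ((exp 1)⁻¹ / (1 + δ) ^ 2) ^ (2 * M) * ((M + 2 : ℝ) ^ (M + 1) * (M + 2 : ℝ) ^ M) := by
        gcongr; linarith
    _ = ((exp 1)⁻¹ / (1 + δ) ^ 2) ^ (2 * M) * ((M + 2 : ℝ) ^ (2 * M) * (M + 2 : ℝ)) := by ring
    _ ≤ ((exp 1)⁻¹ / (1 + δ) ^ 2) ^ (2 * M) * (((1 + δ) * M) ^ (2 * M) * (1 + δ) ^ (2 * M)) := by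
        gcongr
    _ = ((M:ℝ) / exp 1) ^ (2 * M) := by
        rw [← mul_pow, ← mul_pow]; congr 1; field_simp
    _ ≤ (M.factorial : ℝ) ^ 2 := by
        rw [mul_comm 2 M, pow_mul]; exact pow_le_pow_left₀ (by positivity) hfac 2

/-- The asymptotic form of the conjecture. -/
def AsympSharp : Prop :=
  ∀ ε : ℝ, 0 < ε → ∃ N : ℕ, ∀ n ≥ N, ∀ K : Set (Fin n → ℝ), IsBody K →
    isoConst K ≤ exp (-1) + ε

lemma pow_two_mul_rpow {x : ℝ} (hx : 0 ≤ x) {n : ℕ} (hn : 1 ≤ n) :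
    (x ^ (2 * n)) ^ ((1 : ℝ) / (2 * (n : ℝ))) = x := by
  rw [← Real.rpow_natCast, ← Real.rpow_mul hx]
  push_cast
  rw [mul_one_div_cancel (by positivity), Real.rpow_one]

theorem asymp_of_ineq (h : ∀ n, 1 ≤ n → IneqAt n) : AsympSharp := by
  intro ε hε
  refine ⟨1, fun n hn K hK => (h n hn K hK).trans ?_⟩
  rw [isoConst_stdSimp]
  refine le_trans (Real.rpow_le_rpow (sxConst_pos n).le (sxConst_le_exp n) (expo_pos hn).le) ?_
  rw [pow_two_mul_rpow (exp_pos _).le hn]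
  linarith

theorem ineq_of_asymp (h : AsympSharp) {n : ℕ} (hn : 1 ≤ n) : IneqAt n := by
  intro K hK
  rw [isoConst_le_iff hn hK]
  by_contra hgt
  push Not at hgt
  set r := nrat K
  set q : ℝ := r ^ ((1 : ℝ) / (2 * ((n : ℝ) + 1))) with hq
  have hr0 : 0 < r := by linarith
  have hq1 : 1 < q := Real.one_lt_rpow hgt (by positivity)
  -- choose δ with exp (-1) * q / (1+δ)^2 > exp (-1) * (1 + (q-1)/4)
  set δ : ℝ := min ((q - 1) / (8 * q)) 1 with hδ
  have hδ0 : 0 < δ := lt_min (div_pos (by linarith) (by linarith)) one_pos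
  set ε : ℝ := exp (-1) * ((q - 1) / 4) with hε
  obtain ⟨M₀, hM₀, hbound⟩ := sxConst_ge hδ0
  obtain ⟨N, hN⟩ := h ε (mul_pos (exp_pos _) (by linarith))
  obtain ⟨M, K', hM, hK', hr⟩ := self_join hK (N + M₀)
  have hMlarge : N ≤ M ∧ M₀ ≤ M := by
    have h1 : N + M₀ < 2 ^ (N + M₀) := Nat.lt_two_pow_self
    have h2 : 2 ^ (N + M₀) ≤ 2 ^ (N + M₀) * (n + 1) := Nat.le_mul_of_pos_right _ (by omega)
    omega
  have hM1 : 1 ≤ M := by omega
  have hup := hN M hMlarge.1 K' hK'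
  rw [isoConst_eq, hr, Real.mul_rpow (sxConst_pos M).le (by positivity)] at hup
  have ha : exp (-1) / (1 + δ) ^ 2 ≤ sxConst M ^ ((1 : ℝ) / (2 * (M : ℝ))) := by
    have := Real.rpow_le_rpow (by positivity) (hbound M hMlarge.2) (expo_pos hM1).le
    rwa [pow_two_mul_rpow (by positivity) hM1] at this
  have hb : q ≤ (r ^ 2 ^ (N + M₀)) ^ ((1 : ℝ) / (2 * (M : ℝ))) := by
    rw [← Real.rpow_natCast r, ← Real.rpow_mul hr0.le, hq]
    refine Real.rpow_le_rpow_of_exponent_le hgt.le ?_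
    have e : (M:ℝ) + 1 = ((2 ^ (N + M₀) : ℕ) : ℝ) * ((n:ℝ) + 1) := by exact_mod_cast hM
    have hM' : (1:ℝ) ≤ M := by exact_mod_cast hM1
    rw [mul_one_div, div_le_div_iff₀ (by positivity) (by positivity)]
    nlinarith
  have hlow : exp (-1) / (1 + δ) ^ 2 * q ≤ exp (-1) + ε :=
    le_trans (mul_le_mul ha hb (by linarith) (Real.rpow_nonneg (sxConst_pos M).le _)) hup
  have hd2 : (1 + δ) ^ 2 * (1 + (q - 1) / 4) < q := by
    have h1 : δ ≤ (q - 1) / (8 * q) := min_le_left _ _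
    have h2 : δ ≤ 1 := min_le_right _ _
    have h3 : δ * (8 * q) ≤ q - 1 := (le_div_iff₀ (by linarith)).1 h1
    have h4 : (1 + δ) ^ 2 ≤ 1 + 3 * δ := by nlinarith
    calc (1 + δ) ^ 2 * (1 + (q - 1) / 4) ≤ (1 + 3 * δ) * (1 + (q - 1) / 4) :=
          mul_le_mul_of_nonneg_right h4 (by linarith)
      _ < q := by nlinarith
  have : exp (-1) * q ≤ exp (-1) * ((1 + δ) ^ 2 * (1 + (q - 1) / 4)) := by
    rw [div_mul_eq_mul_div, div_le_iff₀ (by positivity), hε] at hlow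
    nlinarith
  have := le_of_mul_le_mul_left this (exp_pos _)
  linarith

end Vale.Agent.P254
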