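import Vale.Agent.P254.Affine
import Vale.Agent.P254.Reduce

/-!
Polytopes with `n + 2` vertices.
-/

open MeasureTheory Set Matrix Finset

namespace Vale.Agent.P254

variable {n : ℕ}

/-- The standard simplex with one more vertex `z`. -/
def addVert (z : Fin n → ℝ) : Set (Fin n → ℝ) :=
  convexHull ℝ (insert z (insert 0 (range fun i => Pi.single i (1 : ℝ))))

/-- The linear map fixing `e_j` for `j ≠ i` and sending `e_i` to `z`. -/
def swapMap (z : Fin n → ℝ) (i : Fin n) : Matrix (Fin n) (Fin n) ℝ :=
  (1 : Matrix (Fin n) (Fin n) ℝ).updateCol i z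

lemma swapMap_mulVec (z : Fin n → ℝ) (i : Fin n) (x : Fin n → ℝ) :
    swapMap z i *ᵥ x = x + x i • (z - Pi.single i 1) := by
  funext j
  simp only [swapMap, Matrix.mulVec, dotProduct, Matrix.updateCol_apply, Matrix.one_apply,
    Pi.add_apply, Pi.smul_apply, Pi.sub_apply, smul_eq_mul, Pi.single_apply]
  rw [Finset.sum_eq_add_sum_sdiff_singleton_of_mem (Finset.mem_univ i)]
  by_cases h : j = i
  · subst h
    have : ∑ k ∈ Finset.univ \ {j}, (if k = j then z j else if j = k then 1 else 0) * x k = 0 :=
      Finset.sum_eq_zero fun k hk => by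
        simp at hk; simp [hk, Ne.symm hk]
    rw [this]
    simp
    ring
  · have : ∑ k ∈ Finset.univ \ {i}, (if k = i then z j else if j = k then 1 else 0) * x k = x j := by
      rw [Finset.sum_eq_single j]
      · simp [h]
      · intro k hk hkj
        simp at hk
        simp [hk, Ne.symm hkj]
      · simp [h]
    rw [this]
    simp [h]
    ring

lemma swapMap_det (z : Fin n → ℝ) (i : Fin n) : (swapMap z i).det = z i := by
  have h := Matrix.cramer_apply (1 : Matrix (Fin n) (Fin n) ℝ) z i
  rw [Matrix.cramer_one] at h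
  simpa [swapMap] using h.symm

lemma sx_null_hyperplane (i : Fin n) : volume {x : Fin n → ℝ | x i = 0} = 0 := by
  have h : {x : Fin n → ℝ | x i = 0} ⊆
      ((LinearMap.ker (LinearMap.proj i : (Fin n → ℝ) →ₗ[ℝ] ℝ)) : Set (Fin n → ℝ)) := fun x hx => hx
  refine measure_mono_null h (Measure.addHaar_submodule volume _ ?_)
  intro htop
  have h1 := (htop ▸ Submodule.mem_top : (Pi.single i (1:ℝ) : Fin n → ℝ) ∈
    LinearMap.ker (LinearMap.proj i : (Fin n → ℝ) →ₗ[ℝ] ℝ))
  simp at h1

variable {z : Fin n → ℝ}

/-- The negative coordinates of `z`. -/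
noncomputable def negSet (z : Fin n → ℝ) : Finset (Fin n) := Finset.univ.filter fun i => z i < 0

lemma zero_mem_sx : (0 : Fin n → ℝ) ∈ sx n := by simp [sx]

lemma piece_subset (i : Fin n) : (swapMap z i *ᵥ ·) '' sx n ⊆ addVert z := by
  have himg : (swapMap z i *ᵥ ·) '' sx n = (swapMap z i).toLin' '' stdSimp n := by
    rw [stdSimp_eq_sx]; rfl
  rw [himg, stdSimp, LinearMap.image_convexHull]
  refine convexHull_mono ?_
  rintro _ ⟨x, hx, rfl⟩
  rcases hx with rfl | ⟨k, rfl⟩
  · simp
  · by_cases h : k = i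
    · subst h
      left
      rw [toLin'_apply, swapMap_mulVec]
      simp
    · right; right
      refine ⟨k, ?_⟩
      rw [toLin'_apply, swapMap_mulVec]
      simp [Pi.single_apply, Ne.symm h]

lemma addVert_cover (h0 : ∑ i, z i < 1) :
    addVert z = sx n ∪ ⋃ i ∈ negSet z, (swapMap z i *ᵥ ·) '' sx n := by
  refine Subset.antisymm ?_ ?_
  · intro y hy
    rw [addVert, convexHull_insert ⟨0, mem_insert _ _⟩,
      show convexHull ℝ (insert 0 (range fun i => Pi.single i (1 : ℝ))) = sx n from
        stdSimp_eq_sx n] at hy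
    obtain ⟨z', hz', p, hp, ξ, η, hξ, hη, hsum, hyeq⟩ := mem_convexJoin.1 hy
    rw [Set.mem_singleton_iff] at hz'
    rw [hz'] at hyeq
    subst hyeq
    set y := ξ • z + η • p with hyd
    by_cases hstd : y ∈ sx n
    · exact Or.inl hstd
    right
    simp only [mem_iUnion]
    have hyi : ∀ j, y j = ξ * z j + η * p j := fun j => rfl
    have hys : ∑ j, y j + ξ * (1 - ∑ j, z j) ≤ 1 := by
      simp only [hyi, Finset.sum_add_distrib, ← Finset.mul_sum]
      nlinarith [hp.2]
    have hneg : ∃ j ∈ negSet z, y j < 0 := by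
      by_contra hno
      push Not at hno
      apply hstd
      refine ⟨fun j => ?_, ?_⟩
      · by_cases hj : z j < 0
        · exact hno j (by simp [negSet, hj])
        · push Not at hj
          rw [hyi]
          exact add_nonneg (mul_nonneg hξ hj) (mul_nonneg hη (hp.1 j))
      · nlinarith [hys]
    obtain ⟨j₀, hj₀, hyj₀⟩ := hneg
    obtain ⟨i, hi, hmax⟩ := Finset.exists_max_image (negSet z) (fun j => y j / z j) ⟨j₀, hj₀⟩
    have hzi : z i < 0 := by simpa [negSet] using hi
    have hz0 : z j₀ < 0 := by simpa [negSet] using hj₀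
    set τ := y i / z i with hτ
    have hτ0 : 0 < τ := lt_of_lt_of_le (div_pos_of_neg_of_neg hyj₀ hz0) (hmax j₀ hj₀)
    have hτi : y i = τ * z i := by rw [hτ, div_mul_cancel₀ _ hzi.ne]
    have hτξ : τ ≤ ξ := by
      rw [hτ, div_le_iff_of_neg hzi, hyi]
      nlinarith [mul_nonneg hη (hp.1 i)]
    set c : Fin n → ℝ := fun j => if j = i then τ else y j - τ * z j with hcdef
    have hc : ∀ j, j ≠ i → 0 ≤ y j - τ * z j := by
      intro j _
      by_cases hj : z j < 0
      · have := hmax j (by simp [negSet, hj])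
        rw [div_le_iff_of_neg hj] at this
        linarith
      · push Not at hj
        rw [hyi]
        nlinarith [mul_nonneg hη (hp.1 j)]
    refine ⟨i, hi, c, ⟨fun j => ?_, ?_⟩, ?_⟩
    · by_cases h : j = i
      · simp [hcdef, h, hτ0.le]
      · simpa [hcdef, h] using hc j h
    · have hcs : ∑ j, c j = ∑ j, (y j - τ * z j) + τ := by
        rw [Finset.sum_eq_add_sum_sdiff_singleton_of_mem (Finset.mem_univ i),
          Finset.sum_eq_add_sum_sdiff_singleton_of_mem (Finset.mem_univ i) (f := fun j => y j - τ * z j)]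
        have : ∑ j ∈ Finset.univ \ {i}, c j = ∑ j ∈ Finset.univ \ {i}, (y j - τ * z j) :=
          Finset.sum_congr rfl fun j hj => by
            simp at hj; simp [hcdef, hj]
        rw [this, hτi, show c i = τ by simp [hcdef]]
        ring
      rw [hcs, Finset.sum_sub_distrib, ← Finset.mul_sum]
      nlinarith
    · funext j
      simp only [swapMap_mulVec]
      by_cases h : j = i
      · subst h; simp [hcdef, hτi]; ring
      · simp [hcdef, h]
  · refine union_subset ?_ (iUnion₂_subset fun i _ => piece_subset i)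
    rw [← stdSimp_eq_sx]
    exact convexHull_mono (subset_insert _ _)

lemma piece_overlap_std {i : Fin n} (hi : z i < 0) :
    volume (sx n ∩ (swapMap z i *ᵥ ·) '' sx n) = 0 := by
  refine measure_mono_null (fun y hy => ?_) (sx_null_hyperplane i)
  obtain ⟨hy1, x, hx, rfl⟩ := hy
  have h1 := hy1.1 i
  simp only [swapMap_mulVec, Pi.add_apply, Pi.smul_apply, Pi.sub_apply, smul_eq_mul,
    Pi.single_eq_same] at h1
  show (swapMap z i *ᵥ x) i = 0
  simp [swapMap_mulVec]
  nlinarith [hx.1 i]

lemma piece_overlap {i j : Fin n} (hij : i ≠ j) (hi : z i < 0) (hj : z j < 0) :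
    volume ((swapMap z i *ᵥ ·) '' sx n ∩ (swapMap z j *ᵥ ·) '' sx n) = 0 := by
  have hsub : (swapMap z i *ᵥ ·) '' sx n ∩ (swapMap z j *ᵥ ·) '' sx n ⊆
      (swapMap z j).toLin' '' {x | x i = 0} := by
    rintro y ⟨⟨x, hx, rfl⟩, x', hx', he⟩
    refine ⟨x', ?_, he⟩
    have ei := congrFun he i
    have ej := congrFun he j
    simp only [swapMap_mulVec, Pi.add_apply, Pi.smul_apply, Pi.sub_apply, smul_eq_mul,
      Pi.single_eq_same, Pi.single_eq_of_ne hij, Pi.single_eq_of_ne hij.symm, sub_zero] at ei ej
    have hp : x i - x' j = x' i / z i := by rw [eq_div_iff hi.ne]; linarith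
    have hq : x' j - x i = x j / z j := by rw [eq_div_iff hj.ne]; linarith
    have h1 : x' i / z i ≤ 0 := div_nonpos_of_nonneg_of_nonpos (hx'.1 i) hi.le
    have h2 : x j / z j ≤ 0 := div_nonpos_of_nonneg_of_nonpos (hx.1 j) hj.le
    have : x' i / z i = 0 := by linarith
    exact (div_eq_zero_iff.1 this).resolve_right hi.ne
  refine measure_mono_null hsub ?_
  rw [Measure.addHaar_image_linearMap, sx_null_hyperplane, mul_zero]

lemma setIntegral_addVert (h0 : ∑ i, z i < 1) {f : (Fin n → ℝ) → ℝ} (hf : Continuous f) :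
    ∫ y in addVert z, f y = (∫ x in sx n, f x) +
      ∑ i ∈ negSet z, -z i * ∫ x in sx n, f (x + x i • (z - Pi.single i 1)) := by
  have hc : ∀ i, Continuous (fun x : Fin n → ℝ => swapMap z i *ᵥ x) := fun i =>
    (Matrix.toLin' (swapMap z i)).continuous_of_finiteDimensional
  have hcomp : ∀ i, IsCompact ((swapMap z i *ᵥ ·) '' sx n) := fun i =>
    (sx_isCompact n).image (hc i)
  have hint : ∀ i, IntegrableOn f ((swapMap z i *ᵥ ·) '' sx n) := fun i =>
    hf.continuousOn.integrableOn_compact (hcomp i)
  have hU : ∀ s : Finset (Fin n), IntegrableOn f (⋃ i ∈ s, (swapMap z i *ᵥ ·) '' sx n) :=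
    fun s => hf.continuousOn.integrableOn_compact (s.isCompact_biUnion fun i _ => hcomp i)
  have hval : ∀ i ∈ negSet z, ∫ y in (swapMap z i *ᵥ ·) '' sx n, f y =
      -z i * ∫ x in sx n, f (x + x i • (z - Pi.single i 1)) := by
    intro i hi
    have hzi : z i < 0 := by simpa [negSet] using hi
    have hd : (swapMap z i).det ≠ 0 := by rw [swapMap_det]; exact hzi.ne
    have hfun : (swapMap z i *ᵥ ·) = (affMap 0 (swapMap z i) : (Fin n → ℝ) → Fin n → ℝ) := by
      funext x; simp [affMap_apply]
    rw [hfun, setIntegral_affMap hd (sx_isCompact n).measurableSet, swapMap_det, abs_of_neg hzi]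
    simp only [affMap_apply, zero_add, swapMap_mulVec]
  rw [addVert_cover h0, setIntegral_union₀ ?_ ?_ (hf.continuousOn.integrableOn_compact
    (sx_isCompact n)) (hU _)]
  · congr 1
    have : ∀ s : Finset (Fin n), s ⊆ negSet z →
        ∫ y in ⋃ i ∈ s, (swapMap z i *ᵥ ·) '' sx n, f y =
          ∑ i ∈ s, ∫ y in (swapMap z i *ᵥ ·) '' sx n, f y := by
      intro s
      induction s using Finset.induction with
      | empty => simp
      | insert a t hat ih =>
        intro hs
        rw [Finset.set_biUnion_insert, setIntegral_union₀ ?_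
          (t.isCompact_biUnion fun i _ => hcomp i).measurableSet.nullMeasurableSet (hint a) (hU t),
          Finset.sum_insert hat, ih ((Finset.subset_insert a t).trans hs)]
        unfold AEDisjoint
        rw [inter_iUnion₂]
        refine (measure_biUnion_null_iff t.countable_toSet).2 ?_
        intro j hj
        exact piece_overlap (fun h => hat (h ▸ hj))
          (by simpa [negSet] using hs (Finset.mem_insert_self a t))
          (by simpa [negSet] using hs (Finset.mem_insert_of_mem hj))
    rw [this _ subset_rfl]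
    exact Finset.sum_congr rfl hval
  · unfold AEDisjoint
    rw [inter_iUnion₂]
    refine (measure_biUnion_null_iff (negSet z).countable_toSet).2 ?_
    intro j hj
    exact piece_overlap_std (by simpa [negSet] using hj)
  · exact ((negSet z).isCompact_biUnion fun i _ => hcomp i).measurableSet.nullMeasurableSet

lemma addVert_isBody (z : Fin n → ℝ) : IsBody (addVert z) := by
  refine ⟨convex_convexHull _ _, ?_, ?_⟩
  · exact (((finite_range _).insert _).insert _).isCompact_convexHull (𝕜 := ℝ)
  · obtain ⟨-, -, h⟩ := sx_isBody n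
    rw [← stdSimp_eq_sx] at h
    exact h.mono (interior_mono (convexHull_mono (subset_insert _ _)))

lemma det_rank_three (z o s : Fin n → ℝ) (c : ℝ) :
    (1 + (Matrix.of fun i (k : Fin 3) => ![z i, o i, s i] k) *
      (Matrix.of fun (k : Fin 3) j => ![z j, -o j, c * s j] k) : Matrix (Fin n) (Fin n) ℝ).det =
    (1 + z ⬝ᵥ z) * ((1 - o ⬝ᵥ o) * (1 + c * (s ⬝ᵥ s)) + c * (o ⬝ᵥ s) ^ 2)
      - (z ⬝ᵥ o) * (-(z ⬝ᵥ o) * (1 + c * (s ⬝ᵥ s)) + c * (z ⬝ᵥ s) * (o ⬝ᵥ s))
      + (z ⬝ᵥ s) * (-(z ⬝ᵥ o) * (c * (o ⬝ᵥ s)) - c * (z ⬝ᵥ s) * (1 - o ⬝ᵥ o)) := by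
  rw [det_one_add_mul_comm, det_fin_three]
  simp only [Matrix.add_apply, Matrix.mul_apply, Matrix.of_apply, Matrix.one_apply]
  simp only [Fin.isValue, Matrix.cons_val_zero, Matrix.cons_val_one, Matrix.cons_val, ite_true,
    dotProduct, neg_mul, Finset.sum_neg_distrib, mul_assoc, ← Finset.mul_sum]
  simp [mul_comm (o _) (z _), mul_comm (s _) (z _), mul_comm (s _) (o _)]
  ring

theorem nrat_addVert (h0 : ∑ i, z i < 1) :
    1 - nrat (addVert z) =
      (1 - ((∑ i, (max (z i) 0) ^ 2) + (1 - ∑ i, z i) ^ 2) /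
        (1 + ∑ i ∈ negSet z, -z i) ^ 2) *
      (1 - (1 + ∑ i ∈ negSet z, z i ^ 2) / (1 + ∑ i ∈ negSet z, -z i) ^ 2) := by
  set W := 1 + ∑ i ∈ negSet z, -z i with hW
  have hW1 : 1 ≤ W := by
    rw [hW]
    have : 0 ≤ ∑ i ∈ negSet z, -z i := Finset.sum_nonneg fun i hi => by
      have : z i < 0 := by simpa [negSet] using hi
      linarith
    linarith
  have hW0 : W ≠ 0 := by linarith
  set p : Fin n → ℝ := fun j => max (z j) 0 with hp
  have hpz : ∀ j, (if j ∈ negSet z then -z j else 0) = p j - z j := by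
    intro j
    by_cases h : z j < 0
    · simp [negSet, h, hp, h.le]
    · push Not at h; simp [negSet, not_lt.2 h, hp, h]
  have hsel : ∀ (j : Fin n) (g : Fin n → ℝ),
      ∑ i ∈ negSet z, -z i * (if j = i then g i else 0) = (p j - z j) * g j := by
    intro j g
    rw [← hpz]
    simp [mul_ite, Finset.sum_ite_eq]
  set o : Fin n → ℝ := fun j => p j / W with ho
  set s : Fin n → ℝ := fun j => 1 + z j - o j with hs
  have hn1 : (n.factorial : ℝ) ≠ 0 := by positivity
  have hvol : vol (addVert z) = W / n.factorial := by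
    rw [← setIntegral_one, setIntegral_addVert h0 continuous_const, setIntegral_one, sx_vol,
      ← Finset.sum_mul, hW]
    ring
  have hm1 : ∀ j, ∫ y in addVert z, y j = (W * (1 + z j) - p j) / (n + 1).factorial := by
    intro j
    rw [setIntegral_addVert h0 (continuous_apply j)]
    have hterm : ∀ i, ∫ (x : Fin n → ℝ) in sx n, ((x + x i • (z - Pi.single i (1:ℝ)) : Fin n → ℝ) j) =
        ((1 + z j) - if j = i then 1 else 0) / (n + 1).factorial := by
      intro i
      have h1 : IntegrableOn (fun x : Fin n → ℝ => x j) (sx n) :=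
        (continuous_apply j).continuousOn.integrableOn_compact (sx_isCompact n)
      have h2 : IntegrableOn (fun x : Fin n → ℝ => x i * (z j - if j = i then 1 else 0)) (sx n) :=
        (by fun_prop : Continuous fun x : Fin n → ℝ => x i * (z j - if j = i then 1 else 0)
          ).continuousOn.integrableOn_compact (sx_isCompact n)
      simp only [Pi.add_apply, Pi.smul_apply, Pi.sub_apply, smul_eq_mul, Pi.single_apply]
      rw [integral_add h1 h2, integral_mul_const, sx_mean, sx_mean]
      ring
    simp only [hterm, sx_mean, mul_div_assoc', mul_sub, Finset.sum_sub_distrib, sub_div,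
      ← Finset.sum_div, ← Finset.sum_mul, hsel j (fun _ => 1)]
    rw [hW]
    ring
  have hm2 : ∀ j k, ∫ y in addVert z, y j * y k =
      (W * ((if j = k then 1 else 0) + (1 + z j) * (1 + z k) + z j * z k)
        - ((1 + z j) * p k + p j * (1 + z k))) / (n + 2).factorial := by
    intro j k
    rw [setIntegral_addVert h0 ((continuous_apply j).fun_mul (continuous_apply k))]
    have hterm : ∀ i, ∫ (x : Fin n → ℝ) in sx n,
        ((x + x i • (z - Pi.single i (1:ℝ)) : Fin n → ℝ) j) * ((x + x i • (z - Pi.single i (1:ℝ)) : Fin n → ℝ) k) =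
        (((if j = k then 1 else 0) + (1 + z j) * (1 + z k) + z j * z k)
          - (if j = i then 1 + z k else 0) - (if k = i then 1 + z j else 0)
          + (if j = i then (if k = i then 1 else 0) else 0) - (if j = i then (if k = i then 1 else 0) else 0))
          / (n + 2).factorial +
        ((if j = i then (if k = i then 1 else 0) else 0) * 0) := by
      intro i
      have hint : ∀ a b : Fin n, IntegrableOn (fun x : Fin n → ℝ => x a * x b) (sx n) := fun a b =>
        ((continuous_apply a).mul (continuous_apply b)).continuousOn.integrableOn_compact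
          (sx_isCompact n)
      simp only [Pi.add_apply, Pi.smul_apply, Pi.sub_apply, smul_eq_mul]
      set dj := z j - (Pi.single i (1:ℝ) : Fin n → ℝ) j with hdj
      set dk := z k - (Pi.single i (1:ℝ) : Fin n → ℝ) k with hdk
      have e : (fun x : Fin n → ℝ => (x j + x i * dj) * (x k + x i * dk)) = fun x =>
          x j * x k + dk * (x j * x i) + dj * (x i * x k) + dj * dk * (x i * x i) := by
        funext x; ring
      have a0 : IntegrableOn (fun x : Fin n → ℝ => dk * (x j * x i)) (sx n) := (hint j i).const_mul _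
      have a1 : IntegrableOn (fun x : Fin n → ℝ => dj * (x i * x k)) (sx n) := (hint i k).const_mul _
      have a2 : IntegrableOn (fun x : Fin n → ℝ => dj * dk * (x i * x i)) (sx n) :=
        (hint i i).const_mul _
      have a3 : IntegrableOn (fun x : Fin n → ℝ => x j * x k + dk * (x j * x i)) (sx n) :=
        (hint j k).add a0
      have a4 : IntegrableOn
          (fun x : Fin n → ℝ => x j * x k + dk * (x j * x i) + dj * (x i * x k)) (sx n) := a3.add a1
      rw [e, integral_add a4 a2, integral_add a3 a1,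
        integral_add (hint j k) a0, integral_const_mul, integral_const_mul,
        integral_const_mul, sx_second, sx_second, sx_second, sx_second, if_pos rfl, hdj, hdk]
      simp only [Pi.single_apply]
      by_cases h1 : j = i <;> by_cases h2 : k = i
      · subst h1; subst h2; simp; ring
      · subst h1; simp [h2, Ne.symm h2]; ring
      · subst h2; simp [h1, Ne.symm h1]; ring
      · simp [h1, h2, Ne.symm h1, Ne.symm h2]; ring
    simp only [hterm, mul_zero, add_zero, add_sub_cancel_right, sx_second, mul_div_assoc', mul_sub,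
      Finset.sum_sub_distrib, ← Finset.sum_div, ← Finset.sum_mul, hsel j (fun _ => 1 + z k),
      hsel k (fun _ => 1 + z j)]
    rw [hW]
    ring
  have hcov : covMat (addVert z) = (((n:ℝ) + 1) * (n + 2))⁻¹ •
      (1 + (Matrix.of fun i (k : Fin 3) => ![z i, o i, s i] k) *
        (Matrix.of fun (k : Fin 3) j => ![z j, -o j, -((n:ℝ) + 1)⁻¹ * s j] k)) := by
    ext j k
    rw [covMat_apply (addVert_isBody z).2.1 (addVert_isBody z).vol_pos.ne', hvol, hm1, hm1, hm2,
      Nat.factorial_succ (n + 1), Nat.factorial_succ n]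
    simp only [Matrix.smul_apply, Matrix.add_apply, Matrix.mul_apply, Matrix.of_apply,
      Fin.sum_univ_three, Matrix.cons_val_zero, Matrix.cons_val_one, Matrix.cons_val,
      Matrix.one_apply, smul_eq_mul, hs, ho]
    push_cast
    field_simp
    ring
  unfold nrat isoRatio
  rw [hcov, det_smul, det_rank_three, hvol, Fintype.card_fin, sxConst]
  -- the inner products
  set P := ∑ i, (max (z i) 0) ^ 2 with hP
  set M := ∑ i ∈ negSet z, z i ^ 2 with hM
  set σ := ∑ i, z i with hσ
  have hsp : ∑ i, p i = W - (1 - σ) := by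
    have : ∀ i, p i = z i + if i ∈ negSet z then -z i else 0 := fun i => by rw [hpz]; ring
    rw [Finset.sum_congr rfl (fun i _ => this i), Finset.sum_add_distrib, Finset.sum_ite_mem,
      Finset.univ_inter, hW]
    ring
  have hzp : ∑ i, z i * p i = P := Finset.sum_congr rfl fun i _ => by
    rcases le_total (z i) 0 with h | h <;> simp [hp, h, sq]
  have hzz : ∑ i, z i * z i = P + M := by
    rw [hP, hM, negSet, Finset.sum_filter, ← Finset.sum_add_distrib]
    refine Finset.sum_congr rfl fun i _ => ?_
    by_cases h : z i < 0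
    · simp [h, h.le, sq]
    · push Not at h; simp [not_lt.2 h, h, sq]
  have hpp : ∑ i, p i * p i = P := Finset.sum_congr rfl fun i _ => by simp [hp, sq]
  have d1 : z ⬝ᵥ z = P + M := hzz
  have d2 : z ⬝ᵥ o = P / W := by
    simp only [dotProduct, ho, mul_div_assoc', ← Finset.sum_div, hzp]
  have d3 : o ⬝ᵥ o = P / W ^ 2 := by
    simp only [dotProduct, ho, div_mul_div_comm, ← Finset.sum_div, hpp, sq]
  have d4 : z ⬝ᵥ s = σ + (P + M) - P / W := by
    simp only [dotProduct, hs, ho, mul_sub, mul_add, mul_one, mul_div_assoc', Finset.sum_sub_distrib,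
      Finset.sum_add_distrib, ← Finset.sum_div, hzp, hzz, ← hσ]
  have d5 : o ⬝ᵥ s = (W - (1 - σ)) / W + P / W - P / W ^ 2 := by
    simp only [dotProduct, hs, ho, mul_sub, mul_add, mul_one, div_mul_eq_mul_div, mul_div_assoc',
      Finset.sum_sub_distrib, Finset.sum_add_distrib, ← Finset.sum_div, hsp, hpp]
    rw [show ∑ i, p i * z i = P by rw [← hzp]; exact Finset.sum_congr rfl fun i _ => mul_comm _ _]
    field_simp
  have d6 : s ⬝ᵥ s = (n:ℝ) + (P + M) + P / W ^ 2 + 2 * σ - 2 * ((W - (1 - σ)) / W) - 2 * (P / W) := by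
    have e : ∀ i, s i * s i = 1 + z i * z i + p i * p i / W ^ 2 + 2 * z i - 2 * (p i / W)
        - 2 * (z i * p i / W) := fun i => by simp only [hs, ho]; ring
    simp only [dotProduct, e, Finset.sum_sub_distrib, Finset.sum_add_distrib, ← Finset.sum_div,
      ← Finset.mul_sum, hzp, hzz, hpp, hsp, ← hσ]
    simp
  rw [d1, d2, d3, d4, d5, d6]
  rw [inv_pow, mul_pow]
  field_simp
  ring

lemma simplex_of_no_neg (h0 : ∑ i, z i ≤ 1) (h : negSet z = ∅) : IsSimplexBody (addVert z) := by
  classical
  have hz : z ∈ stdSimp n := by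
    rw [stdSimp_eq_sx]
    refine ⟨fun i => ?_, h0⟩
    by_contra hi
    push Not at hi
    have : i ∈ negSet z := by simp [negSet, hi]
    rw [h] at this
    simp at this
  refine isSimplexBody_of_card_le (addVert_isBody z)
    (s := insert 0 (Finset.univ.image fun i => Pi.single i (1:ℝ))) ?_ ?_
  · simp only [Finset.coe_insert, Finset.coe_image, Finset.coe_univ, Set.image_univ]
    refine (Subset.antisymm (convexHull_mono (subset_insert _ _)) ?_)
    exact convexHull_min (insert_subset hz (subset_convexHull ℝ _)) (convex_convexHull _ _)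
  · refine (Finset.card_insert_le _ _).trans ?_
    have := Finset.card_image_le (s := (Finset.univ : Finset (Fin n)))
      (f := fun i => Pi.single i (1:ℝ))
    simp at this ⊢
    omega

lemma simplex_of_one_pos (h : ∀ i, z i ≤ 0) : IsSimplexBody (addVert z) := by
  classical
  refine isSimplexBody_of_card_le (addVert_isBody z)
    (s := insert z (Finset.univ.image fun i => Pi.single i (1:ℝ))) ?_ ?_
  · simp only [Finset.coe_insert, Finset.coe_image, Finset.coe_univ, Set.image_univ]
    refine Subset.antisymm (convexHull_mono (insert_subset_insert (subset_insert _ _))) ?_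
    refine convexHull_min (insert_subset (subset_convexHull ℝ _ (mem_insert _ _)) ?_)
      (convex_convexHull _ _)
    refine insert_subset ?_ ((subset_insert _ _).trans (subset_convexHull ℝ _))
    -- the origin is a convex combination of `z` and the unit vectors
    set W := 1 - ∑ i, z i with hW
    have hW0 : 0 < W := by
      have : ∑ i, z i ≤ 0 := Finset.sum_nonpos fun i _ => h i
      rw [hW]; linarith
    let w : Option (Fin n) → ℝ := fun o => o.elim W⁻¹ fun i => -z i / W
    let pt : Option (Fin n) → (Fin n → ℝ) := fun o => o.elim z fun i => Pi.single i 1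
    have hzero : (0 : Fin n → ℝ) = ∑ o, w o • pt o := by
      funext j
      simp [Fintype.sum_option, w, pt, Pi.single_apply, Finset.sum_apply]
      field_simp
      ring
    rw [hzero]
    refine (convex_convexHull ℝ _).sum_mem (fun o _ => ?_) ?_ (fun o _ => ?_)
    · cases o with
      | none => exact inv_nonneg.2 hW0.le
      | some i => exact div_nonneg (by linarith [h i]) hW0.le
    · simp only [Fintype.sum_option, w, Option.elim, ← Finset.sum_div, Finset.sum_neg_distrib]
      rw [hW] at hW0 ⊢
      field_simp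
      ring
    · cases o with
      | none => exact subset_convexHull ℝ _ (mem_insert _ _)
      | some i => exact subset_convexHull ℝ _ (mem_insert_of_mem _ ⟨i, rfl⟩)
  · refine (Finset.card_insert_le _ _).trans ?_
    have := Finset.card_image_le (s := (Finset.univ : Finset (Fin n)))
      (f := fun i => Pi.single i (1:ℝ))
    simp at this ⊢
    omega

theorem addVert_main (h0 : ∑ i, z i < 1) :
    nrat (addVert z) ≤ 1 ∧ (nrat (addVert z) = 1 → IsSimplexBody (addVert z)) := by
  have key := nrat_addVert h0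
  set W := 1 + ∑ i ∈ negSet z, -z i with hW
  set P := ∑ i, (max (z i) 0) ^ 2 with hP
  set σ0 := 1 - ∑ i, z i with hσ0
  have ha : ∀ i ∈ negSet z, 0 < -z i := fun i hi => by
    have : z i < 0 := by simpa [negSet] using hi
    linarith
  have hA0 : 0 ≤ ∑ i ∈ negSet z, -z i := Finset.sum_nonneg fun i hi => (ha i hi).le
  have hWs : W = σ0 + ∑ i, max (z i) 0 := by
    rw [hW, hσ0, negSet, Finset.sum_filter]
    have : ∀ i, (if z i < 0 then -z i else 0) = max (z i) 0 - z i := fun i => by
      by_cases h : z i < 0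
      · simp [h, h.le]
      · push Not at h; simp [not_lt.2 h, h]
    simp only [this, Finset.sum_sub_distrib]
    ring
  have hW0 : 0 < W := by linarith
  have hsq : P ≤ (∑ i, max (z i) 0) ^ 2 :=
    Finset.sum_sq_le_sq_sum_of_nonneg fun i _ => le_max_right _ _
  have hps : 0 ≤ ∑ i, max (z i) 0 := Finset.sum_nonneg fun i _ => le_max_right _ _
  have hσp : 0 < σ0 := by rw [hσ0]; linarith
  have f1 : 0 ≤ 1 - (P + σ0 ^ 2) / W ^ 2 := by
    rw [sub_nonneg, div_le_one (by positivity), hWs]
    nlinarith
  have hM : ∑ i ∈ negSet z, z i ^ 2 ≤ (∑ i ∈ negSet z, -z i) ^ 2 := by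
    have := Finset.sum_sq_le_sq_sum_of_nonneg (s := negSet z) (f := fun i => -z i)
      (fun i hi => (ha i hi).le)
    simpa using this
  have f2 : 0 ≤ 1 - (1 + ∑ i ∈ negSet z, z i ^ 2) / W ^ 2 := by
    rw [sub_nonneg, div_le_one (by positivity), hW]
    nlinarith
  refine ⟨by nlinarith [mul_nonneg f1 f2], fun he => ?_⟩
  rw [he, sub_self, zero_eq_mul] at key
  rcases key with k | k
  · refine simplex_of_one_pos fun i => ?_
    rw [sub_eq_zero, eq_div_iff (by positivity), hWs] at k
    have : ∑ i, max (z i) 0 = 0 := by nlinarith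
    have := (Finset.sum_eq_zero_iff_of_nonneg (fun i _ => le_max_right _ _)).1 this i (Finset.mem_univ i)
    exact max_eq_right_iff.1 this
  · refine simplex_of_no_neg h0.le ?_
    rw [sub_eq_zero, eq_div_iff (by positivity), hW] at k
    by_contra hne
    have : 0 < ∑ i ∈ negSet z, -z i :=
      Finset.sum_pos ha (Finset.nonempty_iff_ne_empty.2 hne)
    nlinarith

theorem fewVert_main {K : Set (Fin n → ℝ)} (hn : 1 ≤ n) (hK : IsBody K)
    (S : Finset (Fin n → ℝ)) (hcard : S.card ≤ n + 2) (hS : convexHull ℝ (S : Set (Fin n → ℝ)) = K) :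
    nrat K ≤ 1 ∧ (nrat K = 1 → IsSimplexBody K) := by
  classical
  have htop : affineSpan ℝ (S : Set (Fin n → ℝ)) = ⊤ :=
    interior_convexHull_nonempty_iff_affineSpan_eq_top.1 (by rw [hS]; exact hK.2.2)
  obtain ⟨t, htS, htspan, htind⟩ := exists_affineIndependent ℝ (Fin n → ℝ) (S : Set (Fin n → ℝ))
  rw [htop] at htspan
  have htfin : t.Finite := S.finite_toSet.subset htS
  set T := htfin.toFinset
  have hTt : (T : Set (Fin n → ℝ)) = t := htfin.coe_toFinset
  haveI : Fintype t := htfin.fintype
  have hTcard : T.card = n + 1 := by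
    have h := htind.affineSpan_eq_top_iff_card_eq_finrank_add_one.1 (by simpa using htspan)
    rw [Module.finrank_fin_fun] at h
    rw [← h, Fintype.card_eq_nat_card, ← Set.ncard_eq_toFinset_card t htfin, Nat.card_coe_set_eq]
  have hTS : T ⊆ S := fun x hx => Finset.mem_coe.1 (htS (hTt ▸ Finset.mem_coe.2 hx))
  obtain ⟨v, hv⟩ : ∃ v : Fin (n + 1) → (Fin n → ℝ), range v = t ∧ AffineIndependent ℝ v := by
    let e : Fin (n + 1) ≃ T := (Finset.equivFinOfCardEq hTcard).symm
    let f : T ≃ t := Equiv.setCongr hTt |>.trans (Equiv.refl _)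
    refine ⟨fun k => ((f (e k) : t) : Fin n → ℝ), ?_, ?_⟩
    · exact ((e.trans f).surjective.range_comp _).trans Subtype.range_coe
    · exact htind.comp_embedding (e.trans f).toEmbedding
  obtain ⟨hvr, hvi⟩ := hv
  -- the extra point
  obtain ⟨q, hq⟩ : ∃ q, (S : Set (Fin n → ℝ)) ⊆ insert q t ∧ q ∈ S := by
    rcases (S \ T).eq_empty_or_nonempty with h | ⟨q, hq⟩
    · refine ⟨v 0, fun x hx => Or.inr ?_, Finset.mem_coe.1 (htS (hvr ▸ mem_range_self _))⟩
      rw [← hTt]
      exact Finset.sdiff_eq_empty_iff_subset.1 h hx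
    · refine ⟨q, fun x hx => ?_, (Finset.mem_sdiff.1 hq).1⟩
      by_cases hxT : x ∈ T
      · exact Or.inr (hTt ▸ Finset.mem_coe.2 hxT)
      · left
        have h1 : (S \ T).card ≤ 1 := by
          rw [Finset.card_sdiff_of_subset hTS, hTcard]; omega
        exact Finset.card_le_one.1 h1 x (Finset.mem_sdiff.2 ⟨hx, hxT⟩) q hq
  have hKeq : K = convexHull ℝ (insert q (range v)) := by
    rw [← hS, hvr]
    refine congrArg _ (Subset.antisymm hq.1 (insert_subset (Finset.mem_coe.2 hq.2) htS))
  have hvtop : affineSpan ℝ (range v) = ⊤ := by rw [hvr]; exact htspan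
  let b : AffineBasis (Fin (n + 1)) ℝ (Fin n → ℝ) := ⟨v, hvi, hvtop⟩
  -- choose the origin among the vertices with a positive coordinate
  obtain ⟨k₀, hk₀⟩ : ∃ k, 0 < b.coord k q := by
    by_contra h
    push Not at h
    have := b.sum_coord_apply_eq_one q
    linarith [Finset.sum_nonpos fun k (_ : k ∈ Finset.univ) => h k]
  let u : Fin n → Fin (n + 1) := fun i => k₀.succAbove i
  let M : Matrix (Fin n) (Fin n) ℝ := Matrix.of fun j i => v (u i) j - v k₀ j
  set z : Fin n → ℝ := fun i => b.coord (u i) q with hz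
  have hbv : ∀ k, b k = v k := fun k => rfl
  have hA : ∀ x, affMap (v k₀) M x = v k₀ + ∑ i, x i • (v (u i) - v k₀) := by
    intro x
    funext j
    simp [affMap_apply, M, Matrix.mulVec, dotProduct, Finset.sum_apply, mul_comm]
  have hAsum : ∀ x : Fin n → ℝ, affMap (v k₀) M x = (1 - ∑ i, x i) • v k₀ + ∑ i, x i • v (u i) := by
    intro x
    rw [hA]
    simp only [smul_sub, Finset.sum_sub_distrib, ← Finset.sum_smul, sub_smul, one_smul]
    abel
  have hsum1 : b.coord k₀ q + ∑ i, z i = 1 := by
    rw [← b.sum_coord_apply_eq_one q, Fin.sum_univ_succAbove _ k₀]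
  have hqz : affMap (v k₀) M z = q := by
    rw [hAsum, show 1 - ∑ i, z i = b.coord k₀ q by linarith]
    conv_rhs => rw [← b.linear_combination_coord_eq_self q, Fin.sum_univ_succAbove _ k₀]
    simp only [hbv, hz, u]
  have hM : M.det ≠ 0 := by
    intro hdet
    obtain ⟨x, hx0, hx⟩ := Matrix.exists_mulVec_eq_zero_iff.2 hdet
    have hc : ∀ i, b.coord (u i) (affMap (v k₀) M x) = x i := by
      intro i
      have hw : (affMap (v k₀) M x) = Finset.univ.affineCombination ℝ b
          (Fin.insertNth (α := fun _ => ℝ) k₀ (1 - ∑ i, x i) x) := by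
        rw [Finset.affineCombination_eq_linear_combination _ _ _ (by
          rw [Fin.sum_univ_succAbove _ k₀]; simp), hAsum, Fin.sum_univ_succAbove _ k₀]
        simp [hbv, u]
      rw [hw, b.coord_apply_combination_of_mem (Finset.mem_univ _) (by
        rw [Fin.sum_univ_succAbove _ k₀]; simp)]
      simp [u]
    apply hx0
    funext i
    have h2 : affMap (v k₀) M x = b k₀ := by rw [affMap_apply, hx, add_zero]; rfl
    rw [← hc i, h2, b.coord_apply_ne (Fin.succAbove_ne k₀ i), Pi.zero_apply]
  have himage : affMap (v k₀) M '' addVert z = K := by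
    rw [addVert, AffineMap.image_convexHull, hKeq, image_insert_eq, image_insert_eq, hqz]
    congr 2
    have e0 : affMap (v k₀) M 0 = v k₀ := by rw [affMap_apply]; simp
    have ei : ∀ i, affMap (v k₀) M (Pi.single i 1) = v (u i) := by
      intro i
      rw [hA, Finset.sum_eq_single i] <;> simp +contextual
    rw [e0, ← range_comp]
    ext y
    constructor
    · rintro (rfl | ⟨i, rfl⟩)
      · exact ⟨k₀, rfl⟩
      · exact ⟨u i, (ei i).symm⟩
    · rintro ⟨k, rfl⟩
      rcases Fin.eq_self_or_eq_succAbove k₀ k with rfl | ⟨i, rfl⟩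
      · exact Or.inl rfl
      · exact Or.inr ⟨i, ei i⟩
  have hlt : ∑ i, z i < 1 := by linarith
  obtain ⟨h1, h2⟩ := addVert_main hlt
  rw [← himage, nrat_affMap hM (addVert_isBody z)]
  refine ⟨h1, fun he => ?_⟩
  obtain ⟨w, hw, hweq⟩ := h2 he
  refine ⟨fun k => affMap (v k₀) M (w k), hw.map' _ (affMap_injective hM), ?_⟩
  rw [← hweq, AffineMap.image_convexHull, ← range_comp]
  rfl

end Vale.Agent.P254
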