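import Vale.Agent.P254.SimplexRatio

/-!
The normalised ratio is multiplicative under joins.
-/

open MeasureTheory Set Matrix
open scoped Pointwise

namespace Vale.Agent.P254

variable {ι κ : Type*} [Fintype ι] [Fintype κ]

/-- Projection to the first block. -/
def jx (z : (ι ⊕ κ) ⊕ Unit → ℝ) : ι → ℝ := fun i => z (Sum.inl (Sum.inl i))
/-- Projection to the second block. -/
def jy (z : (ι ⊕ κ) ⊕ Unit → ℝ) : κ → ℝ := fun j => z (Sum.inl (Sum.inr j))
/-- The height coordinate. -/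
def jt (z : (ι ⊕ κ) ⊕ Unit → ℝ) : ℝ := z (Sum.inr ())

/-- The point with blocks `x`, `y` and height `t`. -/
def jmk (x : ι → ℝ) (y : κ → ℝ) (t : ℝ) : (ι ⊕ κ) ⊕ Unit → ℝ :=
  Sum.elim (Sum.elim x y) (fun _ => t)

/-- The join of two bodies. -/
def joinBody (K : Set (ι → ℝ)) (L : Set (κ → ℝ)) : Set ((ι ⊕ κ) ⊕ Unit → ℝ) :=
  {z | jt z ∈ Icc (0:ℝ) 1 ∧ jx z ∈ (1 - jt z) • K ∧ jy z ∈ jt z • L}

variable {K : Set (ι → ℝ)} {L : Set (κ → ℝ)}

omit [Fintype ι] [Fintype κ] in
lemma jmk_self (z : (ι ⊕ κ) ⊕ Unit → ℝ) : jmk (jx z) (jy z) (jt z) = z := by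
  funext p; rcases p with (i | j) | ⟨⟩ <;> rfl

omit [Fintype ι] [Fintype κ] in
lemma joinBody_eq_image : joinBody K L =
    (fun p : ℝ × (ι → ℝ) × (κ → ℝ) => jmk ((1 - p.1) • p.2.1) (p.1 • p.2.2) p.1) ''
      (Icc (0:ℝ) 1 ×ˢ K ×ˢ L) := by
  ext z
  constructor
  · rintro ⟨ht, ⟨u, hu, hxu⟩, ⟨v, hv, hyv⟩⟩
    refine ⟨(jt z, u, v), ⟨ht, hu, hv⟩, ?_⟩
    change jmk ((1 - jt z) • u) (jt z • v) (jt z) = z
    rw [show (1 - jt z) • u = jx z from hxu, show jt z • v = jy z from hyv, jmk_self]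
  · rintro ⟨⟨t, u, v⟩, ⟨ht, hu, hv⟩, rfl⟩
    exact ⟨ht, ⟨u, hu, rfl⟩, ⟨v, hv, rfl⟩⟩

lemma joinBody_isCompact (hK : IsCompact K) (hL : IsCompact L) : IsCompact (joinBody K L) := by
  rw [joinBody_eq_image]
  refine (isCompact_Icc.prod (hK.prod hL)).image ?_
  refine continuous_pi fun p => ?_
  rcases p with (i | j) | ⟨⟩ <;> simp only [jmk, Sum.elim_inl, Sum.elim_inr] <;> fun_prop

omit [Fintype ι] [Fintype κ] in
lemma joinBody_convex (hK : Convex ℝ K) (hL : Convex ℝ L) : Convex ℝ (joinBody K L) := by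
  intro z hz w hw a b ha hb hab
  have ht : jt (a • z + b • w) = a * jt z + b * jt w := rfl
  have h1 : (1 : ℝ) - jt (a • z + b • w) = a * (1 - jt z) + b * (1 - jt w) := by
    rw [ht]; linear_combination (-1 : ℝ) * hab
  refine ⟨(convex_Icc (0:ℝ) 1) hz.1 hw.1 ha hb hab, ?_, ?_⟩
  · rw [h1, hK.add_smul (mul_nonneg ha (sub_nonneg.2 hz.1.2)) (mul_nonneg hb (sub_nonneg.2 hw.1.2)),
      mul_smul, mul_smul]
    exact add_mem_add (smul_mem_smul_set hz.2.1) (smul_mem_smul_set hw.2.1)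
  · rw [ht, hL.add_smul (mul_nonneg ha hz.1.1) (mul_nonneg hb hw.1.1), mul_smul, mul_smul]
    exact add_mem_add (smul_mem_smul_set hz.2.2) (smul_mem_smul_set hw.2.2)

lemma joinBody_isBody (hK : IsBody K) (hL : IsBody L) : IsBody (joinBody K L) := by
  refine ⟨joinBody_convex hK.1 hL.1, joinBody_isCompact hK.2.1 hL.2.1, ?_⟩
  obtain ⟨u, hu⟩ := hK.2.2
  obtain ⟨v, hv⟩ := hL.2.2
  refine ⟨jmk ((1 / 2 : ℝ) • u) ((1 / 2 : ℝ) • v) (1 / 2), ?_⟩
  refine mem_interior_iff_mem_nhds.2 ?_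
  have ct : Continuous (jt : ((ι ⊕ κ) ⊕ Unit → ℝ) → ℝ) := continuous_apply _
  set p := jmk ((1 / 2 : ℝ) • u) ((1 / 2 : ℝ) • v) (1 / 2) with hp
  have hfx : ContinuousAt (fun z => (1 - jt z)⁻¹ • jx z) p := by
    refine ContinuousAt.smul (ContinuousAt.inv₀ (continuousAt_const.sub ct.continuousAt) ?_)
      (continuous_pi fun i => continuous_apply _).continuousAt
    norm_num [hp, jt, jmk]
  have hfy : ContinuousAt (fun z => (jt z)⁻¹ • jy z) p := by
    refine ContinuousAt.smul (ContinuousAt.inv₀ ct.continuousAt ?_)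
      (continuous_pi fun i => continuous_apply _).continuousAt
    norm_num [hp, jt, jmk]
  have e1 : (1 - jt p)⁻¹ • jx p = u := by
    funext i; norm_num [hp, jt, jx, jmk]; ring
  have e2 : (jt p)⁻¹ • jy p = v := by
    funext i; norm_num [hp, jt, jy, jmk]; ring
  have h1 : ∀ᶠ z in nhds p, (1 - jt z)⁻¹ • jx z ∈ K := by
    apply hfx.preimage_mem_nhds
    rw [e1]; exact mem_interior_iff_mem_nhds.1 hu
  have h2 : ∀ᶠ z in nhds p, (jt z)⁻¹ • jy z ∈ L := by
    apply hfy.preimage_mem_nhds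
    rw [e2]; exact mem_interior_iff_mem_nhds.1 hv
  have h3 : ∀ᶠ z in nhds p, jt z ∈ Ioo (0:ℝ) 1 := by
    apply ct.continuousAt.preimage_mem_nhds
    exact Ioo_mem_nhds (by norm_num [hp, jt, jmk]) (by norm_num [hp, jt, jmk])
  filter_upwards [h1, h2, h3] with z a b c
  exact ⟨Ioo_subset_Icc_self c,
    (mem_smul_set_iff_inv_smul_mem₀ (by linarith [c.2]) _ _).2 a,
    (mem_smul_set_iff_inv_smul_mem₀ c.1.ne' _ _).2 b⟩

/-- Integrals over the join of functions homogeneous in each block. -/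
lemma integral_joinBody (hK : IsCompact K) (hL : IsCompact L)
    {A : ℝ → (ι → ℝ) → ℝ} {B : ℝ → (κ → ℝ) → ℝ} {C : ℝ → ℝ} (k l : ℕ)
    (hA : Continuous (fun p : ℝ × (ι → ℝ) => A p.1 p.2))
    (hB : Continuous (fun p : ℝ × (κ → ℝ) => B p.1 p.2)) (hC : Continuous C)
    (hAh : ∀ s : ℝ, 0 < s → ∀ u, A s (s • u) = s ^ k * A 1 u)
    (hBh : ∀ s : ℝ, 0 < s → ∀ u, B s (s • u) = s ^ l * B 1 u) :
    ∫ z in joinBody K L, A (1 - jt z) (jx z) * B (jt z) (jy z) * C (jt z) =
      (∫ u in K, A 1 u) * (∫ v in L, B 1 v) *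
        ∫ t in (0:ℝ)..1, (1 - t) ^ (Fintype.card ι + k) * t ^ (Fintype.card κ + l) * C t := by
  let e1 := MeasurableEquiv.sumPiEquivProdPi (fun _ : (ι ⊕ κ) ⊕ Unit => ℝ)
  let e2 := MeasurableEquiv.prodCongr (MeasurableEquiv.sumPiEquivProdPi (fun _ : ι ⊕ κ => ℝ))
    (MeasurableEquiv.funUnique Unit ℝ)
  let e := e1.trans e2
  have he : MeasurePreserving e volume (((volume : Measure (ι → ℝ)).prod
      (volume : Measure (κ → ℝ))).prod (volume : Measure ℝ)) :=
    (((volume_measurePreserving_sumPiEquivProdPi (fun _ : ι ⊕ κ => ℝ)).prod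
      (volume_preserving_funUnique Unit ℝ))).comp
      (volume_measurePreserving_sumPiEquivProdPi (fun _ : (ι ⊕ κ) ⊕ Unit => ℝ))
  have hev : ∀ z, e z = ((jx z, jy z), jt z) := fun z => rfl
  set T : Set (((ι → ℝ) × (κ → ℝ)) × ℝ) :=
    {q | q.2 ∈ Icc (0:ℝ) 1 ∧ q.1.1 ∈ (1 - q.2) • K ∧ q.1.2 ∈ q.2 • L} with hT
  have hpre : e ⁻¹' T = joinBody K L := by
    ext z; rw [mem_preimage, hev]; rfl
  have hTc : IsCompact T := by
    have : T = (fun z => ((jx z, jy z), jt z)) '' joinBody K L := by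
      ext q
      constructor
      · intro hq
        exact ⟨jmk q.1.1 q.1.2 q.2, hq, rfl⟩
      · rintro ⟨z, hz, rfl⟩; exact hz
    rw [this]
    exact (joinBody_isCompact hK hL).image
      (((continuous_pi fun i => continuous_apply _).prodMk
        (continuous_pi fun i => continuous_apply _)).prodMk (continuous_apply _))
  set F : ((ι → ℝ) × (κ → ℝ)) × ℝ → ℝ :=
    fun q => A (1 - q.2) q.1.1 * B q.2 q.1.2 * C q.2 with hF
  have hFc : Continuous F := by
    have a := hA.comp (f := fun q : ((ι → ℝ) × (κ → ℝ)) × ℝ => (1 - q.2, q.1.1)) (by fun_prop)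
    have b := hB.comp (f := fun q : ((ι → ℝ) × (κ → ℝ)) × ℝ => (q.2, q.1.2)) (by fun_prop)
    have c := hC.comp (f := fun q : ((ι → ℝ) × (κ → ℝ)) × ℝ => q.2) (by fun_prop)
    exact (a.mul b).mul c
  have hint : IntegrableOn F T (((volume : Measure (ι → ℝ)).prod
      (volume : Measure (κ → ℝ))).prod (volume : Measure ℝ)) :=
    hFc.continuousOn.integrableOn_compact hTc
  have hTm : MeasurableSet T := hTc.measurableSet
  rw [← hpre]
  have : (fun z => A (1 - jt z) (jx z) * B (jt z) (jy z) * C (jt z)) = fun z => F (e z) := rfl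
  rw [this, he.setIntegral_preimage_emb e.measurableEmbedding F T, ← integral_indicator hTm,
    integral_prod_symm _ (hint.integrable_indicator hTm)]
  have hae : (fun t => ∫ q, T.indicator F (q, t) ∂((volume : Measure (ι → ℝ)).prod
      (volume : Measure (κ → ℝ)))) =ᵐ[volume]
      (Icc (0:ℝ) 1).indicator (fun t => (∫ u in K, A 1 u) * (∫ v in L, B 1 v) *
        ((1 - t) ^ (Fintype.card ι + k) * t ^ (Fintype.card κ + l) * C t)) := by
    have hne0 : ∀ᵐ t : ℝ, t ≠ 0 := by rw [ae_iff]; simp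
    have hne1 : ∀ᵐ t : ℝ, t ≠ 1 := by rw [ae_iff]; simp
    filter_upwards [hne0, hne1] with t h0 h1
    have hind : (fun q => T.indicator F (q, t)) =
        ((fun q => (q, t)) ⁻¹' T).indicator (fun q => F (q, t)) := by
      funext q; exact (Set.indicator_comp_right (fun q => (q, t)) (g := F) (x := q)).symm
    by_cases h : t ∈ Icc (0:ℝ) 1
    · have ht0 : 0 < t := lt_of_le_of_ne h.1 (Ne.symm h0)
      have ht1 : 0 < 1 - t := by
        have : t < 1 := lt_of_le_of_ne h.2 h1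
        linarith
      have hs : (fun q => (q, t)) ⁻¹' T = ((1 - t) • K) ×ˢ (t • L) := by
        ext q; simp only [hT, mem_preimage, mem_ofPred_eq, mem_prod, h, true_and]
      rw [hind, integral_indicator (measurable_prodMk_right hTm), hs, indicator_of_mem h]
      simp only [hF]
      rw [integral_mul_const, setIntegral_prod_mul (fun x => A (1 - t) x) (fun y => B t y),
        setIntegral_smul_set _ _ _ ht1, setIntegral_smul_set _ _ _ ht0]
      simp only [hAh _ ht1, hBh _ ht0, integral_const_mul, Module.finrank_fintype_fun_eq_card,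
        pow_add]
      ring
    · rw [indicator_of_notMem h, hind]
      have : (fun q => (q, t)) ⁻¹' T = ∅ := by
        ext q; simp only [hT, mem_preimage, mem_ofPred_eq, h, false_and, mem_empty_iff_false]
      simp [this]
  rw [integral_congr_ae hae, integral_indicator measurableSet_Icc, integral_Icc_eq_integral_Ioc,
    ← intervalIntegral.integral_of_le zero_le_one, intervalIntegral.integral_const_mul]

end Vale.Agent.P254
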