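import Vale.Agent.P254.Join

/-!
`nrat (join K L) = nrat K * nrat L`.
-/

open MeasureTheory Set Matrix

namespace Vale.Agent.P254

lemma sxConst_join (a b : ℕ) :
    let N := a + b + 1
    ((((a:ℝ) + 1) * (a + 2) / (((N:ℝ) + 1) * (N + 2))) ^ a *
      ((((b:ℝ) + 1) * (b + 2)) / (((N:ℝ) + 1) * (N + 2))) ^ b *
      (((a:ℝ) + 1) * (b + 1) / (((N:ℝ) + 1) ^ 2 * (N + 2)))) /
      ((a.factorial : ℝ) * b.factorial / N.factorial) ^ 2 / sxConst N =
      (sxConst a * sxConst b)⁻¹ := by
  intro N
  have h1 : (a.factorial : ℝ) ≠ 0 := by positivity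
  have h2 : (b.factorial : ℝ) ≠ 0 := by positivity
  have h3 : (N.factorial : ℝ) ≠ 0 := by positivity
  unfold sxConst
  have hN : N = a + b + 1 := rfl
  clear_value N
  simp only [div_pow, mul_pow]
  field_simp
  rw [hN]
  push_cast
  ring

variable {ι κ : Type*} [Fintype ι] [Fintype κ] [DecidableEq ι] [DecidableEq κ]
variable {K : Set (ι → ℝ)} {L : Set (κ → ℝ)}

lemma integral_centered {K : Set (ι → ℝ)} (hK : IsBody K) (i : ι) :
    ∫ x in K, (x i - centroid K i) = 0 := by
  have h1 : IntegrableOn (fun x : ι → ℝ => x i) K :=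
    (continuous_apply i).continuousOn.integrableOn_compact hK.2.1
  have h2 : IntegrableOn (fun _ : ι → ℝ => centroid K i) K :=
    continuous_const.continuousOn.integrableOn_compact hK.2.1
  rw [integral_sub h1 h2]
  have := hK.vol_pos
  simp only [integral_const, measureReal_restrict_apply, MeasurableSet.univ, univ_inter,
    smul_eq_mul]
  rw [show volume.real K = vol K from rfl, centroid]
  field_simp
  ring

lemma integral_centered_mul {K : Set (ι → ℝ)} (hK : IsBody K) (i j : ι) :
    ∫ x in K, (x i - centroid K i) * (x j - centroid K j) = vol K * covMat K i j := by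
  unfold covMat
  rw [← mul_assoc, mul_inv_cancel₀ hK.vol_pos.ne', one_mul]

omit [DecidableEq ι] in
lemma cov_of_linear {P : Type*} [Fintype P] {J : Set (ι → ℝ)} (hJ : IsBody J)
    (S : Matrix ι P ℝ) (c : ι → ℝ) (Z : P → (ι → ℝ) → ℝ) (hZ : ∀ r, Continuous (Z r))
    (hZ0 : ∀ r, ∫ z in J, Z r z = 0)
    (hw : ∀ z ∈ J, ∀ p, z p - c p = ∑ r, S p r * Z r z)
    (D : Matrix P P ℝ) (hD : ∀ r s, ∫ z in J, Z r z * Z s z = vol J * D r s) :
    covMat J = S * D * Sᵀ := by
  have hv := hJ.vol_pos
  have hm : MeasurableSet J := hJ.2.1.measurableSet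
  have hint : ∀ {f : (ι → ℝ) → ℝ}, Continuous f → IntegrableOn f J := fun hf =>
    hf.continuousOn.integrableOn_compact hJ.2.1
  have hzero : ∀ p, ∫ z in J, (z p - c p) = 0 := by
    intro p
    have hi : ∀ r, IntegrableOn (fun z => S p r * Z r z) J := fun r =>
      hint (continuous_const.mul (hZ r))
    rw [setIntegral_congr_fun hm (fun z hz => hw z hz p),
      integral_finsetSum _ (fun r _ => hi r)]
    simp [integral_const_mul, hZ0]
  have hc : ∀ p, centroid J p = c p := by
    intro p
    have h := hzero p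
    rw [integral_sub (hint (continuous_apply p)) (hint continuous_const)] at h
    simp only [integral_const, measureReal_restrict_apply, MeasurableSet.univ, univ_inter,
      smul_eq_mul] at h
    unfold centroid
    rw [sub_eq_zero.1 h, show volume.real J = vol J from rfl]
    field_simp
  ext p q
  unfold covMat
  simp only [hc]
  rw [setIntegral_congr_fun hm (fun z hz => by
    simp only [hw z hz p, hw z hz q, Finset.sum_mul_sum] : EqOn (fun z => (z p - c p) * (z q - c q))
      (fun z => ∑ r, ∑ s, S p r * Z r z * (S q s * Z s z)) J)]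
  have hi : ∀ r s, IntegrableOn (fun z => S p r * Z r z * (S q s * Z s z)) J := fun r s =>
    hint ((continuous_const.mul (hZ r)).mul (continuous_const.mul (hZ s)))
  rw [integral_finsetSum _ (fun r _ => integrable_finsetSum _ fun s _ => hi r s)]
  simp only [Matrix.mul_apply, transpose_apply, Finset.sum_mul, Finset.mul_sum]
  rw [Finset.sum_comm (s := Finset.univ) (t := Finset.univ)
    (f := fun x i => S p i * D i x * S q x)]
  refine Finset.sum_congr rfl fun r _ => ?_
  rw [integral_finsetSum _ (fun s _ => hi r s), Finset.mul_sum]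
  refine Finset.sum_congr rfl fun s _ => ?_
  have he : (fun z => S p r * Z r z * (S q s * Z s z)) =
      fun z => (S p r * S q s) * (Z r z * Z s z) := by funext z; ring
  rw [he, integral_const_mul, hD]
  field_simp

lemma vol_joinBody (hK : IsBody K) (hL : IsBody L) :
    vol (joinBody K L) = vol K * vol L *
      ((Fintype.card ι).factorial * (Fintype.card κ).factorial /
        (Fintype.card ι + Fintype.card κ + 1).factorial) := by
  have h := integral_joinBody hK.2.1 hL.2.1 (A := fun _ _ => 1) (B := fun _ _ => 1)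
    (C := fun _ => 1) 0 0 continuous_const continuous_const continuous_const
    (fun s _ u => by simp) (fun s _ u => by simp)
  simp only [mul_one, setIntegral_one, add_zero] at h
  rw [h]
  congr 1
  rw [show (∫ t in (0:ℝ)..1, (1 - t) ^ Fintype.card ι * t ^ Fintype.card κ) =
    ∫ t in (0:ℝ)..1, t ^ Fintype.card κ * (1 - t) ^ Fintype.card ι from
    intervalIntegral.integral_congr fun t _ => mul_comm _ _, integral_beta,
    add_comm (Fintype.card κ) (Fintype.card ι)]
  ring

lemma beta' (a b : ℕ) :
    ∫ t in (0:ℝ)..1, (1 - t) ^ a * t ^ b = (a.factorial : ℝ) * b.factorial / (a + b + 1).factorial := by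
  rw [show (∫ t in (0:ℝ)..1, (1 - t) ^ a * t ^ b) = ∫ t in (0:ℝ)..1, t ^ b * (1 - t) ^ a from
    intervalIntegral.integral_congr fun t _ => mul_comm _ _, integral_beta, add_comm b a]
  ring

theorem nrat_joinBody (hK : IsBody K) (hL : IsBody L) :
    nrat (joinBody K L) = nrat K * nrat L := by
  set n := Fintype.card ι with hn
  set m := Fintype.card κ with hm
  set N := n + m + 1 with hN
  set τ : ℝ := ((m:ℝ) + 1) / ((N:ℝ) + 1) with hτ
  set J := joinBody K L with hJ
  have hJb : IsBody J := joinBody_isBody hK hL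
  let Z : (ι ⊕ κ) ⊕ Unit → ((ι ⊕ κ) ⊕ Unit → ℝ) → ℝ := fun r z => Sum.elim
    (Sum.elim (fun i => jx z i - (1 - jt z) * centroid K i)
      (fun j => jy z j - jt z * centroid L j))
    (fun _ => jt z - τ) r
  have hZ : ∀ r, Continuous (Z r) := by
    rintro ((i | j) | ⟨⟩) <;> simp only [Z, Sum.elim_inl, Sum.elim_inr, jx, jy, jt] <;> fun_prop
  let S : Matrix ((ι ⊕ κ) ⊕ Unit) ((ι ⊕ κ) ⊕ Unit) ℝ :=
    fromBlocks 1 (Matrix.of fun p _ => Sum.elim (fun i => -centroid K i) (centroid L) p) 0 1
  let c : (ι ⊕ κ) ⊕ Unit → ℝ :=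
    jmk (fun i => (1 - τ) * centroid K i) (fun j => τ * centroid L j) τ
  let den : ℝ := ((N:ℝ) + 1) * (N + 2)
  let D : Matrix ((ι ⊕ κ) ⊕ Unit) ((ι ⊕ κ) ⊕ Unit) ℝ :=
    fromBlocks (fromBlocks ((((n:ℝ) + 1) * (n + 2) / den) • covMat K) 0 0
      ((((m:ℝ) + 1) * (m + 2) / den) • covMat L)) 0 0
      ((((n:ℝ) + 1) * (m + 1) / (((N:ℝ) + 1) ^ 2 * (N + 2))) • 1)
  have hw : ∀ z ∈ J, ∀ p, z p - c p = ∑ r, S p r * Z r z := by
    intro z _ p
    rcases p with (i | j) | ⟨⟩ <;>
      simp [S, c, Z, jmk, jx, jy, jt, fromBlocks, Fintype.sum_sum_type, Matrix.one_apply] <;> ring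
  -- the basic integrals
  have hvJ : vol J = vol K * vol L * ((n.factorial : ℝ) * m.factorial / N.factorial) :=
    vol_joinBody hK hL
  have I1 : ∀ j : ℕ, ∫ z in J, jt z ^ j =
      vol K * vol L * ((n.factorial : ℝ) * (m + j).factorial / (n + (m + j) + 1).factorial) := by
    intro j
    have h := integral_joinBody hK.2.1 hL.2.1 (A := fun _ _ => 1) (B := fun _ _ => 1)
      (C := fun t => t ^ j) 0 0 continuous_const continuous_const (by fun_prop)
      (fun s _ u => by simp) (fun s _ u => by simp)
    simp only [one_mul, setIntegral_one, add_zero, mul_assoc, ← pow_add, beta', mul_one] at h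
    rw [hJ, h]; ring
  have hI : ∀ {f : ((ι ⊕ κ) ⊕ Unit → ℝ) → ℝ}, Continuous f → IntegrableOn f J := fun hf =>
    hf.continuousOn.integrableOn_compact hJb.2.1
  have hjt : Continuous (jt : ((ι ⊕ κ) ⊕ Unit → ℝ) → ℝ) := continuous_apply _
  have Ix : ∀ i (C : ℝ → ℝ), Continuous C →
      ∫ z in J, (jx z i - (1 - jt z) * centroid K i) * C (jt z) = 0 := by
    intro i C hC
    have h := integral_joinBody hK.2.1 hL.2.1 (A := fun s u => u i - s * centroid K i)
      (B := fun _ _ => 1) (C := C) 1 0 (by fun_prop) continuous_const hC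
      (fun s _ u => by simp; ring) (fun s _ u => by simp)
    simp only [one_mul, mul_one, integral_centered hK, zero_mul] at h
    exact h
  have Iy : ∀ j (C : ℝ → ℝ), Continuous C →
      ∫ z in J, (jy z j - jt z * centroid L j) * C (jt z) = 0 := by
    intro j C hC
    have h := integral_joinBody hK.2.1 hL.2.1 (A := fun _ _ => 1)
      (B := fun s v => v j - s * centroid L j) (C := C) 0 1 continuous_const (by fun_prop) hC
      (fun s _ u => by simp) (fun s _ u => by simp; ring)
    simp only [one_mul, integral_centered hL, mul_zero, zero_mul] at h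
    exact h
  have Ixy : ∀ i j, ∫ z in J, (jx z i - (1 - jt z) * centroid K i) *
      (jy z j - jt z * centroid L j) = 0 := by
    intro i j
    have h := integral_joinBody hK.2.1 hL.2.1 (A := fun s u => u i - s * centroid K i)
      (B := fun s v => v j - s * centroid L j) (C := fun _ => 1) 1 1 (by fun_prop) (by fun_prop)
      continuous_const (fun s _ u => by simp; ring) (fun s _ u => by simp; ring)
    simp only [one_mul, mul_one, integral_centered hL, mul_zero, zero_mul] at h
    exact h
  have Ixx : ∀ i j, ∫ z in J, (jx z i - (1 - jt z) * centroid K i) *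
      (jx z j - (1 - jt z) * centroid K j) =
      vol K * vol L * covMat K i j *
        (((n + 2).factorial : ℝ) * m.factorial / (n + 2 + m + 1).factorial) := by
    intro i j
    have h := integral_joinBody hK.2.1 hL.2.1
      (A := fun s u => (u i - s * centroid K i) * (u j - s * centroid K j))
      (B := fun _ _ => 1) (C := fun _ => 1) 2 0 (by fun_prop) continuous_const
      continuous_const (fun s _ u => by simp; ring) (fun s _ u => by simp)
    simp only [one_mul, mul_one, integral_centered_mul hK, setIntegral_one, add_zero, beta'] at h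
    rw [hJ, h]; ring
  have Iyy : ∀ i j, ∫ z in J, (jy z i - jt z * centroid L i) *
      (jy z j - jt z * centroid L j) =
      vol K * vol L * covMat L i j *
        ((n.factorial : ℝ) * (m + 2).factorial / (n + (m + 2) + 1).factorial) := by
    intro i j
    have h := integral_joinBody hK.2.1 hL.2.1
      (A := fun _ _ => 1) (B := fun s v => (v i - s * centroid L i) * (v j - s * centroid L j))
      (C := fun _ => 1) 0 2 continuous_const (by fun_prop)
      continuous_const (fun s _ u => by simp) (fun s _ u => by simp; ring)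
    simp only [one_mul, mul_one, integral_centered_mul hL, setIntegral_one, add_zero, beta'] at h
    rw [hJ, h]; ring
  have e1 : ((N + 1).factorial : ℝ) = ((N:ℝ) + 1) * N.factorial := by
    rw [Nat.factorial_succ]; push_cast; ring
  have e2 : ((N + 2).factorial : ℝ) = ((N:ℝ) + 2) * ((N:ℝ) + 1) * N.factorial := by
    rw [Nat.factorial_succ, Nat.cast_mul, e1]; push_cast; ring
  have hNfac : (N.factorial : ℝ) ≠ 0 := by positivity
  have hnfac : (n.factorial : ℝ) ≠ 0 := by positivity
  have hmfac : (m.factorial : ℝ) ≠ 0 := by positivity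
  have It1 : ∫ z in J, (jt z - τ) = 0 := by
    rw [integral_sub (hI hjt) (hI continuous_const)]
    have h1 := I1 1
    simp only [pow_one] at h1
    simp only [integral_const, measureReal_restrict_apply, MeasurableSet.univ, univ_inter,
      smul_eq_mul, show volume.real J = vol J from rfl, hvJ, h1]
    rw [show n + (m + 1) + 1 = N + 1 by omega, Nat.factorial_succ m, e1, hτ]
    push_cast
    field_simp
    ring
  have It2 : ∫ z in J, (jt z - τ) * (jt z - τ) =
      vol J * (((n:ℝ) + 1) * (m + 1) / (((N:ℝ) + 1) ^ 2 * (N + 2))) := by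
    have he : (fun z : (ι ⊕ κ) ⊕ Unit → ℝ => (jt z - τ) * (jt z - τ)) =
        fun z => jt z ^ 2 - 2 * τ * jt z ^ 1 + τ ^ 2 * jt z ^ 0 := by funext z; ring
    have a0 : IntegrableOn (fun z : (ι ⊕ κ) ⊕ Unit → ℝ => τ ^ 2 * jt z ^ 0) J :=
      hI (continuous_const.mul (hjt.pow 0))
    have a1 : IntegrableOn (fun z : (ι ⊕ κ) ⊕ Unit → ℝ => 2 * τ * jt z ^ 1) J :=
      hI (continuous_const.mul (hjt.pow 1))
    have a2 : IntegrableOn (fun z : (ι ⊕ κ) ⊕ Unit → ℝ => jt z ^ 2) J := hI (hjt.pow 2)
    rw [he, integral_add (by exact a2.sub a1) a0, integral_sub a2 a1,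
      integral_const_mul, integral_const_mul, I1, I1, I1, hvJ, hτ,
      show n + (m + 1) + 1 = N + 1 by omega, show n + (m + 2) + 1 = N + 2 by omega,
      show n + (m + 0) + 1 = N by omega, add_zero, Nat.factorial_succ (m + 1),
      Nat.factorial_succ m, e1, e2]
    have hN' : (N:ℝ) = (n:ℝ) + m + 1 := by rw [hN]; push_cast; ring
    push_cast
    field_simp
    rw [hN']
    ring
  have hZ0 : ∀ r, ∫ z in J, Z r z = 0 := by
    rintro ((i | j) | ⟨⟩)
    · simpa [Z] using Ix i (fun _ => 1) continuous_const
    · simpa [Z] using Iy j (fun _ => 1) continuous_const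
    · exact It1
  have hD : ∀ r s, ∫ z in J, Z r z * Z s z = vol J * D r s := by
    rintro ((i | j) | ⟨⟩) ((i' | j') | ⟨⟩) <;>
      simp only [Z, D, den, Sum.elim_inl, Sum.elim_inr, fromBlocks_apply₁₁, fromBlocks_apply₁₂,
        fromBlocks_apply₂₁, fromBlocks_apply₂₂, Matrix.zero_apply, Matrix.smul_apply, smul_eq_mul,
        Matrix.one_apply_eq, mul_zero, mul_one]
    · rw [Ixx, hvJ, show n + 2 + m + 1 = N + 2 by omega, Nat.factorial_succ (n + 1),
        Nat.factorial_succ n, e2]
      push_cast; field_simp; ring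
    · exact Ixy i j'
    · exact Ix i (fun t => t - τ) (by fun_prop)
    · rw [← Ixy i' j]; exact integral_congr_ae (.of_forall fun z => mul_comm _ _)
    · rw [Iyy, hvJ, show n + (m + 2) + 1 = N + 2 by omega, Nat.factorial_succ (m + 1),
        Nat.factorial_succ m, e2]
      push_cast; field_simp; ring
    · exact Iy j (fun t => t - τ) (by fun_prop)
    · rw [← Ix i' (fun t => t - τ) (by fun_prop)]
      exact integral_congr_ae (.of_forall fun z => mul_comm _ _)
    · rw [← Iy j' (fun t => t - τ) (by fun_prop)]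
      exact integral_congr_ae (.of_forall fun z => mul_comm _ _)
    · exact It2
  have hcov := cov_of_linear hJb S c Z hZ hZ0 hw D hD
  have hS : S.det = 1 := by simp [S, det_fromBlocks_zero₂₁]
  have hdet : (covMat J).det =
      (((n:ℝ) + 1) * (n + 2) / den) ^ n * (covMat K).det *
      ((((m:ℝ) + 1) * (m + 2) / den) ^ m * (covMat L).det) *
      (((n:ℝ) + 1) * (m + 1) / (((N:ℝ) + 1) ^ 2 * (N + 2))) := by
    simp [hcov, det_mul, det_transpose, hS, D, det_fromBlocks_zero₂₁, hn, hm]
  have hcard : Fintype.card ((ι ⊕ κ) ⊕ Unit) = N := by simp [hN, hn, hm]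
  have key := sxConst_join n m
  simp only [← hN] at key
  have hK0 := hK.vol_pos
  have hL0 := hL.vol_pos
  unfold nrat isoRatio
  rw [hcard, ← hn, ← hm, hdet, hvJ, div_mul_div_comm _ (sxConst n), div_eq_mul_inv _ (sxConst n * sxConst m),
    ← key]
  simp only [den]
  field_simp

end Vale.Agent.P254
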