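import Vale.Agent.P254.JoinRatio

/-!
If a join is a simplex, so is its first factor.
-/

open MeasureTheory Set Module

namespace Vale.Agent.P254

variable {ι κ : Type*} [Fintype ι] [Fintype κ]
variable {K : Set (ι → ℝ)} {L : Set (κ → ℝ)}

omit [Fintype ι] [Fintype κ] in
lemma extreme_left (hLne : L.Nonempty) {u : ι → ℝ} (hu : u ∈ K.extremePoints ℝ) :
    jmk u (0 : κ → ℝ) 0 ∈ (joinBody K L).extremePoints ℝ := by
  rw [mem_extremePoints] at hu ⊢
  refine ⟨⟨by simp [jt, jmk], ⟨u, hu.1, ?_⟩, ⟨hLne.some, hLne.some_mem, ?_⟩⟩, ?_⟩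
  · funext i; simp [jt, jx, jmk]
  · funext i; simp [jt, jy, jmk]
  intro p hp q hq hpq
  obtain ⟨a, b, ha, hb, hab, he⟩ := hpq
  have et : a * jt p + b * jt q = 0 := by
    have := congrFun he (Sum.inr ()); simpa [jt, jmk] using this
  have hpt : jt p = 0 := by nlinarith [hp.1.1, hq.1.1]
  have hqt : jt q = 0 := by nlinarith [hp.1.1, hq.1.1]
  obtain ⟨-, ⟨x, hx, hxe⟩, ⟨y, hy, hye⟩⟩ := hp
  obtain ⟨-, ⟨x', hx', hxe'⟩, ⟨y', hy', hye'⟩⟩ := hq
  simp only [hpt, hqt, sub_zero, one_smul, zero_smul] at hxe hye hxe' hye'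
  have hu' : u ∈ openSegment ℝ x x' := by
    refine ⟨a, b, ha, hb, hab, ?_⟩
    funext i
    have := congrFun he (Sum.inl (Sum.inl i))
    rw [hxe, hxe']; simpa [jx, jmk] using this
  obtain ⟨r1, r2⟩ := hu.2 x hx x' hx' hu'
  constructor
  · rw [← jmk_self p, hpt, ← hxe, ← hye, r1]
  · rw [← jmk_self q, hqt, ← hxe', ← hye', r2]

omit [Fintype ι] [Fintype κ] in
lemma extreme_right (hKne : K.Nonempty) {v : κ → ℝ} (hv : v ∈ L.extremePoints ℝ) :
    jmk (0 : ι → ℝ) v 1 ∈ (joinBody K L).extremePoints ℝ := by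
  rw [mem_extremePoints] at hv ⊢
  refine ⟨⟨by simp [jt, jmk], ⟨hKne.some, hKne.some_mem, ?_⟩, ⟨v, hv.1, ?_⟩⟩, ?_⟩
  · funext i; simp [jt, jx, jmk]
  · funext i; simp [jt, jy, jmk]
  intro p hp q hq hpq
  obtain ⟨a, b, ha, hb, hab, he⟩ := hpq
  have et : a * jt p + b * jt q = 1 := by
    have := congrFun he (Sum.inr ()); simpa [jt, jmk] using this
  have hpt : jt p = 1 := by nlinarith [hp.1.2, hq.1.2]
  have hqt : jt q = 1 := by nlinarith [hp.1.2, hq.1.2]
  obtain ⟨-, ⟨x, hx, hxe⟩, ⟨y, hy, hye⟩⟩ := hp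
  obtain ⟨-, ⟨x', hx', hxe'⟩, ⟨y', hy', hye'⟩⟩ := hq
  simp only [hpt, hqt, sub_self, one_smul, zero_smul] at hxe hye hxe' hye'
  have hv' : v ∈ openSegment ℝ y y' := by
    refine ⟨a, b, ha, hb, hab, ?_⟩
    funext i
    have := congrFun he (Sum.inl (Sum.inr i))
    rw [hye, hye']; simpa [jy, jmk] using this
  obtain ⟨r1, r2⟩ := hv.2 y hy y' hy' hv'
  constructor
  · rw [← jmk_self p, hpt, ← hxe, ← hye, r1]
  · rw [← jmk_self q, hqt, ← hxe', ← hye', r2]

/-- A body with finitely many extreme points has at least `dim + 1` of them, and is a simplex in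
case of equality. -/
lemma card_extreme (hK : IsBody K) (s : Finset (ι → ℝ))
    (hs : (s : Set (ι → ℝ)) = K.extremePoints ℝ) :
    Fintype.card ι + 1 ≤ s.card ∧ (s.card = Fintype.card ι + 1 → IsSimplexBody K) := by
  have hKeq : convexHull ℝ (s : Set (ι → ℝ)) = K := by
    have := closure_convexHull_extremePoints hK.2.1 hK.1
    rwa [← hs, (s.finite_toSet.isCompact_convexHull (𝕜 := ℝ)).isClosed.closure_eq] at this
  have hspan : affineSpan ℝ (s : Set (ι → ℝ)) = ⊤ :=
    (interior_convexHull_nonempty_iff_affineSpan_eq_top).1 (by rw [hKeq]; exact hK.2.2)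
  have hpos : 0 < s.card := by
    rcases Nat.eq_zero_or_pos s.card with h | h
    · exfalso
      rw [Finset.card_eq_zero] at h
      have := hK.nonempty
      rw [← hKeq, h] at this
      simp at this
    · exact h
  let v : s → (ι → ℝ) := fun x => x
  have hrv : range v = (s : Set (ι → ℝ)) := Subtype.range_coe
  have hfin : finrank ℝ (vectorSpan ℝ (range v)) = Fintype.card ι := by
    rw [hrv, ← direction_affineSpan, hspan, AffineSubspace.direction_top, finrank_top,
      Module.finrank_fintype_fun_eq_card]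
  have hle := finrank_vectorSpan_range_le (k := ℝ) v (n := s.card - 1)
    (by rw [Fintype.card_coe]; omega)
  rw [hfin] at hle
  refine ⟨by omega, fun hc => ?_⟩
  have hind : AffineIndependent ℝ v :=
    (affineIndependent_iff_le_finrank_vectorSpan ℝ v (n := Fintype.card ι)
      (by rw [Fintype.card_coe, hc])).2 hfin.ge
  let e : Fin (Fintype.card ι + 1) ≃ s := (Finset.equivFinOfCardEq hc).symm
  refine ⟨fun k => v (e k), hind.comp_embedding e.toEmbedding, ?_⟩
  have : range (fun k => v (e k)) = range v := e.surjective.range_comp v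
  rw [this, hrv, hKeq]

theorem isSimplexBody_of_joinBody (hK : IsBody K) (hL : IsBody L)
    (h : IsSimplexBody (joinBody K L)) : IsSimplexBody K := by
  classical
  obtain ⟨w, hw, hJ⟩ := h
  let W : Finset ((ι ⊕ κ) ⊕ Unit → ℝ) := Finset.univ.image w
  have hsub : (joinBody K L).extremePoints ℝ ⊆ (W : Set _) := by
    rw [← hJ]
    refine extremePoints_convexHull_subset.trans ?_
    simp [W]
  have injK : InjOn (fun u : ι → ℝ => jmk u (0 : κ → ℝ) 0) (K.extremePoints ℝ) := by
    intro a _ b _ hab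
    funext i; exact congrFun hab (Sum.inl (Sum.inl i))
  have injL : InjOn (fun v : κ → ℝ => jmk (0 : ι → ℝ) v 1) (L.extremePoints ℝ) := by
    intro a _ b _ hab
    funext i; exact congrFun hab (Sum.inl (Sum.inr i))
  have fK : (K.extremePoints ℝ).Finite :=
    Set.Finite.of_finite_image (W.finite_toSet.subset (by
      rintro _ ⟨u, hu, rfl⟩; exact hsub (extreme_left hL.nonempty hu))) injK
  have fL : (L.extremePoints ℝ).Finite :=
    Set.Finite.of_finite_image (W.finite_toSet.subset (by
      rintro _ ⟨u, hu, rfl⟩; exact hsub (extreme_right hK.nonempty hu))) injL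
  obtain ⟨a1, a2⟩ := card_extreme hK fK.toFinset fK.coe_toFinset
  obtain ⟨b1, -⟩ := card_extreme hL fL.toFinset fL.coe_toFinset
  have hcard : fK.toFinset.card + fL.toFinset.card ≤ W.card := by
    rw [← Finset.card_image_of_injOn (s := fK.toFinset) (by simpa using injK),
      ← Finset.card_image_of_injOn (s := fL.toFinset) (by simpa using injL),
      ← Finset.card_union_of_disjoint]
    · refine Finset.card_le_card ?_
      intro z hz
      simp only [Finset.mem_union, Finset.mem_image, Set.Finite.mem_toFinset] at hz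
      rcases hz with ⟨u, hu, rfl⟩ | ⟨v, hv, rfl⟩
      · exact hsub (extreme_left hL.nonempty hu)
      · exact hsub (extreme_right hK.nonempty hv)
    · rw [Finset.disjoint_left]
      intro z hz hz'
      simp only [Finset.mem_image] at hz hz'
      obtain ⟨u, -, rfl⟩ := hz
      obtain ⟨v, -, he⟩ := hz'
      exact one_ne_zero (congrFun he (Sum.inr ()) : (1:ℝ) = 0)
  have hW : W.card ≤ Fintype.card ι + Fintype.card κ + 2 := by
    refine Finset.card_image_le.trans ?_
    simp
  exact a2 (by omega)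

end Vale.Agent.P254
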