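import Vale.Agent.P254.Basic

/-!
One dimensional moment inequalities for `ψ^m`, `ψ` concave and decreasing.
-/

open MeasureTheory Set

namespace Vale.Agent.P254

variable {T : ℝ} {ψ v : ℝ → ℝ}

lemma intervalIntegrable_of_antitoneOn {f : ℝ → ℝ} {a b : ℝ} (hab : a ≤ b)
    (hf : AntitoneOn f (Icc a b)) : IntervalIntegrable f volume a b := by
  rw [← uIcc_of_le hab] at hf
  exact hf.intervalIntegrable

/-- Twice the mean of a decreasing density stays inside the interval. -/
lemma two_mean_le (hT : 0 ≤ T) (hv : AntitoneOn v (Icc 0 T))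
    {V s : ℝ} (hV : ∫ t in (0:ℝ)..T, v t = V) (hs : ∫ t in (0:ℝ)..T, t * v t = s * V)
    (hVp : 0 < V) : 2 * s ≤ T := by
  have iv := intervalIntegrable_of_antitoneOn hT hv
  have h1 : ∫ t in (0:ℝ)..T, (t - T / 2) * (v t - v (T / 2)) ≤ 0 := by
    have := intervalIntegral.integral_mono_on (f := fun t => (t - T / 2) * (v t - v (T / 2)))
      (g := fun _ => (0:ℝ)) hT ((iv.sub intervalIntegrable_const).continuousOn_mul (by fun_prop))
      intervalIntegrable_const ?_
    · simpa using this
    · intro t ht
      rcases le_total t (T / 2) with h | h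
      · nlinarith [hv ht ⟨by linarith, by linarith⟩ h]
      · nlinarith [hv ⟨by linarith, by linarith⟩ ht h]
  have e : (fun t => (t - T / 2) * (v t - v (T / 2))) =
      fun t => t * v t - T / 2 * v t - (v (T / 2) * t - v (T / 2) * (T / 2)) := by funext t; ring
  have i1 : IntervalIntegrable (fun t => t * v t) volume 0 T := iv.continuousOn_mul (by fun_prop)
  have i2 : IntervalIntegrable (fun t : ℝ => v (T / 2) * t) volume 0 T :=
    Continuous.intervalIntegrable (by fun_prop) _ _
  rw [e, intervalIntegral.integral_sub (i1.sub (iv.const_mul _)) (i2.sub intervalIntegrable_const),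
    intervalIntegral.integral_sub i1 (iv.const_mul _),
    intervalIntegral.integral_sub i2 intervalIntegrable_const, intervalIntegral.integral_const_mul,
    intervalIntegral.integral_const_mul, integral_id, hs, hV] at h1
  simp at h1
  have e' : s * V - T / 2 * V ≤ 0 := by nlinarith
  nlinarith

/-- The mean is positive. -/
lemma mean_pos (hT : 0 ≤ T) (hv : AntitoneOn v (Icc 0 T)) (hv0 : ∀ t ∈ Icc 0 T, 0 ≤ v t)
    {V s : ℝ} (hV : ∫ t in (0:ℝ)..T, v t = V) (hs : ∫ t in (0:ℝ)..T, t * v t = s * V)
    (hVp : 0 < V) : 0 < s := by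
  have iv := intervalIntegrable_of_antitoneOn hT hv
  have hTp : 0 < T := by
    rcases hT.eq_or_lt with rfl | h
    · simp at hV; linarith
    · exact h
  set M := v 0 with hM
  have hM0 : 0 ≤ M := hv0 0 ⟨le_rfl, hT⟩
  by_contra hle
  push Not at hle
  have hnn : 0 ≤ ∫ t in (0:ℝ)..T, t * v t :=
    intervalIntegral.integral_nonneg hT fun t ht => mul_nonneg ht.1 (hv0 t ht)
  have hz : ∫ t in (0:ℝ)..T, t * v t = 0 := by rw [hs] at hnn ⊢; nlinarith
  have := (intervalIntegral.integral_eq_zero_iff_of_nonneg_ae
    (show 0 ≤ᵐ[volume.restrict (Ioc 0 T ∪ Ioc T 0)] fun t => t * v t by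
      rw [Ioc_eq_empty (by linarith : ¬ T < 0), union_empty]
      filter_upwards [ae_restrict_mem measurableSet_Ioc] with t ht
      exact mul_nonneg ht.1.le (hv0 t ⟨ht.1.le, ht.2⟩))
    (iv.continuousOn_mul (by fun_prop))).1 hz
  rw [Ioc_eq_empty (by linarith : ¬ T < 0), union_empty] at this
  have : ∫ t in (0:ℝ)..T, v t = 0 := by
    refine intervalIntegral.integral_zero_ae ?_
    rw [uIoc_of_le hT]
    filter_upwards [(ae_restrict_iff' measurableSet_Ioc).1 this] with t ht htm
    have := ht htm
    simp only [Pi.zero_apply, mul_eq_zero] at this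
    exact this.resolve_left htm.1.ne'
  linarith

/-- A decreasing density with mean `s` dominates the uniform one on `[0,2s]` in the convex
order; stated for concave decreasing test functions. -/
lemma avg_ge (hT : 0 ≤ T) (hψ : ConcaveOn ℝ (Icc 0 T) ψ) (hψa : AntitoneOn ψ (Icc 0 T))
    (hv : AntitoneOn v (Icc 0 T)) (hv0 : ∀ t ∈ Icc 0 T, 0 ≤ v t)
    {V s : ℝ} (hV : ∫ t in (0:ℝ)..T, v t = V) (hs : ∫ t in (0:ℝ)..T, t * v t = s * V)
    (hVp : 0 < V) :
    2 * s * ∫ t in (0:ℝ)..T, ψ t * v t ≤ V * ∫ t in (0:ℝ)..(2 * s), ψ t := by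
  have hspos : 0 < s := mean_pos hT hv hv0 hV hs hVp
  set q := 2 * s with hq
  have hqT : q ≤ T := two_mean_le hT hv hV hs hVp
  have hq0 : 0 < q := by rw [hq]; linarith
  have iv := intervalIntegrable_of_antitoneOn hT hv
  have iv1 : IntervalIntegrable v volume 0 q := iv.mono_set (by
    rw [uIcc_of_le hq0.le, uIcc_of_le hT]; exact Icc_subset_Icc le_rfl hqT)
  have iv2 : IntervalIntegrable v volume q T := iv.mono_set (by
    rw [uIcc_of_le hqT, uIcc_of_le hT]; exact Icc_subset_Icc hq0.le le_rfl)
  have ip := intervalIntegrable_of_antitoneOn hT hψa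
  have ip1 : IntervalIntegrable ψ volume 0 q := ip.mono_set (by
    rw [uIcc_of_le hq0.le, uIcc_of_le hT]; exact Icc_subset_Icc le_rfl hqT)
  have ipv : IntervalIntegrable (fun t => ψ t * v t) volume 0 T := by
    refine IntervalIntegrable.mono_fun' (g := fun t => (|ψ 0| + |ψ T|) * v t) (iv.const_mul _) ?_ ?_
    · exact (ip.aestronglyMeasurable.mono_measure (by rw [uIoc_of_le hT])).mul
        (iv.aestronglyMeasurable.mono_measure (by rw [uIoc_of_le hT]))
    · rw [uIoc_of_le hT]
      filter_upwards [ae_restrict_mem measurableSet_Ioc] with t ht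
      rw [Real.norm_eq_abs, abs_mul, abs_of_nonneg (hv0 t ⟨ht.1.le, ht.2⟩)]
      refine mul_le_mul_of_nonneg_right (abs_le.2 ⟨?_, ?_⟩) (hv0 t ⟨ht.1.le, ht.2⟩)
      · linarith [hψa ⟨ht.1.le, ht.2⟩ ⟨hT, le_rfl⟩ ht.2, neg_abs_le (ψ T), abs_nonneg (ψ 0)]
      · linarith [hψa ⟨le_rfl, hT⟩ ⟨ht.1.le, ht.2⟩ ht.1.le, le_abs_self (ψ 0), abs_nonneg (ψ T)]
  set u := V / q with hu
  have hu0 : 0 < u := div_pos hVp hq0
  set w : ℝ → ℝ := fun t => v t - if t ≤ q then u else 0 with hw
  have split : ∀ (φ : ℝ → ℝ), IntervalIntegrable (fun t => φ t * v t) volume 0 T →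
      IntervalIntegrable φ volume 0 q →
      IntervalIntegrable (fun t => φ t * w t) volume 0 T ∧
      ∫ t in (0:ℝ)..T, φ t * w t =
        (∫ t in (0:ℝ)..T, φ t * v t) - u * ∫ t in (0:ℝ)..q, φ t := by
    intro φ i1 i2
    have hA : IntervalIntegrable (fun t => φ t * if t ≤ q then u else 0) volume 0 q :=
      (i2.mul_const u).congr (fun t ht => by
        rw [uIoc_of_le hq0.le] at ht; simp [ht.2])
    have hB : IntervalIntegrable (fun t => φ t * if t ≤ q then u else 0) volume q T :=
      (intervalIntegrable_const (c := (0:ℝ))).congr (fun t ht => by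
        rw [uIoc_of_le hqT] at ht; simp [ht.1.not_ge])
    have hAB := hA.trans hB
    have he : (fun t => φ t * w t) = fun t => φ t * v t - φ t * if t ≤ q then u else 0 := by
      funext t; simp [hw, mul_sub]
    refine ⟨he ▸ i1.sub hAB, ?_⟩
    rw [he, intervalIntegral.integral_sub i1 hAB,
      ← intervalIntegral.integral_add_adjacent_intervals hA hB]
    have e1 : ∫ t in (0:ℝ)..q, φ t * (if t ≤ q then u else 0) = u * ∫ t in (0:ℝ)..q, φ t := by
      rw [← intervalIntegral.integral_const_mul]
      refine intervalIntegral.integral_congr fun t ht => ?_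
      rw [uIcc_of_le hq0.le] at ht
      simp [ht.2, mul_comm]
    have e2 : ∫ t in q..T, φ t * (if t ≤ q then u else 0) = 0 := by
      rw [intervalIntegral.integral_congr_ae (g := fun _ => (0:ℝ))]
      · simp
      · filter_upwards with t ht
        rw [uIoc_of_le hqT] at ht
        simp [ht.1.not_ge]
    rw [e1, e2, add_zero]
  obtain ⟨-, w0⟩ := split (fun _ => 1) (by simpa using iv) intervalIntegrable_const
  obtain ⟨-, w1⟩ := split (fun t => t) (iv.continuousOn_mul (by fun_prop))
    (Continuous.intervalIntegrable (by fun_prop) _ _)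
  have w0' : ∫ t in (0:ℝ)..T, w t = 0 := by
    simp only [one_mul, hV, intervalIntegral.integral_const, smul_eq_mul] at w0
    rw [w0, hu]; field_simp; ring
  have w1' : ∫ t in (0:ℝ)..T, t * w t = 0 := by
    rw [w1, hs, integral_id, hu, hq]; field_simp; ring
  -- it suffices that `∫ ψ w ≤ 0`
  obtain ⟨ipw, w2⟩ := split ψ ipv ip1
  suffices hmain : ∫ t in (0:ℝ)..T, ψ t * w t ≤ 0 by
    rw [w2, hu] at hmain
    have := mul_le_mul_of_nonneg_left hmain hq0.le
    field_simp at this ⊢
    linarith
  set S := {t | t ∈ Icc (0:ℝ) q ∧ u ≤ v t} with hS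
  have hSne : S.Nonempty := by
    by_contra hempty
    rw [Set.not_nonempty_iff_eq_empty] at hempty
    have hlt : ∀ t ∈ Icc (0:ℝ) q, v t < u := by
      intro t ht; by_contra hh; push Not at hh
      exact (hempty ▸ (⟨ht, hh⟩ : t ∈ S) : t ∈ (∅ : Set ℝ))
    have hvu : ∀ t ∈ Icc (0:ℝ) T, v t ≤ v 0 := fun t ht => hv ⟨le_rfl, hT⟩ ht ht.1
    have h3 : ∫ t in (0:ℝ)..q, v t ≤ v 0 * q := by
      have := intervalIntegral.integral_mono_on hq0.le iv1 intervalIntegrable_const
        (fun t ht => hvu t ⟨ht.1, ht.2.trans hqT⟩)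
      simpa [mul_comm] using this
    have h4 : ∫ t in q..T, v t ≤ 0 := by
      by_contra hh
      push Not at hh
      -- mass beyond `q` pushes the mean above `q / 2`
      have k1 : ∫ t in (0:ℝ)..q, (q - t) * (v t - u) ≤ 0 := by
        have := intervalIntegral.integral_mono_on (f := fun t => (q - t) * (v t - u))
          (g := fun _ => (0:ℝ)) hq0.le ((iv1.sub intervalIntegrable_const).continuousOn_mul
            (by fun_prop)) intervalIntegrable_const
          (fun t ht => mul_nonpos_of_nonneg_of_nonpos (by linarith [ht.2])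
            (by linarith [hlt t ht]))
        simpa using this
      have k2 : v 0 < u := hlt 0 ⟨le_rfl, hq0.le⟩
      have k3 : v 0 * q < V := by rw [hu, lt_div_iff₀ hq0] at k2; linarith
      have k4 : ∫ t in q..T, v t ≤ ∫ t in q..T, (t / q) * v t := by
        refine intervalIntegral.integral_mono_on hqT iv2 (iv2.continuousOn_mul (by fun_prop)) ?_
        intro t ht
        refine le_mul_of_one_le_left (hv0 t ⟨hq0.le.trans ht.1, ht.2⟩) ?_
        rw [le_div_iff₀ hq0]; linarith [ht.1]
      -- `∫ (q - t) w = 0` but it is negative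
      obtain ⟨iqw, w3⟩ := split (fun t => q - t) (iv.continuousOn_mul (by fun_prop))
        (Continuous.intervalIntegrable (by fun_prop) _ _)
      have z : ∫ t in (0:ℝ)..T, (q - t) * w t = 0 := by
        have e : (fun t => (q - t) * w t) = fun t => q * w t - t * w t := by funext t; ring
        obtain ⟨i0, -⟩ := split (fun _ => 1) (by simpa using iv) intervalIntegrable_const
        obtain ⟨i1, -⟩ := split (fun t => t) (iv.continuousOn_mul (by fun_prop))
          (Continuous.intervalIntegrable (by fun_prop) _ _)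
        rw [e, intervalIntegral.integral_sub (by simpa using i0.const_mul q) i1,
          intervalIntegral.integral_const_mul, w0', w1']
        simp
      rw [w3, ← intervalIntegral.integral_add_adjacent_intervals
        (b := q) (iv1.continuousOn_mul (by fun_prop)) (iv2.continuousOn_mul (by fun_prop))] at z
      have k5 : ∫ t in q..T, (q - t) * v t ≤ 0 := by
        have := intervalIntegral.integral_mono_on (f := fun t => (q - t) * v t)
          (g := fun _ => (0:ℝ)) hqT (iv2.continuousOn_mul (by fun_prop)) intervalIntegrable_const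
          (fun t ht => mul_nonpos_of_nonpos_of_nonneg (by linarith [ht.1])
            (hv0 t ⟨hq0.le.trans ht.1, ht.2⟩))
        simpa using this
      have k6 : (fun t => (q - t) * (v t - u)) = fun t => (q - t) * v t - u * (q - t) := by
        funext t; ring
      rw [k6, intervalIntegral.integral_sub (iv1.continuousOn_mul (by fun_prop))
        (Continuous.intervalIntegrable (by fun_prop) _ _), intervalIntegral.integral_const_mul] at k1
      -- all the terms vanish, so the tail is empty
      have k7 : ∫ t in q..T, (q - t) * v t = 0 := by linarith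
      have e0 := (intervalIntegral.integral_eq_zero_iff_of_nonneg_ae
        (show 0 ≤ᵐ[volume.restrict (Ioc q T ∪ Ioc T q)] fun t => (t - q) * v t by
          rw [Ioc_eq_empty (by linarith : ¬ T < q), union_empty]
          filter_upwards [ae_restrict_mem measurableSet_Ioc] with t ht
          exact mul_nonneg (by linarith [ht.1]) (hv0 t ⟨hq0.le.trans ht.1.le, ht.2⟩))
        (iv2.continuousOn_mul (by fun_prop))).1 (by
          have e : (fun t => (t - q) * v t) = fun t => -((q - t) * v t) := by funext t; ring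
          rw [e, intervalIntegral.integral_neg, k7, neg_zero])
      rw [Ioc_eq_empty (by linarith : ¬ T < q), union_empty] at e0
      have : ∫ t in q..T, v t = 0 := by
        refine intervalIntegral.integral_zero_ae ?_
        rw [uIoc_of_le hqT]
        filter_upwards [(ae_restrict_iff' measurableSet_Ioc).1 e0] with t ht htm
        have := ht htm
        simp only [Pi.zero_apply, mul_eq_zero] at this
        exact this.resolve_left (sub_ne_zero.2 htm.1.ne')
      linarith
    have h5 : (∫ t in (0:ℝ)..q, v t) + ∫ t in q..T, v t = V := by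
      rw [intervalIntegral.integral_add_adjacent_intervals iv1 iv2, hV]
    have h6 : v 0 < u := hlt 0 ⟨le_rfl, hq0.le⟩
    rw [hu, lt_div_iff₀ hq0] at h6
    linarith
  have hSb : BddAbove S := ⟨q, fun t ht => ht.1.2⟩
  set c := sSup S with hc
  have hc0 : 0 ≤ c := (hSne.some_mem).1.1.trans (le_csSup hSb hSne.some_mem)
  have hcq : c ≤ q := csSup_le hSne fun t ht => ht.1.2
  have habove : ∀ t ∈ Icc (0:ℝ) q, t < c → u ≤ v t := by
    intro t ht htc
    obtain ⟨y, hy, hty⟩ := exists_lt_of_lt_csSup hSne htc
    exact hy.2.trans (hv ⟨ht.1, ht.2.trans hqT⟩ ⟨hy.1.1, hy.1.2.trans hqT⟩ hty.le)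
  have hbelow : ∀ t ∈ Icc (0:ℝ) q, c < t → v t ≤ u := by
    intro t ht htc
    by_contra hh
    push Not at hh
    exact absurd (le_csSup hSb ⟨ht, hh.le⟩) (not_le.2 htc)
  rcases hcq.eq_or_lt with hce | hclt
  · -- `v ≥ u` on `[0,q)`: then `v` is the uniform density
    have k1 : u * q ≤ ∫ t in (0:ℝ)..q, v t := by
      have := intervalIntegral.integral_mono_on_of_le_Ioo hq0.le intervalIntegrable_const iv1
        (fun t ht => habove t ⟨ht.1.le, ht.2.le⟩ (by rw [hce]; exact ht.2))
      simpa [mul_comm] using this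
    have k2 : (∫ t in (0:ℝ)..q, v t) + ∫ t in q..T, v t = V := by
      rw [intervalIntegral.integral_add_adjacent_intervals iv1 iv2, hV]
    have k3 : u * q = V := by rw [hu]; field_simp
    have k4 : 0 ≤ ∫ t in q..T, v t :=
      intervalIntegral.integral_nonneg hqT fun t ht => hv0 t ⟨hq0.le.trans ht.1, ht.2⟩
    have z1 := (intervalIntegral.integral_eq_zero_iff_of_nonneg_ae
        (show 0 ≤ᵐ[volume.restrict (Ioc 0 q ∪ Ioc q 0)] fun t => v t - u by
          rw [Ioc_eq_empty (by linarith : ¬ q < 0), union_empty]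
          have hne : ∀ᵐ t : ℝ, t ≠ q := by rw [ae_iff]; simp
          filter_upwards [ae_restrict_mem measurableSet_Ioc, ae_restrict_of_ae hne] with t ht hne
          exact sub_nonneg.2 (habove t ⟨ht.1.le, ht.2⟩
            (by rw [hce]; exact lt_of_le_of_ne ht.2 hne)))
        (iv1.sub intervalIntegrable_const)).1 (by
          rw [intervalIntegral.integral_sub iv1 intervalIntegrable_const]
          simp; nlinarith)
    rw [Ioc_eq_empty (by linarith : ¬ q < 0), union_empty] at z1
    have z2 := (intervalIntegral.integral_eq_zero_iff_of_nonneg_ae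
        (show 0 ≤ᵐ[volume.restrict (Ioc q T ∪ Ioc T q)] v by
          rw [Ioc_eq_empty (by linarith : ¬ T < q), union_empty]
          filter_upwards [ae_restrict_mem measurableSet_Ioc] with t ht
          exact hv0 t ⟨hq0.le.trans ht.1.le, ht.2⟩)
        iv2).1 (by linarith)
    rw [Ioc_eq_empty (by linarith : ¬ T < q), union_empty] at z2
    refine le_of_eq (intervalIntegral.integral_zero_ae ?_)
    rw [uIoc_of_le hT]
    filter_upwards [(ae_restrict_iff' measurableSet_Ioc).1 z1,
      (ae_restrict_iff' measurableSet_Ioc).1 z2] with t h1 h2 ht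
    rcases le_or_gt t q with hh | hh
    · have := h1 ⟨ht.1, hh⟩
      simp only [Pi.zero_apply] at this
      simp [hw, hh, this]
    · have := h2 ⟨hh, ht.2⟩
      simp only [Pi.zero_apply] at this
      simp [hw, hh.not_ge, this]
  -- subtract the chord through `c` and `q`
  set α := (ψ q - ψ c) / (q - c) with hα
  set ℓ : ℝ → ℝ := fun t => ψ c + α * (t - c) with hℓ
  have hcI : c ∈ Icc 0 T := ⟨hc0, hcq.trans hqT⟩
  have hqI : q ∈ Icc 0 T := ⟨hq0.le, hqT⟩
  have hd : 0 < q - c := by linarith
  have hlq : ℓ q = ψ q := by simp only [hℓ, hα]; field_simp; ring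
  have hαe : α * (q - c) = ψ q - ψ c := by simp only [hα]; field_simp
  have inside : ∀ t ∈ Ioo c q, ℓ t ≤ ψ t := by
    intro t ht
    have htI : t ∈ Icc 0 T := ⟨hc0.trans ht.1.le, ht.2.le.trans hqT⟩
    have := hψ.slope_anti_adjacent hcI hqI ht.1 ht.2
    rw [div_le_div_iff₀ (by linarith [ht.2]) (by linarith [ht.1])] at this
    have h2 : α * (t - c) * (q - c) ≤ (ψ t - ψ c) * (q - c) := by
      rw [show α * (t - c) * (q - c) = α * (q - c) * (t - c) by ring, hαe]
      linarith
    have := le_of_mul_le_mul_right h2 hd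
    simp only [hℓ]
    linarith
  have left : ∀ t ∈ Icc 0 T, t < c → ψ t ≤ ℓ t := by
    intro t ht htc
    have := hψ.slope_anti_adjacent ht hqI htc hclt
    rw [div_le_div_iff₀ hd (by linarith)] at this
    simp only [hℓ]
    nlinarith
  have right : ∀ t ∈ Icc 0 T, q < t → ψ t ≤ ℓ t := by
    intro t ht hqt
    have := hψ.slope_anti_adjacent hcI ht hclt hqt
    rw [div_le_div_iff₀ (by linarith) hd] at this
    simp only [hℓ]
    nlinarith
  have hzero : ∫ t in (0:ℝ)..T, ℓ t * w t = 0 := by
    have e : (fun t => ℓ t * w t) = fun t => (ψ c - α * c) * w t + α * (t * w t) := by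
      funext t; simp only [hℓ]; ring
    obtain ⟨i0, -⟩ := split (fun _ => 1) (by simpa using iv) intervalIntegrable_const
    obtain ⟨i1, -⟩ := split (fun t => t) (iv.continuousOn_mul (by fun_prop))
      (Continuous.intervalIntegrable (by fun_prop) _ _)
    simp only [one_mul] at i0
    rw [e, intervalIntegral.integral_add (i0.const_mul _) (i1.const_mul _),
      intervalIntegral.integral_const_mul, intervalIntegral.integral_const_mul, w0', w1']
    simp
  obtain ⟨i0, -⟩ := split (fun _ => 1) (by simpa using iv) intervalIntegrable_const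
  simp only [one_mul] at i0
  have ilw : IntervalIntegrable (fun t => ℓ t * w t) volume 0 T :=
    i0.continuousOn_mul (by fun_prop)
  calc ∫ t in (0:ℝ)..T, ψ t * w t
      = (∫ t in (0:ℝ)..T, (ψ t - ℓ t) * w t) + ∫ t in (0:ℝ)..T, ℓ t * w t := by
        rw [← intervalIntegral.integral_add]
        · exact intervalIntegral.integral_congr fun t _ => by ring
        · exact (ipw.sub ilw).congr fun t _ => by ring
        · exact ilw
    _ ≤ 0 := by
        rw [hzero, add_zero]
        have := intervalIntegral.integral_mono_on_of_le_Ioo (f := fun t => (ψ t - ℓ t) * w t)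
          (g := fun _ => (0:ℝ)) hT ((ipw.sub ilw).congr fun t _ => by ring)
          intervalIntegrable_const ?_
        · simpa using this
        · intro t ht
          have htI : t ∈ Icc 0 T := Ioo_subset_Icc_self ht
          rcases lt_trichotomy t c with h | h | h
          · refine mul_nonpos_of_nonpos_of_nonneg (by linarith [left t htI h]) ?_
            have htq : t ≤ q := by linarith
            simp only [hw, htq, if_true]
            linarith [habove t ⟨htI.1, htq⟩ h]
          · subst h; simp [hℓ]
          · rcases lt_trichotomy t q with h' | h' | h'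
            · refine mul_nonpos_of_nonneg_of_nonpos (by linarith [inside t ⟨h, h'⟩]) ?_
              simp only [hw, h'.le, if_true]
              linarith [hbelow t ⟨htI.1, h'.le⟩ h]
            · subst h'; rw [hlq]; simp
            · refine mul_nonpos_of_nonpos_of_nonneg (by linarith [right t htI h']) ?_
              simp only [hw, h'.not_ge, if_false, sub_zero]
              exact hv0 t htI

/-- Jensen for a power. -/
lemma pow_avg_le {q : ℝ} (hq : 0 < q) (m : ℕ) {f : ℝ → ℝ} (hf0 : ∀ t ∈ Icc 0 q, 0 ≤ f t)
    (hf : AntitoneOn f (Icc 0 q)) :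
    q * ((∫ t in (0:ℝ)..q, f t) / q) ^ m ≤ ∫ t in (0:ℝ)..q, f t ^ m := by
  have i1 := intervalIntegrable_of_antitoneOn hq.le hf
  have i2 : IntervalIntegrable (fun t => f t ^ m) volume 0 q :=
    intervalIntegrable_of_antitoneOn hq.le
      (fun x hx y hy hxy => pow_le_pow_left₀ (hf0 y hy) (hf hx hy hxy) m)
  set μ := (∫ t in (0:ℝ)..q, f t) / q with hμ
  have hμ0 : 0 ≤ μ := div_nonneg (intervalIntegral.integral_nonneg hq.le hf0) hq.le
  have key : ∀ t ∈ Icc 0 q, μ ^ m + (m : ℝ) * μ ^ (m - 1) * (f t - μ) ≤ f t ^ m := by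
    intro t ht
    rcases Nat.eq_zero_or_pos m with rfl | hm
    · simp
    have h0 := hf0 t ht
    rcases eq_or_lt_of_le hμ0 with h | h
    · rw [← h]
      rcases Nat.eq_or_lt_of_le (Nat.one_le_iff_ne_zero.2 hm.ne') with h1 | h1
      · simp [← h1]
      · simp [zero_pow (show m - 1 ≠ 0 by omega), zero_pow hm.ne', pow_nonneg h0]
    · have h2 := one_add_mul_le_pow (show (-2:ℝ) ≤ f t / μ - 1 by
        linarith [div_nonneg h0 h.le]) m
      rw [add_sub_cancel, div_pow, le_div_iff₀ (pow_pos h m)] at h2
      refine le_trans (le_of_eq ?_) h2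
      obtain ⟨k, rfl⟩ := Nat.exists_eq_add_of_lt hm
      simp [pow_succ]
      field_simp
  have := intervalIntegral.integral_mono_on hq.le
    (intervalIntegrable_const.add ((i1.sub intervalIntegrable_const).const_mul _)) i2 key
  rw [intervalIntegral.integral_add intervalIntegrable_const
    ((i1.sub intervalIntegrable_const).const_mul _), intervalIntegral.integral_const_mul,
    intervalIntegral.integral_sub i1 intervalIntegrable_const] at this
  simp only [intervalIntegral.integral_const, smul_eq_mul, sub_zero] at this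
  have e : (∫ t in (0:ℝ)..q, f t) - q * μ = 0 := by rw [hμ]; field_simp; ring
  rw [e, mul_zero, add_zero] at this
  exact this

end Vale.Agent.P254
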