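import Vale.Agent.P254.Basic

/-!
Monomial integrals over the standard simplex.
-/

open MeasureTheory Set Matrix
open scoped Pointwise

namespace Vale.Agent.P254

/-- The standard simplex written by inequalities. -/
def sx (n : ℕ) : Set (Fin n → ℝ) := {x | (∀ i, 0 ≤ x i) ∧ ∑ i, x i ≤ 1}

lemma sx_isCompact (n : ℕ) : IsCompact (sx n) := by
  refine Metric.isCompact_of_isClosed_isBounded ?_ ?_
  · simp only [sx, ofPred_and, ofPred_forall]
    exact (isClosed_iInter fun i => isClosed_le continuous_const (continuous_apply i)).inter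
      (isClosed_le (by fun_prop) continuous_const)
  · refine (Metric.isBounded_closedBall (x := (0 : Fin n → ℝ)) (r := 1)).subset ?_
    intro x hx
    rw [Metric.mem_closedBall, dist_zero_right, pi_norm_le_iff_of_nonneg zero_le_one]
    intro i
    rw [Real.norm_of_nonneg (hx.1 i)]
    exact (Finset.single_le_sum (fun j _ => hx.1 j) (Finset.mem_univ i)).trans hx.2

lemma stdSimp_eq_sx (n : ℕ) : stdSimp n = sx n := by
  apply subset_antisymm
  · apply convexHull_min
    · rintro x (rfl | ⟨i, rfl⟩)
      · simp [sx]
      · refine ⟨fun j => ?_, by simp⟩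
        by_cases h : j = i
        · subst h; simp
        · simp [Pi.single_eq_of_ne h]
    · intro x hx y hy a b ha hb hab
      refine ⟨fun i => ?_, ?_⟩
      · simp only [Pi.add_apply, Pi.smul_apply, smul_eq_mul]
        nlinarith [hx.1 i, hy.1 i]
      · simp only [Pi.add_apply, Pi.smul_apply, smul_eq_mul, Finset.sum_add_distrib,
          ← Finset.mul_sum]
        nlinarith [hx.2, hy.2]
  · intro x hx
    let w : Option (Fin n) → ℝ := fun o => o.elim (1 - ∑ i, x i) x
    let z : Option (Fin n) → (Fin n → ℝ) := fun o => o.elim 0 fun i => Pi.single i 1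
    have hsum : ∑ o, w o = 1 := by simp [Fintype.sum_option, w]
    have hx' : x = ∑ o, w o • z o := by
      funext j
      simp [Fintype.sum_option, w, z, Pi.single_apply]
    rw [hx']
    refine (convex_convexHull ℝ _).sum_mem (fun o _ => ?_) hsum (fun o _ => ?_)
    · cases o with
      | none => exact sub_nonneg.2 hx.2
      | some i => exact hx.1 i
    · refine subset_convexHull ℝ _ ?_
      cases o with
      | none => exact mem_insert _ _
      | some i => exact mem_insert_of_mem _ ⟨i, rfl⟩

/-- `∫_0^1 t^a (1-t)^b`. -/
lemma integral_beta (a b : ℕ) :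
    ∫ t in (0:ℝ)..1, t ^ a * (1 - t) ^ b =
      (a.factorial : ℝ) * b.factorial / (a + b + 1).factorial := by
  induction a generalizing b with
  | zero =>
    have h1 : ∫ t in (0:ℝ)..1, (1 - t) ^ b = ∫ t in (0:ℝ)..1, t ^ b := by
      have := intervalIntegral.integral_comp_sub_left (fun t : ℝ => t ^ b) 1 (a := 0) (b := 1)
      simpa using this
    simp only [pow_zero, one_mul, h1, integral_pow, Nat.factorial_zero, zero_add, one_pow,
      zero_pow (Nat.succ_ne_zero b), sub_zero, Nat.factorial_succ, Nat.cast_mul, Nat.cast_one]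
    push_cast
    field_simp
  | succ a ih =>
    have key : (a + 1 : ℝ) * (∫ t in (0:ℝ)..1, t ^ a * (1 - t) ^ (b + 1)) =
        (b + 1 : ℝ) * ∫ t in (0:ℝ)..1, t ^ (a + 1) * (1 - t) ^ b := by
      have hd : ∀ t : ℝ, HasDerivAt (fun t => t ^ (a + 1) * (1 - t) ^ (b + 1))
          ((a + 1) * (t ^ a * (1 - t) ^ (b + 1)) - (b + 1) * (t ^ (a + 1) * (1 - t) ^ b)) t := by
        intro t
        have := (hasDerivAt_pow (a + 1) t).fun_mul (((hasDerivAt_id t).const_sub 1).fun_pow (b + 1))
        refine this.congr_deriv ?_
        simp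
        ring
      have h0 := intervalIntegral.integral_eq_sub_of_hasDerivAt (fun t _ => hd t)
        (Continuous.intervalIntegrable (by fun_prop) 0 1)
      rw [intervalIntegral.integral_sub (Continuous.intervalIntegrable (by fun_prop) _ _)
        (Continuous.intervalIntegrable (by fun_prop) _ _), intervalIntegral.integral_const_mul,
        intervalIntegral.integral_const_mul] at h0
      simp at h0
      linarith
    have hb : (b : ℝ) + 1 ≠ 0 := by positivity
    rw [ih (b + 1)] at key
    refine mul_left_cancel₀ hb ?_
    rw [← key]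
    have e : a + (b + 1) + 1 = a + 1 + b + 1 := by omega
    rw [e, Nat.factorial_succ a, Nat.factorial_succ b]
    push_cast
    ring

lemma setIntegral_smul_set {E : Type*} [NormedAddCommGroup E] [NormedSpace ℝ E]
    [MeasurableSpace E] [BorelSpace E] [FiniteDimensional ℝ E] (μ : Measure E)
    [μ.IsAddHaarMeasure] (f : E → ℝ) (s : Set E) {R : ℝ} (hR : 0 < R) :
    ∫ x in R • s, f x ∂μ = R ^ Module.finrank ℝ E * ∫ x in s, f (R • x) ∂μ := by
  rw [Measure.setIntegral_comp_smul_of_pos μ f s hR, smul_eq_mul, ← mul_assoc,
    mul_inv_cancel₀ (pow_pos hR _).ne', one_mul]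

/-- Monomial integrals over the standard simplex. -/
theorem integral_sx : ∀ (n : ℕ) (a : Fin n → ℕ),
    ∫ x in sx n, ∏ i, x i ^ a i =
      (∏ i, ((a i).factorial : ℝ)) / ((n + ∑ i, a i).factorial : ℕ) := by
  intro n
  induction n with
  | zero =>
    intro a
    have h : sx 0 = univ := by ext x; simp [sx]
    simp [h, Measure.real, volume_pi, Measure.pi_of_empty]
  | succ n ih =>
    intro a
    let e := MeasurableEquiv.piFinSuccAbove (fun _ : Fin (n + 1) => ℝ) 0
    have he : MeasurePreserving e volume (volume.prod volume) :=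
      volume_preserving_piFinSuccAbove _ 0
    set T : Set (ℝ × (Fin n → ℝ)) :=
      {p | 0 ≤ p.1 ∧ (∀ i, 0 ≤ p.2 i) ∧ p.1 + ∑ i, p.2 i ≤ 1} with hT
    have hTm : MeasurableSet T := by
      simp only [hT, ofPred_and, ofPred_forall]
      exact ((isClosed_le continuous_const continuous_fst).inter
        ((isClosed_iInter fun i => isClosed_le continuous_const (by fun_prop)).inter
          (isClosed_le (by fun_prop) continuous_const))).measurableSet
    set F : ℝ × (Fin n → ℝ) → ℝ := fun p => p.1 ^ a 0 * ∏ i, p.2 i ^ a i.succ with hF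
    have hpre : e ⁻¹' T = sx (n + 1) := by
      ext x
      simp [hT, e, sx, Fin.sum_univ_succ, Fin.forall_fin_succ, Fin.removeNth, and_assoc, Fin.tail]
    have h1 : ∫ x in sx (n + 1), ∏ i, x i ^ a i = ∫ p in T, F p := by
      rw [← hpre, show (∫ p in T, F p) = ∫ p in T, F p ∂(volume.prod volume) from rfl,
        ← he.setIntegral_preimage_emb e.measurableEmbedding]
      refine setIntegral_congr_fun (e.measurable hTm) fun x _ => ?_
      simp [hF, e, Fin.prod_univ_succ, Fin.removeNth, Fin.tail]
    have hTc : IsCompact T := by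
      have himg : T = (fun x : Fin (n + 1) → ℝ => (x 0, fun i : Fin n => x i.succ)) '' sx (n + 1) := by
        ext p
        constructor
        · intro hp
          refine ⟨Fin.cons p.1 p.2, ?_, by simp⟩
          simpa [sx, Fin.sum_univ_succ, Fin.forall_fin_succ, hT, and_assoc] using hp
        · rintro ⟨x, hx, rfl⟩
          simpa [sx, Fin.sum_univ_succ, Fin.forall_fin_succ, hT, and_assoc] using hx
      rw [himg]
      exact (sx_isCompact _).image (by fun_prop)
    have hint : IntegrableOn F T := (by fun_prop : Continuous F).continuousOn.integrableOn_compact hTc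
    set c : ℝ := ∫ x in sx n, ∏ i, x i ^ a i.succ with hc
    set d : ℕ := n + ∑ i : Fin n, a i.succ with hd
    have hslice : (fun t => ∫ x, T.indicator F (t, x)) =ᵐ[volume]
        (Icc (0:ℝ) 1).indicator (fun t => t ^ a 0 * (1 - t) ^ d * c) := by
      have hne : ∀ᵐ t : ℝ, t ≠ 1 := by
        rw [ae_iff]; simp
      filter_upwards [hne] with t ht
      by_cases h : t ∈ Icc (0:ℝ) 1
      · have hlt : 0 < 1 - t := by
          rcases h with ⟨_, h2⟩
          have : t < 1 := lt_of_le_of_ne h2 ht
          linarith
        have hs : Prod.mk t ⁻¹' T = (1 - t) • sx n := by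
          ext x
          rw [Set.mem_smul_set_iff_inv_smul_mem₀ hlt.ne']
          simp only [mem_preimage, hT, mem_ofPred_eq, sx, Pi.smul_apply, smul_eq_mul,
            ← Finset.mul_sum, inv_mul_le_one₀ hlt]
          constructor
          · rintro ⟨_, h2, h3⟩
            exact ⟨fun i => mul_nonneg (inv_nonneg.2 hlt.le) (h2 i), by linarith⟩
          · rintro ⟨h2, h3⟩
            exact ⟨h.1, fun i => nonneg_of_mul_nonneg_right (h2 i) (inv_pos.2 hlt), by linarith⟩
        have : (fun x => T.indicator F (t, x)) =
            (Prod.mk t ⁻¹' T).indicator (fun x => F (t, x)) := by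
          funext x; exact (Set.indicator_comp_right (Prod.mk t) (g := F) (x := x)).symm
        rw [this, integral_indicator (measurable_prodMk_left hTm), hs, indicator_of_mem h,
          setIntegral_smul_set _ _ _ hlt]
        simp only [hF, Pi.smul_apply, smul_eq_mul, mul_pow, Finset.prod_mul_distrib,
          Module.finrank_fin_fun, integral_const_mul, Finset.prod_pow_eq_pow_sum, hc, hd, pow_add]
        ring
      · rw [indicator_of_notMem h]
        have : ∀ x, T.indicator F (t, x) = 0 := by
          intro x
          refine indicator_of_notMem ?_ F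
          rintro ⟨h1, h2, h3⟩
          exact h ⟨h1, le_trans (le_add_of_nonneg_right (Finset.sum_nonneg fun i _ => h2 i)) h3⟩
        simp [this]
    rw [h1, ← integral_indicator hTm]
    change ∫ p, T.indicator F p ∂(volume.prod volume) = _
    rw [integral_prod _ (hint.integrable_indicator hTm), integral_congr_ae hslice,
      integral_indicator measurableSet_Icc, integral_Icc_eq_integral_Ioc,
      ← intervalIntegral.integral_of_le zero_le_one, intervalIntegral.integral_mul_const,
      integral_beta, hc, ih (fun i => a i.succ), Fin.prod_univ_succ, Fin.sum_univ_succ]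
    have e1 : a 0 + d + 1 = n + 1 + (a 0 + ∑ i : Fin n, a i.succ) := by omega
    rw [e1]
    have : ((n + ∑ i : Fin n, a i.succ).factorial : ℝ) ≠ 0 := by positivity
    rw [← hd] at this ⊢
    field_simp

end Vale.Agent.P254
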