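import Vale.Agent.P254.OneDim
import Vale.Agent.P254.Simplex

/-!
Second moment against first moment for `ψ^m`, `ψ` concave and decreasing.
-/

open MeasureTheory Set

namespace Vale.Agent.P254

lemma beta_scaled {A : ℝ} (hA : 0 < A) (j m : ℕ) :
    ∫ t in (0:ℝ)..A, t ^ j * (1 - t / A) ^ m =
      A ^ (j + 1) * ((j.factorial : ℝ) * m.factorial / (j + m + 1).factorial) := by
  rw [← integral_beta]
  have h := intervalIntegral.mul_integral_comp_mul_left
    (f := fun t : ℝ => t ^ j * (1 - t / A) ^ m) (a := 0) (b := 1) A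
  simp only [mul_zero, mul_one] at h
  rw [← h, pow_succ', mul_assoc, ← intervalIntegral.integral_const_mul (A ^ j)]
  congr 1
  refine intervalIntegral.integral_congr fun t _ => ?_
  simp only [mul_pow, mul_div_assoc]
  rw [mul_div_cancel₀ _ hA.ne']
  ring

theorem second_moment_le {T : ℝ} (hT : 0 ≤ T) {ψ : ℝ → ℝ} (hψ : ConcaveOn ℝ (Icc 0 T) ψ)
    (hψa : AntitoneOn ψ (Icc 0 T)) (hψ0 : ∀ t ∈ Icc 0 T, 0 ≤ ψ t) {m : ℕ} (hm : m ≠ 0)
    {V s : ℝ} (hV : ∫ t in (0:ℝ)..T, ψ t ^ m = V)
    (hs : ∫ t in (0:ℝ)..T, t * ψ t ^ m = s * V) (hVp : 0 < V) :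
    ∫ t in (0:ℝ)..T, t ^ 2 * ψ t ^ m ≤ 2 * (m + 2) / (m + 3) * s ^ 2 * V := by
  have hfa : AntitoneOn (fun t => ψ t ^ m) (Icc 0 T) :=
    fun x hx y hy hxy => pow_le_pow_left₀ (hψ0 y hy) (hψa hx hy hxy) m
  have hsp : 0 < s := mean_pos hT hfa (fun t ht => pow_nonneg (hψ0 t ht) m) hV hs hVp
  have iff' := intervalIntegrable_of_antitoneOn hT hfa
  set A : ℝ := ((m:ℝ) + 2) * s with hAdef
  have hA : 0 < A := by positivity
  set h : ℝ := V * ((m:ℝ) + 1) / A with hh
  have hh0 : 0 < h := by positivity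
  set k : ℝ := h ^ ((m:ℝ)⁻¹) with hk
  have hk0 : 0 < k := by positivity
  have hkm : k ^ m = h := by rw [hk, Real.rpow_inv_natCast_pow hh0.le hm]
  set g : ℝ → ℝ := fun t => h * (1 - t / A) ^ m with hg
  have hgk : ∀ t, g t = (k * (1 - t / A)) ^ m := fun t => by simp [hg, mul_pow, hkm]
  have ig : ∀ a b, IntervalIntegrable g volume a b := fun a b =>
    Continuous.intervalIntegrable (by simp only [hg]; fun_prop) _ _
  have hfac : (m.factorial : ℝ) ≠ 0 := by positivity
  have g0 : ∫ t in (0:ℝ)..A, g t = V := by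
    have := beta_scaled hA 0 m
    simp only [pow_zero, one_mul, zero_add, pow_one, Nat.factorial_zero, Nat.cast_one] at this
    simp only [hg, intervalIntegral.integral_const_mul, this, hh, Nat.factorial_succ]
    push_cast
    field_simp
  have g1 : ∫ t in (0:ℝ)..A, t * g t = s * V := by
    have := beta_scaled hA 1 m
    simp only [pow_one, Nat.factorial_one, Nat.cast_one, one_mul] at this
    have e : (fun t => t * g t) = fun t => h * (t * (1 - t / A) ^ m) := by
      funext t; simp only [hg]; ring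
    rw [e, intervalIntegral.integral_const_mul, this, show 1 + m + 1 = m + 2 by omega, hh,
      Nat.factorial_succ, Nat.factorial_succ]
    simp only [hAdef]
    push_cast
    field_simp
    ring
  have g2 : ∫ t in (0:ℝ)..A, t ^ 2 * g t = 2 * (m + 2) / (m + 3) * s ^ 2 * V := by
    have := beta_scaled hA 2 m
    have e : (fun t => t ^ 2 * g t) = fun t => h * (t ^ 2 * (1 - t / A) ^ m) := by
      funext t; simp only [hg]; ring
    rw [e, intervalIntegral.integral_const_mul, this, show 2 + m + 1 = m + 3 by omega, hh,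
      Nat.factorial_succ (m + 2), Nat.factorial_succ (m + 1), Nat.factorial_succ m,
      Nat.factorial_two]
    simp only [hAdef]
    push_cast
    field_simp
    ring
  rw [← g2]
  set R := min T A with hR
  have hR0 : 0 ≤ R := le_min hT hA.le
  set S := {t | t ∈ Icc 0 R ∧ 0 ≤ ψ t - k * (1 - t / A)} with hS
  have hSconv : S.OrdConnected := by
    have haff : ConvexOn ℝ (Icc 0 R) (fun t => k * (1 - t / A)) := by
      refine ⟨convex_Icc _ _, fun x _ y _ a b _ _ hab => le_of_eq ?_⟩
      simp only [smul_eq_mul]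
      linear_combination (k : ℝ) * (-hab)
    have := ((hψ.subset (Icc_subset_Icc le_rfl (min_le_left _ _)) (convex_Icc _ _)).sub haff).convex_ge 0
    exact this.ordConnected
  have hSl : BddBelow S := ⟨0, fun t ht => ht.1.1⟩
  have hSu : BddAbove S := ⟨R, fun t ht => ht.1.2⟩
  have outside : ∀ t ∈ Icc 0 R, t ∉ S → ψ t ^ m ≤ g t := by
    intro t ht hns
    rw [hgk]
    refine pow_le_pow_left₀ (hψ0 t ⟨ht.1, ht.2.trans (min_le_left _ _)⟩) ?_ m
    by_contra hc
    push Not at hc
    exact hns ⟨ht, by linarith⟩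
  have insideS : ∀ t ∈ S, g t ≤ ψ t ^ m := by
    intro t ht
    rw [hgk]
    refine pow_le_pow_left₀ (mul_nonneg hk0.le ?_) (by linarith [ht.2]) m
    rw [sub_nonneg, div_le_one hA]
    exact ht.1.2.trans (min_le_right _ _)
  obtain ⟨c₁, c₂, hc12, hc2R, hout, hin⟩ : ∃ c₁ c₂, c₁ ≤ c₂ ∧ c₂ ≤ R ∧
      (∀ t ∈ Icc 0 R, (t < c₁ ∨ c₂ < t) → ψ t ^ m ≤ g t) ∧
      (∀ t, c₁ < t → t < c₂ → g t ≤ ψ t ^ m) := by
    by_cases hne : S.Nonempty
    · refine ⟨sInf S, sSup S, csInf_le_csSup hne hSl hSu, csSup_le hne fun t ht => ht.1.2, ?_, ?_⟩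
      · rintro t ht (hlt | hlt) <;> refine outside t ht fun hm' => ?_
        · exact absurd (csInf_le hSl hm') (not_le.2 hlt)
        · exact absurd (le_csSup hSu hm') (not_le.2 hlt)
      · intro t h1 h2
        obtain ⟨x, hx, hxt⟩ := exists_lt_of_csInf_lt hne h1
        obtain ⟨y, hy, hty⟩ := exists_lt_of_lt_csSup hne h2
        exact insideS t (hSconv.out hx hy ⟨hxt.le, hty.le⟩)
    · exact ⟨0, 0, le_rfl, hR0, fun t ht _ => outside t ht fun hm' => hne ⟨t, hm'⟩,
        fun t h1 h2 => absurd h1 (not_lt.2 h2.le)⟩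
  have iQ : ∀ (φ : ℝ → ℝ) (a b : ℝ), Continuous φ → IntervalIntegrable (fun t => φ t * g t) volume a b :=
    fun φ a b hφ => (ig a b).continuousOn_mul hφ.continuousOn
  have jQ : ∀ (φ : ℝ → ℝ), Continuous φ →
      IntervalIntegrable (fun t => φ t * ψ t ^ m) volume 0 T :=
    fun φ hφ => iff'.continuousOn_mul hφ.continuousOn
  rcases le_total T A with hTA | hAT
  · have hRT : R = T := min_eq_left hTA
    rw [hRT] at hc2R hout
    set Q : ℝ → ℝ := fun t => (t - c₁) * (t - c₂) with hQ
    have hQc : Continuous Q := by simp only [hQ]; fun_prop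
    have step1 : ∫ t in (0:ℝ)..T, Q t * ψ t ^ m ≤ ∫ t in (0:ℝ)..T, Q t * g t := by
      refine intervalIntegral.integral_mono_on hT (jQ Q hQc) (iQ Q 0 T hQc) fun t ht => ?_
      simp only [hQ]
      rcases lt_trichotomy t c₁ with h1 | h1 | h1
      · exact mul_le_mul_of_nonneg_left (hout t ht (Or.inl h1))
          (mul_nonneg_of_nonpos_of_nonpos (by linarith) (by linarith))
      · simp [h1]
      · rcases lt_trichotomy t c₂ with h2 | h2 | h2
        · exact mul_le_mul_of_nonpos_left (hin t h1 h2)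
            (mul_nonpos_of_nonneg_of_nonpos (by linarith) (by linarith))
        · simp [h2]
        · exact mul_le_mul_of_nonneg_left (hout t ht (Or.inr h2))
            (mul_nonneg (by linarith) (by linarith))
    have step2 : 0 ≤ ∫ t in T..A, Q t * g t := by
      refine intervalIntegral.integral_nonneg hTA fun t ht => ?_
      simp only [hQ, hg]
      have : 0 ≤ 1 - t / A := by rw [sub_nonneg, div_le_one hA]; exact ht.2
      have h1 : 0 ≤ (t - c₁) * (t - c₂) :=
        mul_nonneg (by linarith [ht.1]) (by linarith [ht.1])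
      positivity
    have total : ∫ t in (0:ℝ)..T, Q t * ψ t ^ m ≤ ∫ t in (0:ℝ)..A, Q t * g t := by
      rw [← intervalIntegral.integral_add_adjacent_intervals (iQ Q 0 T hQc) (iQ Q T A hQc)]
      linarith
    have expand : ∀ (φ : ℝ → ℝ) (b : ℝ), IntervalIntegrable φ volume 0 b →
        ∫ t in (0:ℝ)..b, Q t * φ t = (∫ t in (0:ℝ)..b, t ^ 2 * φ t) -
          (c₁ + c₂) * (∫ t in (0:ℝ)..b, t * φ t) + c₁ * c₂ * ∫ t in (0:ℝ)..b, φ t := by
      intro φ b hi
      have e : (fun t => Q t * φ t) =
          fun t => t ^ 2 * φ t - (c₁ + c₂) * (t * φ t) + c₁ * c₂ * φ t := by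
        funext t; simp only [hQ]; ring
      have i2 : IntervalIntegrable (fun t => t ^ 2 * φ t) volume 0 b :=
        hi.continuousOn_mul (by fun_prop)
      have i1 : IntervalIntegrable (fun t => t * φ t) volume 0 b :=
        hi.continuousOn_mul (by fun_prop)
      rw [e, intervalIntegral.integral_add (i2.sub (i1.const_mul _)) (hi.const_mul _),
        intervalIntegral.integral_sub i2 (i1.const_mul _), intervalIntegral.integral_const_mul,
        intervalIntegral.integral_const_mul]
    rw [expand _ T iff', expand g A (ig 0 A), hV, hs, g0, g1] at total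
    linarith
  · have hRA : R = A := min_eq_right hAT
    have hAS : A ∈ S := by
      refine ⟨by rw [hRA]; exact ⟨hA.le, le_rfl⟩, ?_⟩
      rw [div_self hA.ne', sub_self, mul_zero, sub_zero]
      exact hψ0 A ⟨hA.le, hAT⟩
    set c := sInf S with hc
    have hcA : c ≤ A := csInf_le hSl hAS
    have low : ∀ t ∈ Icc 0 A, t < c → ψ t ^ m ≤ g t := by
      intro t ht htc
      refine outside t (by rw [hRA]; exact ht) fun hm' => ?_
      exact absurd (csInf_le hSl hm') (not_le.2 htc)
    have high : ∀ t ∈ Icc 0 A, c < t → g t ≤ ψ t ^ m := by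
      intro t ht htc
      obtain ⟨x, hx, hxt⟩ := exists_lt_of_csInf_lt ⟨A, hAS⟩ htc
      exact insideS t (hSconv.out hx hAS ⟨hxt.le, ht.2⟩)
    have subI : ∀ {φ : ℝ → ℝ}, IntervalIntegrable φ volume 0 T →
        IntervalIntegrable φ volume 0 A ∧ IntervalIntegrable φ volume A T := fun hφ =>
      ⟨hφ.mono_set (by rw [uIcc_of_le hA.le, uIcc_of_le hT]; exact Icc_subset_Icc le_rfl hAT),
       hφ.mono_set (by rw [uIcc_of_le hAT, uIcc_of_le hT]; exact Icc_subset_Icc hA.le le_rfl)⟩
    obtain ⟨j0, j0'⟩ := subI iff'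
    obtain ⟨j1, j1'⟩ := subI (jQ (fun t => t) continuous_id)
    obtain ⟨j2, j2'⟩ := subI (jQ (fun t => t ^ 2) (by fun_prop))
    have e0 := intervalIntegral.integral_add_adjacent_intervals j0 j0'
    have e1 := intervalIntegral.integral_add_adjacent_intervals j1 j1'
    have e2 := intervalIntegral.integral_add_adjacent_intervals j2 j2'
    rw [hV] at e0
    rw [hs] at e1
    set P : ℝ → ℝ := fun t => (t - c) * (ψ t ^ m - g t) with hP
    have iP : IntervalIntegrable P volume 0 A :=
      (j0.sub (ig 0 A)).continuousOn_mul (by fun_prop)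
    have iP' : IntervalIntegrable (fun t => (t - c) * ψ t ^ m) volume A T :=
      j0'.continuousOn_mul (by fun_prop)
    have hPnn : ∀ t ∈ Icc 0 A, 0 ≤ P t := by
      intro t ht
      rcases lt_trichotomy t c with h1 | h1 | h1
      · exact mul_nonneg_of_nonpos_of_nonpos (by linarith) (by linarith [low t ht h1])
      · simp [hP, h1]
      · exact mul_nonneg (by linarith) (by linarith [high t ht h1])
    have hP'nn : ∀ t ∈ Icc A T, 0 ≤ (t - c) * ψ t ^ m := fun t ht =>
      mul_nonneg (by linarith [ht.1]) (pow_nonneg (hψ0 t ⟨hA.le.trans ht.1, ht.2⟩) m)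
    have eP : ∫ t in (0:ℝ)..A, P t = (∫ t in (0:ℝ)..A, t * ψ t ^ m) -
        c * (∫ t in (0:ℝ)..A, ψ t ^ m) - (s * V - c * V) := by
      have e : P = fun t => (t * ψ t ^ m - c * ψ t ^ m) - (t * g t - c * g t) := by
        funext t; simp only [hP]; ring
      rw [e, intervalIntegral.integral_sub (j1.sub (j0.const_mul _))
          ((iQ (fun t => t) 0 A continuous_id).sub ((ig 0 A).const_mul _)),
        intervalIntegral.integral_sub j1 (j0.const_mul _),
        intervalIntegral.integral_sub (iQ (fun t => t) 0 A continuous_id) ((ig 0 A).const_mul _),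
        intervalIntegral.integral_const_mul, intervalIntegral.integral_const_mul, g0, g1]
    have eP' : ∫ t in A..T, (t - c) * ψ t ^ m =
        (∫ t in A..T, t * ψ t ^ m) - c * ∫ t in A..T, ψ t ^ m := by
      have e : (fun t => (t - c) * ψ t ^ m) = fun t => t * ψ t ^ m - c * ψ t ^ m := by
        funext t; ring
      rw [e, intervalIntegral.integral_sub j1' (j0'.const_mul _), intervalIntegral.integral_const_mul]
    have z : (∫ t in (0:ℝ)..A, P t) + ∫ t in A..T, (t - c) * ψ t ^ m = 0 := by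
      rw [eP, eP']; linear_combination e1 - c * e0
    have p1 : 0 ≤ ∫ t in (0:ℝ)..A, P t := intervalIntegral.integral_nonneg hA.le hPnn
    have p2 : 0 ≤ ∫ t in A..T, (t - c) * ψ t ^ m := intervalIntegral.integral_nonneg hAT hP'nn
    have hne : ∀ᵐ t : ℝ, t ≠ c := by rw [ae_iff]; simp
    have q1 := (intervalIntegral.integral_eq_zero_iff_of_le_of_nonneg_ae hA.le
      (by filter_upwards [ae_restrict_mem measurableSet_Ioc] with t ht
          exact hPnn t ⟨ht.1.le, ht.2⟩) iP).1 (by linarith)
    have q2 := (intervalIntegral.integral_eq_zero_iff_of_le_of_nonneg_ae hAT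
      (by filter_upwards [ae_restrict_mem measurableSet_Ioc] with t ht
          exact hP'nn t ⟨ht.1.le, ht.2⟩) iP').1 (by linarith)
    have r1 : ∫ t in (0:ℝ)..A, t ^ 2 * ψ t ^ m = ∫ t in (0:ℝ)..A, t ^ 2 * g t := by
      refine intervalIntegral.integral_congr_ae ?_
      rw [uIoc_of_le hA.le]
      filter_upwards [(ae_restrict_iff' measurableSet_Ioc).1 q1, hne] with t h1 h2 ht
      have := h1 ht
      simp only [hP, Pi.zero_apply, mul_eq_zero] at this
      rw [sub_eq_zero.1 (this.resolve_left (sub_ne_zero.2 h2))]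
    have r2 : ∫ t in A..T, t ^ 2 * ψ t ^ m = 0 := by
      refine intervalIntegral.integral_zero_ae ?_
      rw [uIoc_of_le hAT]
      filter_upwards [(ae_restrict_iff' measurableSet_Ioc).1 q2, hne] with t h1 h2 ht
      have := h1 ht
      simp only [Pi.zero_apply, mul_eq_zero] at this
      simp [this.resolve_left (sub_ne_zero.2 h2)]
    linarith

end Vale.Agent.P254
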