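import Vale.Agent.P254.BM
import Vale.Agent.P254.Second
import Vale.Agent.P254.Reduce

/-!
The strong isotropic constant conjecture for bodies invariant under sign changes and permutations
of the coordinates.
-/

open MeasureTheory Set Real

namespace Vale.Agent.P254

/-- Invariance under all permutations and all sign changes of the coordinates. -/
def IsOneSymm {n : ℕ} (K : Set (Fin n → ℝ)) : Prop :=
  (∀ σ : Equiv.Perm (Fin n), ∀ x ∈ K, (fun i => x (σ i)) ∈ K) ∧
  (∀ i : Fin n, ∀ x ∈ K, Function.update x i (-x i) ∈ K)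

variable {n : ℕ}

lemma IsOneSymm.neg_mem {K : Set (Fin n → ℝ)} (h : IsOneSymm K) {x : Fin n → ℝ} (hx : x ∈ K) :
    -x ∈ K := by
  classical
  have : ∀ s : Finset (Fin n), (fun i => if i ∈ s then -x i else x i) ∈ K := by
    intro s
    induction s using Finset.induction with
    | empty => simpa using hx
    | insert a s has ih =>
      convert h.2 a _ ih using 1
      funext i
      by_cases hi : i = a
      · subst hi; simp [has]
      · simp [Function.update_of_ne hi, hi]
  have := this Finset.univ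
  simpa [funext_iff, Pi.neg_def] using this

lemma IsOneSymm.zero_mem {K : Set (Fin n → ℝ)} (h : IsOneSymm K) (hc : Convex ℝ K)
    (hne : K.Nonempty) : (0 : Fin n → ℝ) ∈ K := by
  obtain ⟨x, hx⟩ := hne
  have := hc hx (h.neg_mem hx) (a := 1 / 2) (b := 1 / 2) (by norm_num) (by norm_num) (by norm_num)
  simpa using this

lemma IsOneSymm.integral_perm {K : Set (Fin n → ℝ)} (h : IsOneSymm K) (σ : Equiv.Perm (Fin n))
    (φ : (Fin n → ℝ) → ℝ) : ∫ x in K, φ (fun i => x (σ i)) = ∫ x in K, φ x := by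
  have hK : reindexSet σ K = K := by
    ext y
    refine ⟨fun hy => ?_, fun hy => h.1 σ y hy⟩
    have := h.1 σ.symm _ (hy : (fun i => y (σ i)) ∈ K)
    simpa using this
  have := setIntegral_reindexSet σ K φ
  rwa [hK] at this

lemma IsOneSymm.integral_flip {K : Set (Fin n → ℝ)} (h : IsOneSymm K) (j : Fin n)
    (φ : (Fin n → ℝ) → ℝ) :
    ∫ x in K, φ (Function.update x j (-x j)) = ∫ x in K, φ x := by
  classical
  let c : Fin n → ℝ := fun i => if i = j then -1 else 1
  have hc : ∀ x : Fin n → ℝ, (fun i => c i * x i) = Function.update x j (-x j) := by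
    intro x; funext i
    by_cases hi : i = j
    · subst hi; simp [c]
    · simp [c, hi]
  let E : (Fin n → ℝ) ≃ᵐ (Fin n → ℝ) := MeasurableEquiv.piCongrRight fun i =>
    if i = j then MeasurableEquiv.neg ℝ else MeasurableEquiv.refl ℝ
  have hE : MeasurePreserving E volume volume := by
    refine volume_preserving_pi (fun i => ?_)
    by_cases hi : i = j
    · simpa [hi] using Measure.measurePreserving_neg (volume : Measure ℝ)
    · simpa [hi] using MeasurePreserving.id (volume : Measure ℝ)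
  have hfun : ∀ x, E x = Function.update x j (-x j) := by
    intro x; funext i
    by_cases hi : i = j
    · subst hi; simp [E, MeasurableEquiv.piCongrRight]
    · simp [E, MeasurableEquiv.piCongrRight, hi]
  have hpre : E ⁻¹' K = K := by
    ext x
    rw [mem_preimage, hfun]
    refine ⟨fun hx => ?_, fun hx => h.2 j x hx⟩
    have := h.2 j _ hx
    simpa using this
  have := hE.setIntegral_preimage_emb E.measurableEmbedding φ K
  rw [hpre] at this
  simpa [hfun] using this

lemma IsOneSymm.slice {C : Set (Fin (n + 1) → ℝ)} (h : IsOneSymm C) (t : ℝ) :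
    IsOneSymm (slc C t) := by
  refine ⟨fun σ y hy => ?_, fun i y hy => ?_⟩
  · have := h.1 (Equiv.Perm.decomposeFin.symm (0, σ)) _ hy
    change (Fin.cons t (fun i => y (σ i)) : Fin (n + 1) → ℝ) ∈ C
    convert this using 1
    funext k
    refine Fin.cases ?_ (fun l => ?_) k <;> simp
  · have := h.2 i.succ _ hy
    change (Fin.cons t (Function.update y i (-y i)) : Fin (n + 1) → ℝ) ∈ C
    convert this using 1
    rw [Fin.cons_succ, Fin.cons_update]

/-- Data of the slicing of a symmetric body along coordinate `0`. -/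
lemma sym_slices {C : Set (Fin (n + 1) → ℝ)} (hs : IsOneSymm C) (hc : Convex ℝ C)
    (hk : IsCompact C) (hne : C.Nonempty) :
    ∃ T : ℝ, 0 ≤ T ∧ AntitoneOn (slv C) (Icc 0 T) ∧ (∀ t ∈ Icc 0 T, (slc C t).Nonempty) ∧
      (∀ (φ : ℝ → ℝ), Continuous φ → ∫ x in C, φ |x 0| = 2 * ∫ t in (0:ℝ)..T, φ t * slv C t) ∧
      (∀ j : Fin n, ∃ F : ℝ → ℝ, (∀ t, F t = ∫ y in slc C t, |y j|) ∧
        IntervalIntegrable F volume 0 T ∧
        ∫ x in C, |x j.succ| = 2 * ∫ t in (0:ℝ)..T, F t) := by
  obtain ⟨z, hz, hzmax⟩ := hk.exists_isMaxOn hne (continuous_apply 0).continuousOn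
  set T := z 0 with hT
  have hle : ∀ x ∈ C, |x 0| ≤ T := fun x hx => abs_le.2
    ⟨by have : (-x) 0 ≤ z 0 := hzmax (hs.neg_mem hx)
        simp only [Pi.neg_apply] at this
        linarith,
     hzmax hx⟩
  have hT0 : 0 ≤ T := (abs_nonneg _).trans (hle z hz)
  have flip0 : ∀ t y, (Fin.cons t y : Fin (n + 1) → ℝ) ∈ C → (Fin.cons (-t) y : Fin (n + 1) → ℝ) ∈ C := by
    intro t y hy
    have := hs.2 0 _ hy
    simpa [Fin.update_cons_zero] using this
  have even : ∀ t, slc C (-t) = slc C t := fun t => by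
    ext y; exact ⟨fun hy => by have := flip0 _ y hy; rw [neg_neg] at this; exact this, fun hy => flip0 t y hy⟩
  have mono : ∀ t t', 0 ≤ t → t ≤ t' → slc C t' ⊆ slc C t := by
    intro t t' h0 h1 y hy
    rcases h0.trans h1 |>.eq_or_lt with he | hp
    · rw [show t = t' by linarith]; exact hy
    have := hc hy (flip0 _ _ hy) (a := (t' + t) / (2 * t')) (b := (t' - t) / (2 * t'))
      (div_nonneg (by linarith) (by linarith)) (div_nonneg (by linarith) (by linarith))
      (by field_simp; ring)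
    rw [combo_cons] at this
    change (Fin.cons t y : Fin (n + 1) → ℝ) ∈ C
    convert this using 2
    · field_simp; ring
    · rw [← add_smul, show (t' + t) / (2 * t') + (t' - t) / (2 * t') = 1 by field_simp; ring,
        one_smul]
  have hTne : (slc C T).Nonempty := ⟨fun i => z i.succ, by
    change (Fin.cons T (fun i => z i.succ) : Fin (n + 1) → ℝ) ∈ C
    convert hz
    exact Fin.cons_self_tail z⟩
  have half : ∀ F : ℝ → ℝ, Integrable F → (∀ t, F (-t) = F t) → (∀ t, T < |t| → F t = 0) →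
      IntervalIntegrable F volume 0 T ∧ ∫ t, F t = 2 * ∫ t in (0:ℝ)..T, F t := by
    intro F hF hev hout
    refine ⟨hF.intervalIntegrable, ?_⟩
    have h1 : ∫ t, F t = ∫ t in (-T)..T, F t := by
      rw [intervalIntegral.integral_of_le (by linarith), ← integral_Icc_eq_integral_Ioc]
      refine (setIntegral_eq_integral_of_forall_compl_eq_zero fun t ht => hout t ?_).symm
      by_contra hh
      push Not at hh
      exact ht (abs_le.1 hh)
    have h2 : ∫ t in (-T)..0, F t = ∫ t in (0:ℝ)..T, F t := by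
      have := intervalIntegral.integral_comp_neg (f := F) (a := 0) (b := T)
      rw [neg_zero] at this
      rw [← this]
      exact intervalIntegral.integral_congr fun t _ => hev t
    rw [h1, ← intervalIntegral.integral_add_adjacent_intervals (b := 0) hF.intervalIntegrable
      hF.intervalIntegrable, h2]
    ring
  have hempty : ∀ t, T < |t| → slc C t = ∅ := by
    intro t ht
    refine eq_empty_of_forall_notMem fun y hy => ?_
    have := hle _ hy
    simp at this
    linarith
  refine ⟨T, hT0, fun x hx y hy hxy => ?_, fun t ht => hTne.mono (mono t T ht.1 ht.2), ?_, ?_⟩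
  · exact ENNReal.toReal_mono (slc_isCompact hk x).measure_lt_top.ne
      (measure_mono (mono x y hx.1 hxy))
  · intro φ hφ
    obtain ⟨hi, he⟩ := integral_slices hk (φ := fun x => φ |x 0|) (by fun_prop)
    rw [he]
    have e : (fun t => ∫ y in slc C t, φ |(Fin.cons t y : Fin (n + 1) → ℝ) 0|) =
        fun t => φ |t| * slv C t := by
      funext t
      simp [slv, vol, Measure.real, mul_comm]
    rw [e] at hi
    rw [e, (half _ hi (fun t => by simp [slv, even]) (fun t ht => by simp [slv, vol, hempty t ht])).2]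
    congr 1
    refine intervalIntegral.integral_congr fun t ht => ?_
    rw [uIcc_of_le hT0] at ht
    simp only [abs_of_nonneg ht.1]
  · intro j
    obtain ⟨hi, he⟩ := integral_slices hk (φ := fun x => |x j.succ|) (by fun_prop)
    obtain ⟨h1, h2⟩ := half _ hi (fun t => by simp [even]) (fun t ht => by simp [hempty t ht])
    exact ⟨_, fun t => by simp, h1, he.trans h2⟩

lemma IsOneSymm.abs_eq {C : Set (Fin (n + 1) → ℝ)} (h : IsOneSymm C) (i : Fin (n + 1)) :
    ∫ x in C, |x i| = ∫ x in C, |x 0| := by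
  have := h.integral_perm (Equiv.swap 0 i) (fun x => |x 0|)
  simpa using this

lemma slv_root_concave {C : Set (Fin (n + 1) → ℝ)} (hn : n ≠ 0) (hc : Convex ℝ C)
    (hk : IsCompact C) {T : ℝ} (hne : ∀ t ∈ Icc 0 T, (slc C t).Nonempty) :
    ConcaveOn ℝ (Icc 0 T) (fun t => slv C t ^ (n⁻¹ : ℝ)) := by
  refine ⟨convex_Icc _ _, fun x hx y hy a b ha hb hab => ?_⟩
  simp only [smul_eq_mul]
  refine bm_root hn (slc_convex hc x) (slc_isCompact hk x) (hne x hx) (slc_convex hc y)
    (slc_isCompact hk y) (hne y hy) (slc_convex hc _) (slc_isCompact hk _) ha hb hab ?_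
  intro u hu v hv
  have := hc hu hv ha hb hab
  rw [combo_cons] at this
  exact this

/-- Volume against the first absolute moment: `4 E|x_i| ≤ |C|^(1/n)`. -/
theorem abs_moment_le : ∀ (n : ℕ) (C : Set (Fin n → ℝ)), IsOneSymm C → Convex ℝ C → IsCompact C →
    C.Nonempty → ∀ i : Fin n, 4 * (∫ x in C, |x i|) ≤ vol C * vol C ^ (n⁻¹ : ℝ) := by
  intro n
  induction n with
  | zero => intro C _ _ _ _ i; exact i.elim0
  | succ m ih =>
    intro C hs hc hk hne i
    rw [hs.abs_eq i]
    obtain ⟨T, hT, hv, hsne, hφ, hcol⟩ := sym_slices hs hc hk hne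
    have hVnn : 0 ≤ vol C := ENNReal.toReal_nonneg
    have hV : vol C = 2 * ∫ t in (0:ℝ)..T, slv C t := by
      have := hφ (fun _ => 1) continuous_const
      simpa only [setIntegral_one, one_mul] using this
    have hS : ∫ x in C, |x 0| = 2 * ∫ t in (0:ℝ)..T, t * slv C t := hφ (fun t => t) continuous_id
    rcases hVnn.eq_or_lt with hz | hpos
    · have h0 : volume C = 0 := ((ENNReal.toReal_eq_zero_iff _).1 hz.symm).resolve_right
        hk.measure_lt_top.ne
      rw [← hz, zero_mul, setIntegral_measure_zero _ h0, mul_zero]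
    set s := (∫ x in C, |x 0|) / vol C with hsd
    have hSs : ∫ t in (0:ℝ)..T, t * slv C t = s * (vol C / 2) := by
      rw [hsd, hS]; field_simp
    have hS' : ∫ x in C, |x 0| = s * vol C := by rw [hsd]; field_simp
    have hV' : ∫ t in (0:ℝ)..T, slv C t = vol C / 2 := by rw [hV]; ring
    rw [hS', show 4 * (s * vol C) = vol C * (4 * s) by ring]
    refine mul_le_mul_of_nonneg_left ?_ hVnn
    rcases Nat.eq_zero_or_pos m with rfl | hm
    · have h1 : ∀ t ∈ Icc 0 T, slv C t = 1 := by
        intro t ht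
        have : slc C t = univ := Subsingleton.eq_univ_of_nonempty (hsne t ht)
        simp [slv, this, vol, volume_pi, Measure.pi_of_empty]
      have e1 : ∫ t in (0:ℝ)..T, slv C t = T := by
        rw [intervalIntegral.integral_congr (g := fun _ => (1:ℝ))
          (fun t ht => h1 t (by rwa [uIcc_of_le hT] at ht))]
        simp
      have e2 : ∫ t in (0:ℝ)..T, t * slv C t = T ^ 2 / 2 := by
        rw [intervalIntegral.integral_congr (g := fun t => t)
          (fun t ht => by rw [h1 t (by rwa [uIcc_of_le hT] at ht)]; simp)]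
        simp
      rw [e1] at hV'
      rw [e2, ← hV'] at hSs
      have hTp : 0 < T := by linarith
      have : s = T / 2 := by field_simp at hSs; linarith
      simp
      linarith
    have hm0 : m ≠ 0 := hm.ne'
    set ψ : ℝ → ℝ := fun t => slv C t ^ (m⁻¹ : ℝ) with hψ
    have hψc : ConcaveOn ℝ (Icc 0 T) ψ := slv_root_concave hm0 hc hk hsne
    have hψa : AntitoneOn ψ (Icc 0 T) :=
      fun x hx y hy hxy => rpow_le_rpow (slv_nonneg _ _) (hv hx hy hxy) (by positivity)
    have hψ0 : ∀ t ∈ Icc 0 T, 0 ≤ ψ t := fun t _ => rpow_nonneg (slv_nonneg _ _) _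
    have hψm : ∀ t, ψ t ^ m = slv C t := fun t => rpow_inv_natCast_pow (slv_nonneg _ _) hm0
    -- the other coordinates
    have hbound : 2 * s * vol C ≤ ∫ t in (0:ℝ)..T, ψ t * slv C t := by
      obtain ⟨F, hF, hFi, hFe⟩ := hcol ⟨0, hm⟩
      rw [hs.abs_eq, hS'] at hFe
      have hprod : IntervalIntegrable (fun t => ψ t * slv C t) volume 0 T :=
        intervalIntegrable_of_antitoneOn hT (fun x hx y hy hxy =>
          mul_le_mul (hψa hx hy hxy) (hv hx hy hxy) (slv_nonneg _ _) (hψ0 x hx))
      have := intervalIntegral.integral_mono_on hT (hFi.const_mul 4) hprod (fun t ht => by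
        rw [hF, mul_comm (ψ t)]
        exact ih (slc C t) (hs.slice t) (slc_convex hc t) (slc_isCompact hk t) (hsne t ht) _)
      rw [intervalIntegral.integral_const_mul] at this
      linarith
    have hsp : 0 < s := mean_pos hT hv (fun t _ => slv_nonneg _ _) hV' hSs (by linarith)
    have havg := avg_ge hT hψc hψa hv (fun t _ => slv_nonneg _ _) hV' hSs (by linarith)
    have h2T : 2 * s ≤ T := two_mean_le hT hv hV' hSs (by linarith)
    set μ := (∫ t in (0:ℝ)..(2 * s), ψ t) / (2 * s) with hμ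
    have hμ4 : 4 * s ≤ μ := by
      rw [hμ, le_div_iff₀ (by linarith)]
      have := (mul_le_mul_of_nonneg_left hbound (by linarith : (0:ℝ) ≤ 2 * s)).trans havg
      nlinarith
    have hj := pow_avg_le (q := 2 * s) (by linarith) m
      (fun t ht => hψ0 t ⟨ht.1, ht.2.trans h2T⟩) (hψa.mono (Icc_subset_Icc le_rfl h2T))
    simp only [hψm] at hj
    have hle : ∫ t in (0:ℝ)..(2 * s), slv C t ≤ vol C / 2 := by
      rw [← hV']
      refine intervalIntegral.integral_mono_interval le_rfl (by linarith) h2T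
        (.of_forall fun t => slv_nonneg C t) (intervalIntegrable_of_antitoneOn hT hv)
    have hpow : (4 * s) ^ (m + 1) ≤ vol C := by
      have h1 : (4 * s) ^ m ≤ μ ^ m := pow_le_pow_left₀ (by linarith) hμ4 m
      calc (4 * s) ^ (m + 1) = 2 * (2 * s * (4 * s) ^ m) := by ring
        _ ≤ 2 * (2 * s * μ ^ m) := by
            have := mul_le_mul_of_nonneg_left h1 (by linarith : (0:ℝ) ≤ 2 * s)
            linarith
        _ ≤ vol C := by linarith
    calc 4 * s = ((4 * s) ^ (m + 1)) ^ (((m + 1 : ℕ) : ℝ)⁻¹) :=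
          (pow_rpow_inv_natCast (by linarith) (Nat.succ_ne_zero m)).symm
      _ ≤ vol C ^ (((m + 1 : ℕ) : ℝ)⁻¹) := rpow_le_rpow (by positivity) hpow (by positivity)

/-- Second moment of a coordinate. -/
theorem sq_moment_le {m : ℕ} {C : Set (Fin (m + 1) → ℝ)} (hs : IsOneSymm C) (hb : IsBody C) :
    ∫ x in C, x 0 ^ 2 ≤
      ((m:ℝ) + 2) / (8 * (m + 3)) * (vol C * (vol C ^ (((m + 1 : ℕ) : ℝ)⁻¹)) ^ 2) := by
  have hc := hb.1
  have hk := hb.2.1
  have hpos := hb.vol_pos
  obtain ⟨T, hT, hv, hsne, hφ, -⟩ := sym_slices hs hc hk hb.nonempty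
  have hV : ∫ t in (0:ℝ)..T, slv C t = vol C / 2 := by
    have : vol C = 2 * ∫ t in (0:ℝ)..T, slv C t := by
      have := hφ (fun _ => 1) continuous_const
      simpa only [setIntegral_one, one_mul] using this
    linarith
  set s := (∫ x in C, |x 0|) / vol C with hsd
  have hS : ∫ t in (0:ℝ)..T, t * slv C t = s * (vol C / 2) := by
    rw [hsd, hφ (fun t => t) continuous_id]; field_simp
  have hQ : ∫ x in C, x 0 ^ 2 = 2 * ∫ t in (0:ℝ)..T, t ^ 2 * slv C t := by
    have := hφ (fun t => t ^ 2) (by fun_prop)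
    simpa [sq_abs] using this
  have h4 : 4 * s ≤ vol C ^ (((m + 1 : ℕ) : ℝ)⁻¹) := by
    have := abs_moment_le (m + 1) C hs hc hk hb.nonempty 0
    rw [hsd, ← mul_div_assoc, div_le_iff₀ hpos]
    linarith
  have hs0 : 0 ≤ s := div_nonneg (integral_nonneg fun x => abs_nonneg _) hpos.le
  have key : ∫ t in (0:ℝ)..T, t ^ 2 * slv C t ≤ 2 * (m + 2) / (m + 3) * s ^ 2 * (vol C / 2) := by
    rcases Nat.eq_zero_or_pos m with rfl | hm
    · have h1 : ∀ t ∈ Icc 0 T, slv C t = 1 := by
        intro t ht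
        have : slc C t = univ := Subsingleton.eq_univ_of_nonempty (hsne t ht)
        simp [slv, this, vol, volume_pi, Measure.pi_of_empty]
      have cong : ∀ φ : ℝ → ℝ, ∫ t in (0:ℝ)..T, φ t * slv C t = ∫ t in (0:ℝ)..T, φ t := fun φ =>
        intervalIntegral.integral_congr fun t ht => by
          rw [h1 t (by rwa [uIcc_of_le hT] at ht), mul_one]
      have e0 := cong (fun _ => 1)
      simp only [one_mul, hV, intervalIntegral.integral_const, smul_eq_mul, sub_zero, mul_one] at e0
      rw [cong, integral_id] at hS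
      rw [cong, integral_pow, e0]
      rw [e0] at hS
      have hTp : 0 < T := by linarith
      have : s = T / 2 := by
        have h9 : T * (2 * s - T) = 0 := by field_simp at hS; linear_combination (-1 : ℝ) * hS
        rcases mul_eq_zero.1 h9 with h | h
        · exact absurd h hTp.ne'
        · linear_combination h / 2
      rw [this]
      norm_num
      nlinarith [sq_nonneg T]
    · set ψ : ℝ → ℝ := fun t => slv C t ^ (m⁻¹ : ℝ)
      have hψm : ∀ t, ψ t ^ m = slv C t := fun t =>
        rpow_inv_natCast_pow (slv_nonneg _ _) hm.ne'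
      have := second_moment_le hT (slv_root_concave hm.ne' hc hk hsne)
        (fun x hx y hy hxy => rpow_le_rpow (slv_nonneg _ _) (hv hx hy hxy) (by positivity))
        (fun t _ => rpow_nonneg (slv_nonneg _ _) _) hm.ne' (V := vol C / 2) (s := s)
        (by simpa only [ψ, hψm] using hV) (by simpa only [ψ, hψm] using hS) (by linarith)
      simpa only [ψ, hψm] using this
  rw [hQ]
  have h5 : (4 * s) ^ 2 ≤ (vol C ^ (((m + 1 : ℕ) : ℝ)⁻¹)) ^ 2 :=
    pow_le_pow_left₀ (by linarith) h4 2
  calc 2 * ∫ t in (0:ℝ)..T, t ^ 2 * slv C t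
      ≤ 2 * (2 * (m + 2) / (m + 3) * s ^ 2 * (vol C / 2)) := by linarith
    _ = ((m:ℝ) + 2) / (8 * (m + 3)) * (vol C * (4 * s) ^ 2) := by field_simp; ring
    _ ≤ _ := by gcongr

theorem isoRatio_le {m : ℕ} {C : Set (Fin (m + 1) → ℝ)} (hs : IsOneSymm C) (hb : IsBody C) :
    isoRatio C ≤ (((m:ℝ) + 2) / (8 * (m + 3))) ^ (m + 1) := by
  have hpos := hb.vol_pos
  have hint1 : ∀ i, ∫ x in C, x i = 0 := by
    intro i
    have := hs.integral_flip i (fun x => x i)
    simp only [Function.update_self, integral_neg] at this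
    linarith
  have hint2 : ∀ i j, i ≠ j → ∫ x in C, x i * x j = 0 := by
    intro i j hij
    have := hs.integral_flip i (fun x => x i * x j)
    simp only [Function.update_self, Function.update_of_ne hij.symm, neg_mul, integral_neg] at this
    linarith
  have hsq : ∀ i, ∫ x in C, x i * x i = ∫ x in C, x 0 ^ 2 := by
    intro i
    have := hs.integral_perm (Equiv.swap 0 i) (fun x => x 0 ^ 2)
    simpa [sq] using this
  have hcov : covMat C = Matrix.diagonal fun _ => (vol C)⁻¹ * ∫ x in C, x 0 ^ 2 := by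
    ext i j
    rw [covMat_apply hb.2.1 hpos.ne', hint1, hint1]
    by_cases h : i = j
    · subst h; simp [hsq]
    · simp [hint2 i j h, h]
  unfold isoRatio
  rw [hcov, Matrix.det_diagonal, Finset.prod_const, Finset.card_univ, Fintype.card_fin]
  set Q := vol C ^ (((m + 1 : ℕ) : ℝ)⁻¹) with hQ
  have hQp : Q ^ (m + 1) = vol C := rpow_inv_natCast_pow hpos.le (Nat.succ_ne_zero m)
  have h1 : (vol C)⁻¹ * ∫ x in C, x 0 ^ 2 ≤ ((m:ℝ) + 2) / (8 * (m + 3)) * Q ^ 2 := by
    rw [inv_mul_le_iff₀ hpos]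
    refine (sq_moment_le hs hb).trans (le_of_eq ?_)
    ring
  have h0 : 0 ≤ (vol C)⁻¹ * ∫ x in C, x 0 ^ 2 :=
    mul_nonneg (inv_nonneg.2 hpos.le) (integral_nonneg fun x => sq_nonneg _)
  rw [div_le_iff₀ (pow_pos hpos 2)]
  refine (pow_le_pow_left₀ h0 h1 _).trans (le_of_eq ?_)
  rw [mul_pow, ← pow_mul, mul_comm 2 (m + 1), pow_mul, hQp]

lemma numeric_key : ∀ n : ℕ, 2 ≤ n → ((n:ℝ) + 1) ^ (2 * n + 1) < 8 ^ n * (n.factorial : ℝ) ^ 2 := by
  intro n hn
  induction n, hn using Nat.le_induction with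
  | base => norm_num [Nat.factorial]
  | succ n hn ih =>
    have hm : (3:ℝ) ≤ (n:ℝ) + 1 := by
      have : (2:ℝ) ≤ n := by exact_mod_cast hn
      linarith
    obtain ⟨m, hmdef⟩ : ∃ m : ℝ, m = (n:ℝ) + 1 := ⟨_, rfl⟩
    rw [← hmdef] at hm ih
    -- `(1 + 1/m)^(2n+1) (1 + 1/m)^2 < 8`
    have hstep : (m + 1) ^ (2 * (n + 1) + 1) ≤ 8 * m ^ 2 * m ^ (2 * n + 1) := by
      have hm0 : 0 < m := by linarith
      have h1 : ((m + 1) / m) ^ (2 * (n + 1) + 1) ≤ 8 := by
        rcases Nat.lt_or_ge n 12 with hlt | hge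
        · interval_cases n <;> subst hmdef <;> norm_num
        · have e1 : ((m + 1) / m) ^ (2 * (n + 1)) ≤ exp 2 := by
            have h2 : (m + 1) / m = 1 / m + 1 := by field_simp; ring
            have h3 : (m + 1) / m ≤ exp (1 / m) := by rw [h2]; exact add_one_le_exp _
            refine (pow_le_pow_left₀ (by positivity) h3 _).trans (le_of_eq ?_)
            rw [← Real.exp_nat_mul]
            congr 1
            rw [hmdef]
            push_cast
            field_simp
          have e2 : exp 2 ≤ 7.39 := by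
            rw [show (2:ℝ) = 1 + 1 by norm_num, Real.exp_add]
            nlinarith [Real.exp_one_lt_d9, Real.exp_pos 1]
          have e3 : (m + 1) / m ≤ 1 + 1 / 13 := by
            rw [div_le_iff₀ hm0]
            have : (13:ℝ) ≤ m := by
              have : (12:ℝ) ≤ n := by exact_mod_cast hge
              rw [hmdef]; linarith
            linarith
          calc ((m + 1) / m) ^ (2 * (n + 1) + 1)
              = ((m + 1) / m) ^ (2 * (n + 1)) * ((m + 1) / m) := pow_succ _ _
            _ ≤ 7.39 * (1 + 1 / 13) :=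
                mul_le_mul (e1.trans e2) e3 (by positivity) (by norm_num)
            _ ≤ 8 := by norm_num
      rw [div_pow, div_le_iff₀ (by positivity)] at h1
      refine h1.trans (le_of_eq ?_)
      ring
    calc ((((n + 1 : ℕ) : ℝ)) + 1) ^ (2 * (n + 1) + 1) = (m + 1) ^ (2 * (n + 1) + 1) := by
          simp [hmdef]
      _ ≤ 8 * m ^ 2 * m ^ (2 * n + 1) := hstep
      _ < 8 * m ^ 2 * (8 ^ n * (n.factorial : ℝ) ^ 2) :=
          mul_lt_mul_of_pos_left ih (by positivity)
      _ = 8 ^ (n + 1) * ((n + 1).factorial : ℝ) ^ 2 := by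
          rw [Nat.factorial_succ, hmdef]; push_cast; ring

theorem oneSym_bound {n : ℕ} (hn : 1 ≤ n) {K : Set (Fin n → ℝ)} (hb : IsBody K) (hs : IsOneSymm K) :
    isoConst K ≤ sqrt (((n:ℝ) + 1) / (8 * ((n:ℝ) + 2))) ∧
      (2 ≤ n → isoConst K < isoConst (stdSimp n)) := by
  obtain ⟨m, rfl⟩ := Nat.exists_eq_succ_of_ne_zero (by omega : n ≠ 0)
  have h := isoRatio_le hs hb
  have hκ : ((m:ℝ) + 2) / (8 * (m + 3)) = (((m + 1 : ℕ) : ℝ) + 1) / (8 * (((m + 1 : ℕ) : ℝ) + 2)) := by
    push_cast; ring_nf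
  rw [hκ] at h
  have hκ0 : 0 ≤ (((m + 1 : ℕ) : ℝ) + 1) / (8 * (((m + 1 : ℕ) : ℝ) + 2)) := by positivity
  set κ := (((m + 1 : ℕ) : ℝ) + 1) / (8 * (((m + 1 : ℕ) : ℝ) + 2))
  refine ⟨?_, fun h2 => ?_⟩
  · have := rpow_le_rpow (isoRatio_nonneg hb.2.1) h
      (show (0:ℝ) ≤ 1 / (2 * ((m + 1 : ℕ) : ℝ)) by positivity)
    refine (le_trans (le_of_eq rfl) this).trans (le_of_eq ?_)
    rw [← rpow_natCast, ← rpow_mul hκ0, sqrt_eq_rpow]
    congr 1
    field_simp
  · have hlt : κ ^ (m + 1) < sxConst (m + 1) := by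
      have hk := numeric_key (m + 1) h2
      unfold sxConst
      rw [lt_div_iff₀ (by positivity)]
      simp only [κ]
      rw [div_pow, mul_pow, div_mul_eq_mul_div, div_lt_iff₀ (by positivity)]
      calc (((m + 1 : ℕ) : ℝ) + 1) ^ (m + 1) *
            ((((m + 1 : ℕ) : ℝ) + 1) ^ (m + 1 + 1) * (((m + 1 : ℕ) : ℝ) + 2) ^ (m + 1))
          = (((m + 1 : ℕ) : ℝ) + 1) ^ (2 * (m + 1) + 1) * (((m + 1 : ℕ) : ℝ) + 2) ^ (m + 1) := by
            ring
        _ < 8 ^ (m + 1) * ((m + 1).factorial : ℝ) ^ 2 * (((m + 1 : ℕ) : ℝ) + 2) ^ (m + 1) :=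
            mul_lt_mul_of_pos_right hk (by positivity)
        _ = _ := by ring
    rw [isoConst_stdSimp]
    exact rpow_lt_rpow (isoRatio_nonneg hb.2.1) (lt_of_le_of_lt h hlt) (expo_pos (by omega))

end Vale.Agent.P254
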