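import Vale.Agent.P254.PermMain

/-!
Affine images of permutation-invariant bodies; bodies of revolution are among them.
-/

open MeasureTheory Set Matrix

namespace Vale.Agent.P254

/-- Some invertible affine image is invariant under all coordinate permutations. -/
def IsAffPermInvariant {n : ℕ} (K : Set (Fin n → ℝ)) : Prop :=
  ∃ (a : Fin n → ℝ) (M : Matrix (Fin n) (Fin n) ℝ), M.det ≠ 0 ∧
    IsPermInvariant (affMap a M '' K)

/-- Invariance under every orthogonal map fixing a nonzero vector `u`: a body of revolution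
about the line through `0` and `u`. -/
def IsRevolution {n : ℕ} (K : Set (Fin n → ℝ)) : Prop :=
  ∃ u : Fin n → ℝ, u ≠ 0 ∧ ∀ Q : Matrix (Fin n) (Fin n) ℝ,
    Qᵀ * Q = 1 → Q *ᵥ u = u → ∀ x ∈ K, Q *ᵥ x ∈ K

lemma affPerm_main {n : ℕ} (hn : 1 ≤ n) {K : Set (Fin n → ℝ)} (hK : IsBody K)
    (hA : IsAffPermInvariant K) : nrat K ≤ 1 ∧ (nrat K = 1 → IsSimplexBody K) := by
  classical
  obtain ⟨a, M, hM, hP⟩ := hA
  have hb := isBody_affMap (a := a) hM hK
  obtain ⟨h1, h2⟩ := perm_main n hn _ hb hP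
  rw [nrat_affMap hM hK] at h1 h2
  refine ⟨h1, fun h => ?_⟩
  obtain ⟨v, -, hv⟩ := h2 h
  refine isSimplexBody_of_card_le hK
    (s := Finset.univ.image fun i => affMap (-(M⁻¹ *ᵥ a)) M⁻¹ (v i)) ?_
    (Finset.card_image_le.trans (by simp))
  rw [Finset.coe_image, Finset.coe_univ, image_univ,
    show range (fun i => affMap (-(M⁻¹ *ᵥ a)) M⁻¹ (v i)) = affMap (-(M⁻¹ *ᵥ a)) M⁻¹ '' range v from
      range_comp _ _,
    ← AffineMap.image_convexHull, hv, ← image_comp]
  have : (affMap (-(M⁻¹ *ᵥ a)) M⁻¹ ∘ affMap a M) = id := by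
    funext x
    simp [affMap_apply, mulVec_add, mulVec_mulVec, nonsing_inv_mul _ (Ne.isUnit hM)]
  rw [this, image_id]

/-- A reflection taking the direction `u` to the diagonal. -/
lemma exists_reflection {n : ℕ} {u : Fin n → ℝ} (hu : u ≠ 0) :
    ∃ (H : Matrix (Fin n) (Fin n) ℝ) (r : ℝ), H * H = 1 ∧ Hᵀ = H ∧
      H *ᵥ u = r • (fun _ => (1:ℝ)) := by
  have huu : 0 < u ⬝ᵥ u := by
    obtain ⟨i, hi⟩ := Function.ne_iff.1 hu
    exact lt_of_lt_of_le (mul_self_pos.2 (by simpa using hi))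
      (Finset.single_le_sum (fun j _ => mul_self_nonneg (u j)) (Finset.mem_univ i))
  have hn : (0:ℝ) < n := by
    obtain ⟨i, -⟩ := Function.ne_iff.1 hu
    exact_mod_cast (lt_of_le_of_lt (Nat.zero_le _) i.isLt)
  set r : ℝ := Real.sqrt ((u ⬝ᵥ u) / n) with hr
  set d : Fin n → ℝ := r • fun _ => (1:ℝ) with hd
  set w : Fin n → ℝ := u - d with hw
  rcases eq_or_ne w 0 with h0 | h0
  · exact ⟨1, r, by simp, by simp, by rw [one_mulVec]; exact sub_eq_zero.1 h0⟩
  have hdd : d ⬝ᵥ d = u ⬝ᵥ u := by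
    simp only [hd, dotProduct, Pi.smul_apply, smul_eq_mul, mul_one, Finset.sum_const,
      Finset.card_univ, Fintype.card_fin, nsmul_eq_mul]
    rw [hr, Real.mul_self_sqrt (div_nonneg huu.le hn.le)]
    field_simp
    simp only [dotProduct, sq]
  have hww : 0 < w ⬝ᵥ w := by
    obtain ⟨i, hi⟩ := Function.ne_iff.1 h0
    exact lt_of_lt_of_le (mul_self_pos.2 (by simpa using hi))
      (Finset.single_le_sum (fun j _ => mul_self_nonneg (w j)) (Finset.mem_univ i))
  set c : ℝ := 2 / (w ⬝ᵥ w) with hc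
  have hHv : ∀ x : Fin n → ℝ, (1 - c • vecMulVec w w) *ᵥ x = x - (c * (w ⬝ᵥ x)) • w := by
    intro x
    rw [sub_mulVec, one_mulVec, smul_mulVec, vecMulVec_mulVec]
    funext i
    simp
    ring
  refine ⟨1 - c • vecMulVec w w, r, ?_, ?_, ?_⟩
  · refine Matrix.ext_of_mulVec_single fun i => ?_
    rw [← mulVec_mulVec, hHv, hHv, one_mulVec, dotProduct_sub, dotProduct_smul]
    funext j
    simp only [Pi.sub_apply, Pi.smul_apply, smul_eq_mul, hc]
    field_simp
    ring
  · ext i j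
    simp [transpose_apply, vecMulVec_apply, Matrix.one_apply, eq_comm, mul_comm]
  · rw [hHv]
    have h2 : 2 * (w ⬝ᵥ u) = w ⬝ᵥ w := by
      simp only [hw, sub_dotProduct, dotProduct_sub, hdd, dotProduct_comm d u]
      ring
    have : c * (w ⬝ᵥ u) = 1 := by rw [hc, div_mul_eq_mul_div, h2, div_self hww.ne']
    rw [this, one_smul, hw, sub_sub_cancel]

lemma IsRevolution.affPerm {n : ℕ} {K : Set (Fin n → ℝ)} (h : IsRevolution K) :
    IsAffPermInvariant K := by
  classical
  obtain ⟨u, hu, hinv⟩ := h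
  obtain ⟨H, r, hHH, hHt, hHu⟩ := exists_reflection hu
  have hdet : H.det ≠ 0 := fun h0 => by
    have := congrArg Matrix.det hHH
    rw [det_mul, h0, det_one] at this; simp at this
  refine ⟨0, H, hdet, fun σ y hy => ?_⟩
  obtain ⟨x, hx, rfl⟩ := hy
  set P : Matrix (Fin n) (Fin n) ℝ := Matrix.of fun i j => if j = σ i then 1 else 0 with hP
  have hPv : ∀ z : Fin n → ℝ, P *ᵥ z = fun i => z (σ i) := fun z => by
    funext i; simp [hP, Matrix.mulVec, dotProduct]
  have hPP : Pᵀ * P = 1 := by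
    refine Matrix.ext fun i j => ?_
    simp only [mul_apply, transpose_apply, hP, Matrix.of_apply, one_apply, mul_ite, mul_one,
      mul_zero]
    rw [Finset.sum_eq_single (σ.symm j)]
    · simp [eq_comm]
    · intro b _ hb
      have : j ≠ σ b := fun he => hb (by rw [he]; simp)
      simp [this]
    · simp
  have hQ : (H * P * H)ᵀ * (H * P * H) = 1 := by
    simp only [transpose_mul, hHt]
    rw [show H * (Pᵀ * H) * (H * P * H) = H * (Pᵀ * (H * H)) * (P * H) by
      simp only [Matrix.mul_assoc], hHH, Matrix.mul_one,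
      show H * Pᵀ * (P * H) = H * (Pᵀ * P) * H by simp only [Matrix.mul_assoc], hPP,
      Matrix.mul_one, hHH]
  have hQu : (H * P * H) *ᵥ u = u := by
    rw [← mulVec_mulVec, ← mulVec_mulVec, hHu, hPv]
    rw [show (fun i => (r • fun _ : Fin n => (1:ℝ)) (σ i)) = r • fun _ : Fin n => (1:ℝ) from rfl,
      ← hHu, mulVec_mulVec, hHH, one_mulVec]
  refine ⟨_, hinv _ hQ hQu x hx, ?_⟩
  simp only [affMap_apply, zero_add, mulVec_mulVec]
  rw [show H * (H * P * H) = P * H by simp only [← Matrix.mul_assoc, hHH, Matrix.one_mul],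
    ← mulVec_mulVec, hPv]

end Vale.Agent.P254
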