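import Vale.Agent.P254.OneSym
import Vale.Agent.P254.Affine

/-!
Coordinates adapted to a set that is invariant under permutations of the coordinates.
-/

open MeasureTheory Set Matrix

namespace Vale.Agent.P254

/-- Invariance under all permutations of the coordinates. -/
def IsPermInvariant {n : ℕ} (K : Set (Fin n → ℝ)) : Prop :=
  ∀ σ : Equiv.Perm (Fin n), ∀ x ∈ K, (fun i => x (σ i)) ∈ K

variable {m : ℕ}

/-- The matrix of `x ↦ (mean x, x_{j+1} - x_0)`. -/
noncomputable def meanMat (m : ℕ) : Matrix (Fin (m + 1)) (Fin (m + 1)) ℝ :=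
  Matrix.of fun i k => Fin.cases (1 / ((m:ℝ) + 1))
    (fun j => (if k = j.succ then (1:ℝ) else 0) - if k = 0 then 1 else 0) i

/-- The inverse map. -/
noncomputable def fromMean (t : ℝ) (y : Fin m → ℝ) : Fin (m + 1) → ℝ :=
  Fin.cons (t - (∑ j, y j) / ((m:ℝ) + 1)) (fun j => t + y j - (∑ j, y j) / ((m:ℝ) + 1))

lemma meanMat_mulVec (x : Fin (m + 1) → ℝ) :
    meanMat m *ᵥ x = Fin.cons ((∑ i, x i) / ((m:ℝ) + 1)) (fun j => x j.succ - x 0) := by
  funext i
  refine Fin.cases ?_ (fun j => ?_) i
  · simp [meanMat, Matrix.mulVec, dotProduct, ← Finset.mul_sum]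
    field_simp
  · simp [meanMat, Matrix.mulVec, dotProduct, sub_mul, Finset.sum_sub_distrib]

lemma meanMat_fromMean (t : ℝ) (y : Fin m → ℝ) :
    meanMat m *ᵥ fromMean t y = Fin.cons t y := by
  rw [meanMat_mulVec]
  congr 1
  · simp [fromMean, Fin.sum_univ_succ, Finset.sum_add_distrib, Finset.sum_sub_distrib,
      Finset.sum_const, Finset.card_univ]
    field_simp
    ring
  · funext j; simp [fromMean]

lemma meanMat_injective : Function.Injective (meanMat m).mulVec := by
  intro x x' h
  rw [meanMat_mulVec, meanMat_mulVec, Fin.cons_inj] at h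
  obtain ⟨h0, h1⟩ := h
  rw [div_left_inj' (by positivity)] at h0
  have hd : ∀ i, x i - x' i = x 0 - x' 0 := by
    intro i
    refine Fin.cases rfl (fun j => ?_) i
    have := congrFun h1 j
    linarith
  have hs : ∑ i, (x i - x' i) = ((m:ℝ) + 1) * (x 0 - x' 0) := by
    simp only [hd, Finset.sum_const, Finset.card_univ, Fintype.card_fin, nsmul_eq_mul]
    push_cast; ring
  rw [Finset.sum_sub_distrib, h0, sub_self, eq_comm, mul_eq_zero] at hs
  funext i
  have := hd i
  rcases hs with hs | hs
  · exact absurd hs (by positivity)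
  · linarith

lemma meanMat_det : (meanMat m).det ≠ 0 :=
  ((Matrix.isUnit_iff_isUnit_det _).1
    (Matrix.mulVec_injective_iff_isUnit.1 meanMat_injective)).ne_zero

/-- `K` in the new coordinates. -/
noncomputable def meanImg (K : Set (Fin (m + 1) → ℝ)) : Set (Fin (m + 1) → ℝ) :=
  affMap 0 (meanMat m) '' K

lemma mem_meanImg {K : Set (Fin (m + 1) → ℝ)} (t : ℝ) (y : Fin m → ℝ) :
    y ∈ slc (meanImg K) t ↔ fromMean t y ∈ K := by
  show (Fin.cons t y : Fin (m + 1) → ℝ) ∈ meanImg K ↔ _
  rw [← meanMat_fromMean t y]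
  constructor
  · rintro ⟨x, hx, he⟩
    rw [affMap_apply, zero_add] at he
    rwa [← meanMat_injective he]
  · intro h
    exact ⟨_, h, by rw [affMap_apply, zero_add]⟩

/-- The transformation of a slice induced by a transposition with the coordinate `0`. -/
def refl (k : Fin m) (y : Fin m → ℝ) : Fin m → ℝ := fun j => if j = k then -y k else y j - y k

/-- Symmetry of the slices. -/
structure SymSlice (S : Set (Fin m → ℝ)) : Prop where
  perm : ∀ π : Equiv.Perm (Fin m), ∀ y ∈ S, (fun i => y (π i)) ∈ S
  flip : ∀ k : Fin m, ∀ y ∈ S, refl k y ∈ S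

lemma sum_refl (k : Fin m) (y : Fin m → ℝ) :
    ∑ j, refl k y j = ∑ j, y j - ((m:ℝ) + 1) * y k := by
  have : ∀ j, refl k y j = y j - y k - (if j = k then y k else 0) := fun j => by
    unfold refl; split_ifs with h
    · subst h; ring
    · ring
  simp only [this, Finset.sum_sub_distrib, Finset.sum_const, Finset.card_univ, Fintype.card_fin,
    nsmul_eq_mul, Finset.sum_ite_eq', Finset.mem_univ, if_true]
  ring

lemma symSlice_meanImg {K : Set (Fin (m + 1) → ℝ)} (hK : IsPermInvariant K) (t : ℝ) :
    SymSlice (slc (meanImg K) t) := by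
  refine ⟨fun π y hy => ?_, fun k y hy => ?_⟩ <;> rw [mem_meanImg] at hy ⊢
  · have := hK (Equiv.Perm.decomposeFin.symm (0, π)) _ hy
    convert this using 1
    funext i
    refine Fin.cases ?_ (fun j => ?_) i <;> simp [fromMean, Equiv.sum_comp π y]
  · have := hK (Equiv.swap 0 k.succ) _ hy
    convert this using 1
    have hn : ((m:ℝ) + 1) ≠ 0 := by positivity
    funext i
    refine Fin.cases ?_ (fun j => ?_) i
    · simp [fromMean, sum_refl]
      field_simp
      ring
    · by_cases hj : j = k
      · subst hj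
        simp only [fromMean, Fin.cons_succ, sum_refl, Equiv.swap_apply_right, Fin.cons_zero]
        simp only [refl, if_pos]
        field_simp
        ring
      · rw [Equiv.swap_apply_of_ne_of_ne (Fin.succ_ne_zero j) (by simpa using hj)]
        simp only [fromMean, Fin.cons_succ, sum_refl]
        simp only [refl, if_neg hj]
        field_simp
        ring

lemma zero_mem_slice {K : Set (Fin (m + 1) → ℝ)} (hc : Convex ℝ K) (hK : IsPermInvariant K)
    {t : ℝ} (hne : (slc (meanImg K) t).Nonempty) : (0 : Fin m → ℝ) ∈ slc (meanImg K) t := by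
  classical
  obtain ⟨y, hy⟩ := hne
  rw [mem_meanImg] at hy ⊢
  set x := fromMean t y with hx
  have hN : (0:ℝ) < Fintype.card (Equiv.Perm (Fin (m + 1))) := by exact_mod_cast Fintype.card_pos
  have havg := hc.sum_mem (t := (Finset.univ : Finset (Equiv.Perm (Fin (m + 1)))))
    (w := fun _ => (1:ℝ) / Fintype.card (Equiv.Perm (Fin (m + 1))))
    (z := fun σ i => x (σ i)) (fun _ _ => by positivity)
    (by simp only [Finset.sum_const, Finset.card_univ, nsmul_eq_mul]; field_simp)
    (fun σ _ => hK σ _ hy)
  convert havg using 1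
  set Sg : Fin (m + 1) → ℝ := fun i => ∑ σ : Equiv.Perm (Fin (m + 1)), x (σ i) with hSg
  have hconst : ∀ i, Sg i = Sg 0 := fun i => by
    simp only [hSg]
    refine Fintype.sum_equiv (Equiv.mulRight (Equiv.swap 0 i)) _ _ fun σ => ?_
    simp
  have htot : ∑ i, Sg i = Fintype.card (Equiv.Perm (Fin (m + 1))) * ∑ i, x i := by
    simp only [hSg]
    rw [Finset.sum_comm]
    simp [Equiv.sum_comp]
  simp only [hconst, Finset.sum_const, Finset.card_univ, Fintype.card_fin, nsmul_eq_mul] at htot
  have hsum : ∑ i, x i = ((m:ℝ) + 1) * t := by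
    simp [hx, fromMean, Fin.sum_univ_succ, Finset.sum_add_distrib, Finset.sum_sub_distrib,
      Finset.sum_const, Finset.card_univ]
    field_simp
    ring
  push_cast at htot
  rw [hsum] at htot
  funext i
  simp only [Finset.sum_apply, Pi.smul_apply, smul_eq_mul, ← Finset.mul_sum]
  show fromMean t 0 i = _ * Sg i
  rw [hconst i]
  have h1 : fromMean t (0 : Fin m → ℝ) i = t := by
    refine Fin.cases ?_ (fun j => ?_) i <;> simp [fromMean]
  rw [h1]
  have : Sg 0 = Fintype.card (Equiv.Perm (Fin (m + 1))) * t :=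
    mul_left_cancel₀ (show ((m:ℝ) + 1) ≠ 0 by positivity) (by linear_combination htot)
  rw [this]; field_simp

lemma SymSlice.integral_perm {S : Set (Fin m → ℝ)} (h : SymSlice S) (π : Equiv.Perm (Fin m))
    (φ : (Fin m → ℝ) → ℝ) : ∫ x in S, φ (fun i => x (π i)) = ∫ x in S, φ x := by
  have hK : reindexSet π S = S := by
    ext y
    refine ⟨fun hy => ?_, fun hy => h.perm π y hy⟩
    have := h.perm π.symm _ (hy : (fun i => y (π i)) ∈ S)
    simpa using this
  have := setIntegral_reindexSet π S φ
  rwa [hK] at this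

lemma refl_refl (k : Fin m) (y : Fin m → ℝ) : refl k (refl k y) = y := by
  funext j
  by_cases hj : j = k
  · subst hj; simp [refl]
  · simp [refl, hj]

lemma SymSlice.integral_flip {S : Set (Fin m → ℝ)} (h : SymSlice S) (hS : MeasurableSet S)
    (k : Fin m) (φ : (Fin m → ℝ) → ℝ) : ∫ x in S, φ (refl k x) = ∫ x in S, φ x := by
  classical
  let R : Matrix (Fin m) (Fin m) ℝ := LinearMap.toMatrix'
    { toFun := refl k
      map_add' := fun a b => by funext j; simp only [refl, Pi.add_apply]; split_ifs <;> ring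
      map_smul' := fun c a => by
        funext j; simp only [refl, Pi.smul_apply, smul_eq_mul, RingHom.id_apply]; split_ifs <;> ring }
  have hR : ∀ y, affMap 0 R y = refl k y := fun y => by
    rw [affMap_apply, zero_add, LinearMap.toMatrix'_mulVec]; rfl
  have hRR : R * R = 1 := by
    refine Matrix.ext_of_mulVec_single fun i => ?_
    rw [← Matrix.mulVec_mulVec, Matrix.one_mulVec]
    have := hR (affMap 0 R (Pi.single i 1))
    rw [hR (Pi.single i 1), refl_refl] at this
    rw [← hR, affMap_apply, zero_add, affMap_apply, zero_add] at this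
    exact this
  have hd2 : R.det * R.det = 1 := by rw [← Matrix.det_mul, hRR, Matrix.det_one]
  have hd : R.det ≠ 0 := fun h0 => by simp [h0] at hd2
  have habs : |R.det| = 1 := by
    have : |R.det| ^ 2 = 1 := by rw [sq_abs, sq]; exact hd2
    exact (pow_eq_one_iff_of_nonneg (abs_nonneg _) two_ne_zero).1 this
  have himg : affMap 0 R '' S = S := by
    ext y
    constructor
    · rintro ⟨x, hx, rfl⟩; rw [hR]; exact h.flip k x hx
    · exact fun hy => ⟨refl k y, h.flip k y hy, by rw [hR, refl_refl]⟩
  have := setIntegral_affMap (a := 0) hd hS φ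
  rw [himg, habs, one_mul] at this
  simp only [hR] at this
  exact this.symm

lemma SymSlice.mean_zero {S : Set (Fin m → ℝ)} (h : SymSlice S) (hS : IsCompact S) (j : Fin m) :
    ∫ y in S, y j = 0 := by
  have := h.integral_flip hS.measurableSet j (fun y => y j)
  simp only [refl, if_true, integral_neg] at this
  linarith

lemma SymSlice.second {S : Set (Fin m → ℝ)} (h : SymSlice S) (hS : IsCompact S) (i0 i j : Fin m) :
    ∫ y in S, y i * y j = (∫ y in S, y i0 ^ 2) / 2 * ((if i = j then 1 else 0) + 1) := by
  have hdiag : ∀ i, ∫ y in S, y i * y i = ∫ y in S, y i0 ^ 2 := fun i => by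
    have := h.integral_perm (Equiv.swap i0 i) (fun y => y i0 ^ 2)
    simpa [sq] using this
  by_cases hij : i = j
  · subst hij; rw [hdiag, if_pos rfl]; ring
  · have hint : ∀ f : (Fin m → ℝ) → ℝ, Continuous f → IntegrableOn f S := fun f hf =>
      hf.continuousOn.integrableOn_compact hS
    have := h.integral_flip hS.measurableSet j (fun y => y i * y j)
    simp only [refl, if_neg hij, if_true] at this
    have e : (fun y : Fin m → ℝ => (y i - y j) * -y j) = fun y => y j * y j - y i * y j := by
      funext y; ring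
    rw [e, integral_sub (hint _ (by fun_prop)) (hint _ (by fun_prop)), hdiag] at this
    rw [if_neg hij]; linarith

end Vale.Agent.P254
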