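import Mathlib

/-!
Decreasing rearrangement of a concave function on an interval, and the comparison of centred
second moments of the levels.
-/

open MeasureTheory Set Filter Topology

namespace Vale.Agent.P254.Rev

variable {T : ℝ} {ψ : ℝ → ℝ}

/-- Continuous extension to the closed interval of a decreasing concave function. -/
lemma exists_cont_ext (hT : 0 < T) {φ0 : ℝ → ℝ} (hc : ConcaveOn ℝ (Ioo 0 T) φ0)
    (ha : AntitoneOn φ0 (Ioo 0 T)) (hp : ∀ t ∈ Ioo 0 T, 0 < φ0 t) {B : ℝ}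
    (hB : ∀ t ∈ Ioo 0 T, φ0 t ≤ B) :
    ∃ φ : ℝ → ℝ, Continuous φ ∧ ConcaveOn ℝ (Icc 0 T) φ ∧ AntitoneOn φ (Icc 0 T) ∧
      (∀ t ∈ Ico 0 T, 0 < φ t) ∧ 0 ≤ φ T ∧ EqOn φ φ0 (Ioo 0 T) := by
  have hne : (φ0 '' Ioo 0 T).Nonempty := ⟨_, T / 2, ⟨by linarith, by linarith⟩, rfl⟩
  have hba : BddAbove (φ0 '' Ioo 0 T) := ⟨B, by rintro _ ⟨t, ht, rfl⟩; exact hB t ht⟩
  have hbb : BddBelow (φ0 '' Ioo 0 T) := ⟨0, by rintro _ ⟨t, ht, rfl⟩; exact (hp t ht).le⟩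
  set S := sSup (φ0 '' Ioo 0 T) with hS
  set I := sInf (φ0 '' Ioo 0 T) with hI
  have hle : ∀ t ∈ Ioo 0 T, φ0 t ≤ S ∧ I ≤ φ0 t := fun t ht =>
    ⟨le_csSup hba ⟨t, ht, rfl⟩, csInf_le hbb ⟨t, ht, rfl⟩⟩
  have hI0 : 0 ≤ I := le_csInf hne (by rintro _ ⟨t, ht, rfl⟩; exact (hp t ht).le)
  set φ1 : ℝ → ℝ := fun t => if t ≤ 0 then S else if T ≤ t then I else φ0 t with hφ1
  have e1 : ∀ t ∈ Ioo 0 T, φ1 t = φ0 t := fun t ht => by
    simp [hφ1, not_le.2 ht.1, not_le.2 ht.2]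
  have c1 : ContinuousOn φ1 (Icc 0 T) := by
    intro w hw
    rcases hw.1.eq_or_lt with rfl | hw0
    · rw [Metric.continuousWithinAt_iff]
      intro ε hε
      obtain ⟨_, ⟨d, hd, rfl⟩, hlt⟩ := exists_lt_of_lt_csSup hne (show S - ε < S by linarith)
      refine ⟨d, hd.1, fun {x} hx hxd => ?_⟩
      have h0 : φ1 0 = S := by simp [hφ1]
      rw [h0]
      rcases hx.1.eq_or_lt with rfl | hx0
      · simp [hφ1, hε]
      · rw [Real.dist_eq, sub_zero, abs_of_pos hx0] at hxd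
        have hxT : x ∈ Ioo 0 T := ⟨hx0, hxd.trans hd.2⟩
        rw [e1 x hxT, Real.dist_eq, abs_sub_comm, abs_of_nonneg (sub_nonneg.2 (hle x hxT).1)]
        linarith [ha hxT hd hxd.le]
    rcases hw.2.eq_or_lt with rfl | hwT
    · rw [Metric.continuousWithinAt_iff]
      intro ε hε
      obtain ⟨_, ⟨d, hd, rfl⟩, hlt⟩ := exists_lt_of_csInf_lt hne (show I < I + ε by linarith)
      refine ⟨w - d, by linarith [hd.2], fun {x} hx hxd => ?_⟩
      have h0 : φ1 w = I := by simp [hφ1, not_le.2 hw0]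
      rw [h0]
      rw [Real.dist_eq, abs_sub_comm, abs_of_nonneg (sub_nonneg.2 hx.2)] at hxd
      rcases hx.2.eq_or_lt with rfl | hxT
      · rw [h0, dist_self]; exact hε
      · have hxT' : x ∈ Ioo 0 w := ⟨by linarith [hd.1], hxT⟩
        rw [e1 x hxT', Real.dist_eq, abs_of_nonneg (sub_nonneg.2 (hle x hxT').2)]
        linarith [ha hd hxT' (by linarith)]
    · have := (hc.continuousOn isOpen_Ioo).continuousAt (isOpen_Ioo.mem_nhds ⟨hw0, hwT⟩)
      exact (this.congr (by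
        filter_upwards [isOpen_Ioo.mem_nhds ⟨hw0, hwT⟩] with x hx using (e1 x hx).symm)).continuousWithinAt
  set φ : ℝ → ℝ := IccExtend hT.le ((Icc 0 T).domRestrict φ1) with hφ
  have hφc : Continuous φ := (continuousOn_iff_continuous_domRestrict.1 c1).Icc_extend'
  have e : EqOn φ φ0 (Ioo 0 T) := fun t ht => by
    rw [hφ, IccExtend_of_mem _ _ (Ioo_subset_Icc_self ht)]; exact e1 t ht
  have hcc : ConcaveOn ℝ (Icc 0 T) φ := by
    refine ⟨convex_Icc 0 T, fun a ha' b hb s t hs ht hst => ?_⟩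
    simp only [smul_eq_mul]
    set q : ℝ → ℝ → ℝ := fun ε u => (1 - ε) * u + ε * (T / 2) with hq
    have hqm : ∀ ε ∈ Ioc (0:ℝ) 1, ∀ u ∈ Icc 0 T, q ε u ∈ Ioo 0 T := fun ε hε u hu => by
      have h1 := mul_nonneg (sub_nonneg.2 hε.2) hu.1
      have h2 := mul_nonneg (sub_nonneg.2 hε.2) (sub_nonneg.2 hu.2)
      have h3 := mul_pos hε.1 hT
      constructor <;> simp only [hq] <;> nlinarith
    have key : ∀ ε ∈ Ioc (0:ℝ) 1, s * φ (q ε a) + t * φ (q ε b) ≤ φ (q ε (s * a + t * b)) := by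
      intro ε hε
      have hmem : s * a + t * b ∈ Icc 0 T := (convex_Icc 0 T) ha' hb hs ht hst
      rw [e (hqm ε hε a ha'), e (hqm ε hε b hb), e (hqm ε hε _ hmem)]
      have := hc.2 (hqm ε hε a ha') (hqm ε hε b hb) hs ht hst
      simp only [smul_eq_mul] at this
      refine this.trans (le_of_eq (congrArg φ0 ?_))
      simp only [hq]
      obtain rfl : t = 1 - s := by linarith
      ring
    have lim : ∀ u, Tendsto (fun ε => φ (q ε u)) (𝓝[Ioc (0:ℝ) 1] 0) (𝓝 (φ u)) := fun u => by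
      have : Continuous fun ε => φ (q ε u) := by simp only [hq]; fun_prop
      have h := (this.tendsto 0).mono_left (nhdsWithin_le_nhds (s := Ioc (0:ℝ) 1))
      simpa [hq] using h
    have : (𝓝[Ioc (0:ℝ) 1] (0:ℝ)).NeBot := mem_closure_iff_nhdsWithin_neBot.1
      (by rw [closure_Ioc zero_ne_one]; exact ⟨le_rfl, zero_le_one⟩)
    exact le_of_tendsto_of_tendsto (((lim a).const_mul s).add ((lim b).const_mul t)) (lim _)
      (by filter_upwards [self_mem_nhdsWithin] with ε hε using key ε hε)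
  have h0 : φ 0 = S := by rw [hφ, IccExtend_of_mem _ _ ⟨le_rfl, hT.le⟩]; simp [hφ1]
  have hTv : φ T = I := by
    rw [hφ, IccExtend_of_mem _ _ ⟨hT.le, le_rfl⟩]; simp [hφ1, not_le.2 hT]
  refine ⟨φ, hφc, hcc, ?_, ?_, hTv ▸ hI0, e⟩
  · intro a ha' b hb hab
    rcases hab.eq_or_lt with rfl | hlt
    · exact le_rfl
    rcases ha'.1.eq_or_lt with rfl | ha0
    · rcases hb.2.eq_or_lt with rfl | hbT
      · rw [h0, hTv]
        exact (hle _ ⟨half_pos hT, half_lt_self hT⟩).2.trans (hle _ ⟨half_pos hT, half_lt_self hT⟩).1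
      · rw [h0, e ⟨hlt, hbT⟩]; exact (hle _ ⟨hlt, hbT⟩).1
    · have haI : a ∈ Ioo 0 T := ⟨ha0, hlt.trans_le hb.2⟩
      rcases hb.2.eq_or_lt with rfl | hbT
      · rw [e haI, hTv]; exact (hle a haI).2
      · rw [e haI, e ⟨ha0.trans hlt, hbT⟩]; exact ha haI ⟨ha0.trans hlt, hbT⟩ hab
  · intro t ht
    rcases ht.1.eq_or_lt with rfl | ht0
    · rw [h0]; exact (hp _ ⟨half_pos hT, half_lt_self hT⟩).trans_le (hle _ ⟨half_pos hT, half_lt_self hT⟩).1
    · rw [e ⟨ht0, ht.2⟩]; exact hp t ⟨ht0, ht.2⟩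

/-- The level set of `ψ` inside the open interval. -/
def lev (T : ℝ) (ψ : ℝ → ℝ) (a : ℝ) : Set ℝ := {t | t ∈ Ioo 0 T ∧ a < ψ t}

lemma lev_ordConnected (hc : ConcaveOn ℝ (Ioo 0 T) ψ) (a : ℝ) : (lev T ψ a).OrdConnected :=
  (hc.convex_gt a).ordConnected

lemma lev_sandwich (hc : ConcaveOn ℝ (Ioo 0 T) ψ) (a : ℝ) :
    Ioo (sInf (lev T ψ a)) (sSup (lev T ψ a)) ⊆ lev T ψ a ∧
      lev T ψ a ⊆ Icc (sInf (lev T ψ a)) (sSup (lev T ψ a)) := by
  have h1 : BddBelow (lev T ψ a) := ⟨0, fun t ht => ht.1.1.le⟩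
  have h2 : BddAbove (lev T ψ a) := ⟨T, fun t ht => ht.1.2.le⟩
  refine ⟨fun t ht => ?_, fun t ht => ⟨csInf_le h1 ht, le_csSup h2 ht⟩⟩
  rcases eq_empty_or_nonempty (lev T ψ a) with he | hne
  · rw [he, Real.sInf_empty, Real.sSup_empty] at ht; exact absurd (ht.1.trans ht.2) (lt_irrefl 0)
  obtain ⟨p, hp, hp'⟩ := exists_lt_of_csInf_lt hne ht.1
  obtain ⟨q, hq, hq'⟩ := exists_lt_of_lt_csSup hne ht.2
  exact (lev_ordConnected hc a).out hp hq ⟨hp'.le, hq'.le⟩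

lemma lev_le (a : ℝ) : sInf (lev T ψ a) ≤ sSup (lev T ψ a) := by
  rcases eq_empty_or_nonempty (lev T ψ a) with he | ⟨p, hp⟩
  · simp [he]
  · exact (csInf_le ⟨0, fun t ht => ht.1.1.le⟩ hp).trans (le_csSup ⟨T, fun t ht => ht.1.2.le⟩ hp)

lemma lev_ae (hc : ConcaveOn ℝ (Ioo 0 T) ψ) (a : ℝ) :
    lev T ψ a =ᵐ[volume] Ioc (sInf (lev T ψ a)) (sSup (lev T ψ a)) := by
  obtain ⟨h1, h2⟩ := lev_sandwich hc a
  refine (EventuallyLE.antisymm ?_ ?_)
  · exact h2.eventuallyLE.trans Ioc_ae_eq_Icc.symm.le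
  · exact Ioo_ae_eq_Ioc.symm.le.trans h1.eventuallyLE

lemma lev_measurable (hc : ConcaveOn ℝ (Ioo 0 T) ψ) (a : ℝ) : MeasurableSet (lev T ψ a) :=
  (lev_ordConnected hc a).measurableSet

lemma lev_vol (hc : ConcaveOn ℝ (Ioo 0 T) ψ) (a : ℝ) :
    volume (lev T ψ a) = ENNReal.ofReal (sSup (lev T ψ a) - sInf (lev T ψ a)) := by
  rw [measure_congr (lev_ae hc a), Real.volume_Ioc]

/-- Existence of the decreasing rearrangement. -/
lemma exists_rearr (hT : 0 < T) (hc : ConcaveOn ℝ (Icc 0 T) ψ) (h0 : ∀ t ∈ Icc 0 T, 0 ≤ ψ t)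
    (hp : ∀ t ∈ Ioo 0 T, 0 < ψ t) :
    ∃ φ : ℝ → ℝ, Continuous φ ∧ ConcaveOn ℝ (Icc 0 T) φ ∧ AntitoneOn φ (Icc 0 T) ∧
      (∀ t ∈ Ico 0 T, 0 < φ t) ∧ 0 ≤ φ T ∧
      ∀ a, sInf (lev T φ a) = 0 ∧
        sSup (lev T φ a) = sSup (lev T ψ a) - sInf (lev T ψ a) := by
  have hco : ConcaveOn ℝ (Ioo 0 T) ψ := hc.subset Ioo_subset_Icc_self (convex_Ioo 0 T)
  have hbd : ∀ t ∈ Icc 0 T, ψ t ≤ 2 * ψ (T / 2) := fun t ht => by
    have ht' : T - t ∈ Icc 0 T := ⟨by linarith [ht.2], by linarith [ht.1]⟩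
    have := hc.2 ht ht' (show (0:ℝ) ≤ 1/2 by norm_num) (show (0:ℝ) ≤ 1/2 by norm_num)
      (show (1/2:ℝ) + 1/2 = 1 by norm_num)
    simp only [smul_eq_mul] at this
    rw [show 1/2 * t + 1/2 * (T - t) = T / 2 by ring] at this
    linarith [h0 _ ht']
  set G : ℝ → ℝ → ℝ := fun s t => min (ψ t) (ψ (t + s)) with hG
  set φ0 : ℝ → ℝ := fun s => sSup (G s '' Icc 0 (T - s)) with hφ0
  have hba : ∀ s, 0 ≤ s → BddAbove (G s '' Icc 0 (T - s)) := fun s hs => ⟨2 * ψ (T / 2), by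
    rintro _ ⟨t, ht, rfl⟩; exact (min_le_left _ _).trans (hbd t ⟨ht.1, by linarith [ht.2]⟩)⟩
  have hmem : ∀ s ∈ Ioo 0 T, (G s '' Icc 0 (T - s)).Nonempty := fun s hs =>
    ⟨_, 0, ⟨le_rfl, by linarith [hs.2]⟩, rfl⟩
  have hgt : ∀ s ∈ Ioo 0 T, ∀ a, a < φ0 s ↔
      ∃ t ∈ Icc 0 (T - s), a < ψ t ∧ a < ψ (t + s) := fun s hs a => by
    simp only [hφ0]
    constructor
    · intro h
      obtain ⟨_, ⟨t, ht, rfl⟩, h'⟩ := exists_lt_of_lt_csSup (hmem s hs) h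
      exact ⟨t, ht, lt_min_iff.1 h'⟩
    · rintro ⟨t, ht, h'⟩
      exact (lt_min h'.1 h'.2).trans_le (le_csSup (hba s hs.1.le) ⟨t, ht, rfl⟩)
  have hφc : ConcaveOn ℝ (Ioo 0 T) φ0 := by
    refine ⟨convex_Ioo 0 T, fun x hx y hy a b ha hb hab => ?_⟩
    simp only [smul_eq_mul]
    have hs : a * x + b * y ∈ Ioo 0 T := (convex_Ioo 0 T) hx hy ha hb hab
    refine le_of_forall_lt fun c hc' => ?_
    rw [hgt _ hs]
    -- choose near-optimal positions
    obtain ⟨ε, hε, hlt⟩ : ∃ ε, 0 < ε ∧ c < a * (φ0 x - ε) + b * (φ0 y - ε) := by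
      refine ⟨(a * φ0 x + b * φ0 y - c) / 2, by linarith, ?_⟩
      linear_combination hc' / 2 + (a * φ0 x + b * φ0 y - c) / 2 * hab
    obtain ⟨t, ht, h1, h2⟩ := (hgt x hx (φ0 x - ε)).1 (by linarith)
    obtain ⟨u, hu, h3, h4⟩ := (hgt y hy (φ0 y - ε)).1 (by linarith)
    refine ⟨a * t + b * u, ⟨by have := mul_nonneg ha ht.1; have := mul_nonneg hb hu.1; linarith, by
      have := mul_le_mul_of_nonneg_left ht.2 ha
      have := mul_le_mul_of_nonneg_left hu.2 hb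
      nlinarith⟩, ?_, ?_⟩
    · have := hc.2 (show t ∈ Icc 0 T from ⟨ht.1, by linarith [ht.2, hx.1]⟩)
        (show u ∈ Icc 0 T from ⟨hu.1, by linarith [hu.2, hy.1]⟩) ha hb hab
      simp only [smul_eq_mul] at this
      nlinarith [mul_le_mul_of_nonneg_left h1.le ha, mul_le_mul_of_nonneg_left h3.le hb]
    · have := hc.2 (show t + x ∈ Icc 0 T from ⟨by linarith [ht.1, hx.1], by linarith [ht.2]⟩)
        (show u + y ∈ Icc 0 T from ⟨by linarith [hu.1, hy.1], by linarith [hu.2]⟩) ha hb hab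
      simp only [smul_eq_mul] at this
      rw [show a * (t + x) + b * (u + y) = a * t + b * u + (a * x + b * y) by ring] at this
      nlinarith [mul_le_mul_of_nonneg_left h2.le ha, mul_le_mul_of_nonneg_left h4.le hb]
  have hφa : AntitoneOn φ0 (Ioo 0 T) := by
    intro x hx y hy hxy
    refine csSup_le (hmem y hy) ?_
    rintro _ ⟨t, ht, rfl⟩
    refine le_trans ?_ (le_csSup (hba x hx.1.le) ⟨t, ⟨ht.1, by linarith [ht.2]⟩, rfl⟩)
    refine le_min (min_le_left _ _) ?_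
    have := hc.ge_on_segment (show t ∈ Icc 0 T from ⟨ht.1, by linarith [ht.2, hy.1]⟩)
      (show t + y ∈ Icc 0 T from ⟨by linarith [ht.1, hy.1], by linarith [ht.2]⟩)
      (z := t + x) (by rw [segment_eq_Icc (by linarith [hy.1])]; exact ⟨by linarith [hx.1], by linarith⟩)
    exact this
  have hφp : ∀ s ∈ Ioo 0 T, 0 < φ0 s := fun s hs => (hgt s hs 0).2
    ⟨(T - s) / 2, ⟨by linarith [hs.2], by linarith [hs.2]⟩,
      hp _ ⟨by linarith [hs.2], by linarith [hs.1, hs.2]⟩,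
      hp _ ⟨by linarith [hs.1, hs.2], by linarith [hs.1, hs.2]⟩⟩
  obtain ⟨φ, h1, h2, h3, h4, h5, h6⟩ := exists_cont_ext hT hφc hφa hφp (B := 2 * ψ (T / 2))
    fun s hs => csSup_le (hmem s hs) (by
      rintro _ ⟨t, ht, rfl⟩; exact (min_le_left _ _).trans (hbd t ⟨ht.1, by linarith [ht.2, hs.1]⟩))
  refine ⟨φ, h1, h2, h3, h4, h5, fun a => ?_⟩
  set L := sSup (lev T ψ a) - sInf (lev T ψ a) with hL
  obtain ⟨hsub, hsup⟩ := lev_sandwich hco a
  have hup : ∀ s ∈ lev T φ a, s ≤ L := by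
    intro s hs
    rw [lev, mem_ofPred_eq, h6 hs.1, hgt s hs.1] at hs
    obtain ⟨hsI, t, ht, h7, h8⟩ := hs
    have hsb : Ioo t (t + s) ⊆ lev T ψ a := fun r hr => by
      refine ⟨⟨by linarith [ht.1, hr.1], by linarith [ht.2, hr.2]⟩, ?_⟩
      exact (lt_min h7 h8).trans_le (hc.ge_on_segment
        (show t ∈ Icc 0 T from ⟨ht.1, by linarith [ht.2, hsI.1]⟩)
        (show t + s ∈ Icc 0 T from ⟨by linarith [ht.1, hsI.1], by linarith [ht.2]⟩)
        (by rw [segment_eq_Icc (by linarith [hsI.1])]; exact Ioo_subset_Icc_self hr))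
    have := closure_mono (hsb.trans hsup)
    rw [closure_Ioo (by linarith [hsI.1]), closure_Icc] at this
    have h9 := (Icc_subset_Icc_iff (by linarith [hsI.1])).1 this
    linarith [h9.1, h9.2]
  have hlow : ∀ s, 0 < s → s < L → s ∈ lev T φ a := by
    intro s hs0 hs
    have hne : (lev T ψ a).Nonempty := by
      by_contra h
      simp [not_nonempty_iff_eq_empty.1 h, hL] at hs
      linarith
    obtain ⟨q, hq, hq'⟩ := exists_lt_of_lt_csSup hne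
      (show sInf (lev T ψ a) + s < sSup (lev T ψ a) by linarith)
    obtain ⟨p, hp', hp''⟩ := exists_lt_of_csInf_lt hne
      (show sInf (lev T ψ a) < q - s by linarith)
    have hps : p + s ∈ lev T ψ a :=
      (lev_ordConnected hco a).out hp' hq ⟨by linarith, by linarith⟩
    have hsI : s ∈ Ioo 0 T := ⟨hs0, by linarith [hp'.1.1, hps.1.2]⟩
    exact ⟨hsI, by
      rw [h6 hsI, hgt s hsI]
      exact ⟨p, ⟨hp'.1.1.le, by linarith [hps.1.2]⟩, hp'.2, hps.2⟩⟩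
  rcases (show L ≤ 0 ∨ 0 < L from le_or_gt L 0) with hL0 | hL0
  · have : lev T φ a = ∅ := eq_empty_of_forall_notMem fun s hs => by
      linarith [hup s hs, hs.1.1]
    have hL1 : L = 0 := le_antisymm hL0 (sub_nonneg.2 (lev_le a))
    simp [this, hL1]
  · have hbb : BddBelow (lev T φ a) := ⟨0, fun t ht => ht.1.1.le⟩
    have hba' : BddAbove (lev T φ a) := ⟨L, hup⟩
    have hsub' : Ioo 0 L ⊆ lev T φ a := fun s hs => hlow s hs.1 hs.2
    have hne : (lev T φ a).Nonempty := ⟨L / 2, hsub' ⟨by linarith, by linarith⟩⟩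
    constructor
    · refine le_antisymm ?_ (le_csInf hne fun t ht => ht.1.1.le)
      have := csInf_le_csInf hbb (nonempty_Ioo.2 hL0) hsub'
      rwa [csInf_Ioo hL0] at this
    · refine le_antisymm (csSup_le hne hup) ?_
      have := csSup_le_csSup hba' (nonempty_Ioo.2 hL0) hsub'
      rwa [csSup_Ioo hL0] at this

end Vale.Agent.P254.Rev
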