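import Vale.Agent.P254.RevOneSided
import Vale.Agent.P254.RevRearr

/-!
The one dimensional inequality for an arbitrary concave profile.
-/

open MeasureTheory Set Filter Topology

namespace Vale.Agent.P254.Rev

variable {m : ℕ} {T : ℝ} {ψ : ℝ → ℝ}

/-- Weighted measure of the levels of `ψ ^ p` inside the open interval. -/
noncomputable def levMeas (T : ℝ) (ψ : ℝ → ℝ) (p : ℕ) (h : ℝ → ℝ) (z : ℝ) : ENNReal :=
  (volume.withDensity fun t => ENNReal.ofReal (h t))
    {t | z < (Ioo 0 T).indicator (fun t => ψ t ^ p) t}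

lemma levMeas_antitone (T : ℝ) (ψ : ℝ → ℝ) (p : ℕ) (h : ℝ → ℝ) : Antitone (levMeas T ψ p h) :=
  fun _ _ hab => measure_mono fun _ ht => lt_of_le_of_lt hab ht

lemma layer (hT : 0 < T) (hc : ConcaveOn ℝ (Ioo 0 T) ψ) (h0 : ∀ t ∈ Ioo 0 T, 0 ≤ ψ t)
    {B : ℝ} (hB : ∀ t ∈ Ioo 0 T, ψ t ≤ B) (p : ℕ) {h : ℝ → ℝ} (hh : Continuous h)
    (hh0 : ∀ t, 0 ≤ h t) :
    ENNReal.ofReal (∫ t in (0:ℝ)..T, h t * ψ t ^ p) = ∫⁻ z in Ioi 0, levMeas T ψ p h z ∧
    IntervalIntegrable (fun t => h t * ψ t ^ p) volume 0 T := by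
  classical
  have hcont : ContinuousOn (fun t => ψ t ^ p) (Ioo 0 T) := (hc.continuousOn isOpen_Ioo).pow p
  set g : ℝ → ℝ := (Ioo 0 T).indicator fun t => ψ t ^ p with hg
  have hgm : Measurable g := by
    have := hcont.measurable_piecewise (g := fun _ => (0:ℝ)) continuousOn_const measurableSet_Ioo
    convert this using 1
    funext t; simp [hg, Set.piecewise, indicator]
  have hg0 : ∀ t, 0 ≤ g t := fun t => indicator_nonneg (fun t ht => pow_nonneg (h0 t ht) p) t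
  have hint : IntegrableOn (fun t => h t * ψ t ^ p) (Ioo 0 T) := by
    obtain ⟨C, hC⟩ := (isCompact_Icc (a := (0:ℝ)) (b := T)).exists_bound_of_continuousOn hh.continuousOn
    refine IntegrableOn.of_bound measure_Ioo_lt_top
      ((hh.continuousOn.mul hcont).aestronglyMeasurable measurableSet_Ioo) (C * B ^ p) ?_
    filter_upwards [ae_restrict_mem measurableSet_Ioo] with t ht
    have hC0 : 0 ≤ C := (norm_nonneg _).trans (hC t (Ioo_subset_Icc_self ht))
    rw [norm_mul, Real.norm_of_nonneg (pow_nonneg (h0 t ht) p)]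
    exact mul_le_mul (hC t (Ioo_subset_Icc_self ht)) (pow_le_pow_left₀ (h0 t ht) (hB t ht) p)
      (pow_nonneg (h0 t ht) p) hC0
  refine ⟨?_, (intervalIntegrable_iff_integrableOn_Ioo_of_le hT.le).2 hint⟩
  rw [intervalIntegral.integral_of_le hT.le, integral_Ioc_eq_integral_Ioo,
    ofReal_integral_eq_lintegral_ofReal hint (by
      filter_upwards [ae_restrict_mem measurableSet_Ioo] with t ht
      exact mul_nonneg (hh0 t) (pow_nonneg (h0 t ht) p))]
  unfold levMeas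
  rw [← lintegral_eq_lintegral_meas_lt _ (ae_of_all _ hg0) hgm.aemeasurable,
    lintegral_withDensity_eq_lintegral_mul _ (hh.measurable.ennreal_ofReal) hgm.ennreal_ofReal,
    ← lintegral_indicator measurableSet_Ioo]
  refine lintegral_congr fun t => ?_
  simp only [Pi.mul_apply, hg, indicator]
  split_ifs with ht
  · rw [ENNReal.ofReal_mul (hh0 t)]
  · simp

lemma levMeas_eq (hc : ConcaveOn ℝ (Ioo 0 T) ψ) (h0 : ∀ t ∈ Ioo 0 T, 0 ≤ ψ t) {p : ℕ} (hp : p ≠ 0)
    {h : ℝ → ℝ} (hh : Continuous h) (hh0 : ∀ t, 0 ≤ h t) {z : ℝ} (hz : 0 < z) :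
    levMeas T ψ p h z = ENNReal.ofReal
      (∫ t in sInf (lev T ψ (z ^ ((p:ℝ)⁻¹)))..sSup (lev T ψ (z ^ ((p:ℝ)⁻¹))), h t) := by
  set a := z ^ ((p:ℝ)⁻¹) with ha
  have ha0 : 0 ≤ a := Real.rpow_nonneg hz.le _
  have hap : a ^ p = z := Real.rpow_inv_natCast_pow hz.le hp
  have hset : {t | z < (Ioo 0 T).indicator (fun t => ψ t ^ p) t} = lev T ψ a := by
    ext t
    simp only [mem_ofPred_eq, lev, indicator]
    split_ifs with ht
    · rw [← hap]
      exact ⟨fun hlt => ⟨ht, lt_of_pow_lt_pow_left₀ p (h0 t ht) hlt⟩,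
        fun hlt => pow_lt_pow_left₀ hlt.2 ha0 hp⟩
    · exact ⟨fun hlt => absurd hlt (by linarith), fun hlt => absurd hlt.1 ht⟩
  unfold levMeas
  rw [hset, withDensity_apply _ (lev_measurable hc a), Measure.restrict_congr_set (lev_ae hc a),
    intervalIntegral.integral_of_le (lev_le a),
    ofReal_integral_eq_lintegral_ofReal (hh.integrableOn_Ioc) (ae_of_all _ hh0)]

lemma sq_moment (a b μ : ℝ) :
    ∫ t in a..b, (t - μ) ^ 2 = (b - a) * (((a + b) / 2 - μ) ^ 2 + (b - a) ^ 2 / 12) := by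
  rw [intervalIntegral.integral_comp_sub_right (fun t => t ^ 2), integral_pow]
  ring

lemma lev_midpoint_lip {x y : ℝ} (hp : (lev T ψ x).Nonempty) (hq : (lev T ψ y).Nonempty) (hxy : x ≤ y) :
    |(sInf (lev T ψ x) + sSup (lev T ψ x)) / 2 - (sInf (lev T ψ y) + sSup (lev T ψ y)) / 2| ≤
      |(sSup (lev T ψ x) - sInf (lev T ψ x)) / 2 - (sSup (lev T ψ y) - sInf (lev T ψ y)) / 2| := by
  have hsub : lev T ψ y ⊆ lev T ψ x := fun t ht => ⟨ht.1, hxy.trans_lt ht.2⟩
  have h1 := csInf_le_csInf ⟨0, fun t (ht : t ∈ lev T ψ x) => ht.1.1.le⟩ hq hsub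
  have h2 := csSup_le_csSup ⟨T, fun t (ht : t ∈ lev T ψ x) => ht.1.2.le⟩ hq hsub
  rw [abs_of_nonneg (show 0 ≤ (sSup (lev T ψ x) - sInf (lev T ψ x)) / 2
    - (sSup (lev T ψ y) - sInf (lev T ψ y)) / 2 by linarith), abs_le]
  constructor <;> linarith

/-- For every centre `ν` of the symmetrised levels there is a centre `μ` that is at least as good
on every level. -/
lemma exists_centre (ν : ℝ) : ∃ μ : ℝ, ∀ a, (lev T ψ a).Nonempty →
    ((sInf (lev T ψ a) + sSup (lev T ψ a)) / 2 - μ) ^ 2 ≤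
      ((sSup (lev T ψ a) - sInf (lev T ψ a)) / 2 - ν) ^ 2 := by
  set c : ℝ → ℝ := fun a => (sInf (lev T ψ a) + sSup (lev T ψ a)) / 2 with hc
  set d : ℝ → ℝ := fun a => (sSup (lev T ψ a) - sInf (lev T ψ a)) / 2 with hd
  have hlip : ∀ a b, (lev T ψ a).Nonempty → (lev T ψ b).Nonempty →
      c a - |d a - ν| ≤ c b + |d b - ν| := by
    intro a b ha hb
    have : |c a - c b| ≤ |d a - d b| := by
      rcases le_total a b with h | h
      · exact lev_midpoint_lip ha hb h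
      · rw [abs_sub_comm (c a), abs_sub_comm (d a)]; exact lev_midpoint_lip hb ha h
    have h2 := abs_sub_le (d a) ν (d b)
    rw [abs_sub_comm ν (d b)] at h2
    linarith [le_abs_self (c a - c b)]
  set S : Set ℝ := (fun a => c a + |d a - ν|) '' {a | (lev T ψ a).Nonempty} with hS
  refine ⟨sInf S, fun a ha => ?_⟩
  have hne : S.Nonempty := ⟨_, a, ha, rfl⟩
  have hbb : BddBelow S := ⟨c a - |d a - ν|, by rintro _ ⟨b, hb, rfl⟩; exact hlip a b ha hb⟩
  have h1 : sInf S ≤ c a + |d a - ν| := csInf_le hbb ⟨a, ha, rfl⟩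
  have h2 : c a - |d a - ν| ≤ sInf S := le_csInf hne (by rintro _ ⟨b, hb, rfl⟩; exact hlip a b ha hb)
  show (c a - sInf S) ^ 2 ≤ (d a - ν) ^ 2
  rw [← sq_abs (d a - ν)]
  exact sq_le_sq' (by linarith) (by linarith)

lemma moments_expand (hT : 0 < T) (hc : ConcaveOn ℝ (Ioo 0 T) ψ) (h0 : ∀ t ∈ Ioo 0 T, 0 ≤ ψ t)
    {B : ℝ} (hB : ∀ t ∈ Ioo 0 T, ψ t ≤ B) (p : ℕ) (μ : ℝ) :
    ∫ t in (0:ℝ)..T, (t - μ) ^ 2 * ψ t ^ p =
      (∫ t in (0:ℝ)..T, t ^ 2 * ψ t ^ p) - 2 * μ * (∫ t in (0:ℝ)..T, t * ψ t ^ p)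
        + μ ^ 2 * ∫ t in (0:ℝ)..T, ψ t ^ p := by
  have i0 : IntervalIntegrable (fun t => ψ t ^ p) volume 0 T := by
    simpa using (layer hT hc h0 hB p continuous_const (fun _ => zero_le_one)).2
  have i1 : IntervalIntegrable (fun t => t * ψ t ^ p) volume 0 T :=
    i0.continuousOn_mul continuousOn_id
  have i2 : IntervalIntegrable (fun t => t ^ 2 * ψ t ^ p) volume 0 T :=
    i0.continuousOn_mul (continuous_pow 2).continuousOn
  have e : (fun t => (t - μ) ^ 2 * ψ t ^ p) =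
      fun t => t ^ 2 * ψ t ^ p - 2 * μ * (t * ψ t ^ p) + μ ^ 2 * ψ t ^ p := by funext t; ring
  rw [e, intervalIntegral.integral_add (i2.sub (i1.const_mul _)) (i0.const_mul _),
    intervalIntegral.integral_sub i2 (i1.const_mul _), intervalIntegral.integral_const_mul,
    intervalIntegral.integral_const_mul]

/-- A function that respects convex combinations and takes one value twice is constant. -/
lemma const_of_affine {L a1 a3 : ℝ} {g : ℝ → ℝ}
    (hg : ∀ x ∈ Ioo 0 L, ∀ y ∈ Ioo 0 L, ∀ θ, 0 < θ → θ < 1 →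
      g (θ * x + (1 - θ) * y) = θ * g x + (1 - θ) * g y)
    (i1 : a1 ∈ Ioo 0 L) (i3 : a3 ∈ Ioo 0 L) (hd13 : a1 < a3)
    (hg13 : g a1 = g a3) {a : ℝ} (ha : a ∈ Ioo 0 L) : g a = g a1 := by
  rcases lt_trichotomy a a1 with h' | h' | h'
  · have t0 : 0 < (a3 - a1) / (a3 - a) := div_pos (by linarith) (by linarith)
    have t1 : (a3 - a1) / (a3 - a) < 1 := by rw [div_lt_one (by linarith)]; linarith
    have e := hg a ha a3 i3 _ t0 t1
    rw [show (a3 - a1) / (a3 - a) * a + (1 - (a3 - a1) / (a3 - a)) * a3 = a1 by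
      have : a3 - a ≠ 0 := by linarith
      field_simp; ring, ← hg13] at e
    exact mul_left_cancel₀ t0.ne' (by linarith)
  · rw [h']
  · rcases lt_trichotomy a a3 with h'' | h'' | h''
    · have t0 : 0 < (a3 - a) / (a3 - a1) := div_pos (by linarith) (by linarith)
      have t1 : (a3 - a) / (a3 - a1) < 1 := by rw [div_lt_one (by linarith)]; linarith
      have e := hg a1 i1 a3 i3 _ t0 t1
      rw [show (a3 - a) / (a3 - a1) * a1 + (1 - (a3 - a) / (a3 - a1)) * a3 = a by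
        have : a3 - a1 ≠ 0 := by linarith
        field_simp; ring, ← hg13] at e
      linarith
    · rw [h'', hg13]
    · have t0 : 0 < (a - a3) / (a - a1) := div_pos (by linarith) (by linarith)
      have t1 : (a - a3) / (a - a1) < 1 := by rw [div_lt_one (by linarith)]; linarith
      have e := hg a1 i1 a ha _ t0 t1
      rw [show (a - a3) / (a - a1) * a1 + (1 - (a - a3) / (a - a1)) * a = a3 by
        have : a - a1 ≠ 0 := by linarith
        field_simp; ring, ← hg13] at e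
      exact mul_left_cancel₀ (sub_pos.2 t1).ne' (by linarith)

lemma profile_left (co : ConcaveOn ℝ (Ioo 0 T) ψ) (hp : ∀ t ∈ Ioo 0 T, 0 < ψ t) {b : ℝ} (hb : 0 < b)
    (hlen : ∀ a ∈ Ioo 0 (b * T), sSup (lev T ψ a) - sInf (lev T ψ a) = T - a / b)
    (hconst : ∀ a ∈ Ioo 0 (b * T), sInf (lev T ψ a) = 0) :
    ∀ t ∈ Ioo 0 T, ψ t = b * (T - t) := by
  set β : ℝ → ℝ := fun a => sSup (lev T ψ a) with hβ
  intro t ht
  have hbt : 0 < b * (T - t) := mul_pos hb (sub_pos.2 ht.2)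
  refine le_antisymm (le_of_forall_lt fun a ha => ?_) (le_of_forall_lt fun a ha => ?_)
  · by_contra hh
    push Not at hh
    set a' := min ((a + ψ t) / 2) ((a + b * T) / 2) with ha'
    have hbT' : b * (T - t) < b * T := mul_lt_mul_of_pos_left (by linarith [ht.1]) hb
    have hlt : b * (T - t) < a' :=
      lt_min (by linarith) (by linarith)
    have haψ : a' < ψ t := (min_le_left _ _).trans_lt (by linarith)
    rcases lt_or_ge a (b * T) with hcase | hcase
    · have hI : a' ∈ Ioo 0 (b * T) := ⟨hbt.trans hlt, (min_le_right _ _).trans_lt (by linarith)⟩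
      have h5 := hlen a' hI
      rw [hconst a' hI] at h5
      have h6 : t ≤ β a' := le_csSup ⟨T, fun s hs => hs.1.2.le⟩ (show t ∈ lev T ψ a' from ⟨ht, haψ⟩)
      have h7 : a' / b ≤ T - t := by linarith
      rw [div_le_iff₀ hb] at h7
      linarith
    · set a'' := (b * (T - t) + b * T) / 2 with ha''
      have hI : a'' ∈ Ioo 0 (b * T) := ⟨by linarith, by linarith⟩
      have h5 := hlen a'' hI
      rw [hconst a'' hI] at h5
      have h6 : t ≤ β a'' := le_csSup ⟨T, fun s hs => hs.1.2.le⟩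
        (show t ∈ lev T ψ a'' from ⟨ht, by linarith⟩)
      have h7 : a'' / b ≤ T - t := by linarith
      rw [div_le_iff₀ hb] at h7
      linarith
  · rcases le_or_gt a 0 with hcase | hcase
    · exact hcase.trans_lt (hp t ht)
    have hI : a ∈ Ioo 0 (b * T) := ⟨hcase, ha.trans (mul_lt_mul_of_pos_left (by linarith [ht.1]) hb)⟩
    have h5 := hlen a hI
    rw [hconst a hI] at h5
    have hlt : t < β a := by
      have : a / b < T - t := by rw [div_lt_iff₀ hb]; linarith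
      linarith
    exact ((lev_sandwich co a).1 ⟨(hconst a hI).le.trans_lt ht.1, hlt⟩).2

lemma profile_right (co : ConcaveOn ℝ (Ioo 0 T) ψ) (hp : ∀ t ∈ Ioo 0 T, 0 < ψ t) {b : ℝ} (hb : 0 < b)
    (hlen : ∀ a ∈ Ioo 0 (b * T), sSup (lev T ψ a) - sInf (lev T ψ a) = T - a / b)
    (hconst : ∀ a ∈ Ioo 0 (b * T), sSup (lev T ψ a) = T) :
    ∀ t ∈ Ioo 0 T, ψ t = b * t := by
  set α : ℝ → ℝ := fun a => sInf (lev T ψ a) with hα
  intro t ht
  have hbt : 0 < b * t := mul_pos hb ht.1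
  have hbT' : b * t < b * T := mul_lt_mul_of_pos_left ht.2 hb
  refine le_antisymm (le_of_forall_lt fun a ha => ?_) (le_of_forall_lt fun a ha => ?_)
  · by_contra hh
    push Not at hh
    set a' := (b * t + min (ψ t) (b * T)) / 2 with ha'
    have h1' : b * t < min (ψ t) (b * T) := lt_min (hh.trans_lt ha) hbT'
    have hI : a' ∈ Ioo 0 (b * T) := ⟨by linarith, by linarith [min_le_right (ψ t) (b * T)]⟩
    have h5 := hlen a' hI
    rw [hconst a' hI] at h5
    have h6 : α a' ≤ t := csInf_le ⟨0, fun s hs => hs.1.1.le⟩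
      (show t ∈ lev T ψ a' from ⟨ht, by linarith [min_le_left (ψ t) (b * T)]⟩)
    have h7 : a' / b ≤ t := by linarith
    rw [div_le_iff₀ hb] at h7
    linarith
  · rcases le_or_gt a 0 with hcase | hcase
    · exact hcase.trans_lt (hp t ht)
    have hI : a ∈ Ioo 0 (b * T) := ⟨hcase, ha.trans hbT'⟩
    have h5 := hlen a hI
    rw [hconst a hI] at h5
    have hlt : α a < t := by
      have : a / b < t := by rw [div_lt_iff₀ hb]; linarith
      linarith
    exact ((lev_sandwich co a).1 ⟨hlt, ht.2.trans_le (hconst a hI).ge⟩).2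


/-- The equality case at the level of level sets. -/
lemma profile_of_levels (hT : 0 < T) (co : ConcaveOn ℝ (Ioo 0 T) ψ) (hp : ∀ t ∈ Ioo 0 T, 0 < ψ t)
    {b μ ν : ℝ} (hb : 0 < b)
    (hlen : ∀ a ∈ Ioo 0 (b * T), sSup (lev T ψ a) - sInf (lev T ψ a) = T - a / b)
    (hE : ∀ l r, 0 ≤ l → l < r → r ≤ b * T → ∃ a ∈ Ioo l r,
      ((sInf (lev T ψ a) + sSup (lev T ψ a)) / 2 - μ) ^ 2 =
        ((sSup (lev T ψ a) - sInf (lev T ψ a)) / 2 - ν) ^ 2) :
    (∀ t ∈ Ioo 0 T, ψ t = b * (T - t)) ∨ (∀ t ∈ Ioo 0 T, ψ t = b * t) := by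
  set α : ℝ → ℝ := fun a => sInf (lev T ψ a) with hα
  set β : ℝ → ℝ := fun a => sSup (lev T ψ a) with hβ
  replace hlen : ∀ a ∈ Ioo 0 (b * T), β a - α a = T - a / b := hlen
  replace hE : ∀ l r, 0 ≤ l → l < r → r ≤ b * T → ∃ a ∈ Ioo l r,
      ((α a + β a) / 2 - μ) ^ 2 = ((β a - α a) / 2 - ν) ^ 2 := hE
  have hne : ∀ a ∈ Ioo 0 (b * T), (lev T ψ a).Nonempty := by
    intro a ha
    by_contra hh
    have := hlen a ha
    rw [not_nonempty_iff_eq_empty] at hh
    simp only [hα, hβ, hh, Real.sSup_empty, Real.sInf_empty] at this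
    have : a / b < T := by rw [div_lt_iff₀ hb]; linarith [ha.2]
    linarith
  have haff : ∀ a1 ∈ Ioo 0 (b * T), ∀ a3 ∈ Ioo 0 (b * T), ∀ θ, 0 < θ → θ < 1 →
      α (θ * a1 + (1 - θ) * a3) = θ * α a1 + (1 - θ) * α a3 ∧
      β (θ * a1 + (1 - θ) * a3) = θ * β a1 + (1 - θ) * β a3 := by
    intro a1 h1 a3 h3 θ hθ hθ1
    have hθ' : 0 < 1 - θ := by linarith
    set a2 := θ * a1 + (1 - θ) * a3 with ha2
    have h2 : a2 ∈ Ioo 0 (b * T) := by
      have := (convex_Ioo 0 (b * T)) h1 h3 hθ.le hθ'.le (by ring)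
      simpa [smul_eq_mul] using this
    have hmem : ∀ t ∈ lev T ψ a1, ∀ u ∈ lev T ψ a3, θ * t + (1 - θ) * u ∈ lev T ψ a2 := by
      intro t ht u hu
      have hI : θ * t + (1 - θ) * u ∈ Ioo 0 T := by
        simpa [smul_eq_mul] using (convex_Ioo 0 T) ht.1 hu.1 hθ.le hθ'.le (by ring)
      refine ⟨hI, lt_of_lt_of_le ?_ (co.2 ht.1 hu.1 hθ.le hθ'.le (by ring))⟩
      simp only [smul_eq_mul]
      nlinarith [mul_lt_mul_of_pos_left ht.2 hθ, mul_lt_mul_of_pos_left hu.2 hθ']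
    have hA1 : α a2 ≤ θ * α a1 + (1 - θ) * α a3 := by
      have step : ∀ u ∈ lev T ψ a3, (α a2 - (1 - θ) * u) / θ ≤ α a1 := fun u hu => by
        refine le_csInf (hne a1 h1) fun t ht => ?_
        rw [div_le_iff₀ hθ]
        linarith [csInf_le ⟨0, fun s (hs : s ∈ lev T ψ a2) => hs.1.1.le⟩ (hmem t ht u hu)]
      have : (α a2 - θ * α a1) / (1 - θ) ≤ α a3 := le_csInf (hne a3 h3) fun u hu => by
        have := (div_le_iff₀ hθ).1 (step u hu)
        rw [div_le_iff₀ hθ']; linarith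
      rw [div_le_iff₀ hθ'] at this; linarith
    have hB2 : θ * β a1 + (1 - θ) * β a3 ≤ β a2 := by
      have step : ∀ u ∈ lev T ψ a3, β a1 ≤ (β a2 - (1 - θ) * u) / θ := fun u hu => by
        refine csSup_le (hne a1 h1) fun t ht => ?_
        rw [le_div_iff₀ hθ]
        linarith [le_csSup ⟨T, fun s (hs : s ∈ lev T ψ a2) => hs.1.2.le⟩ (hmem t ht u hu)]
      have : β a3 ≤ (β a2 - θ * β a1) / (1 - θ) := csSup_le (hne a3 h3) fun u hu => by
        have := (le_div_iff₀ hθ).1 (step u hu)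
        rw [le_div_iff₀ hθ']; linarith
      rw [le_div_iff₀ hθ'] at this; linarith
    have e := hlen a2 h2
    have e1 := hlen a1 h1
    have e3 := hlen a3 h3
    have : a2 / b = θ * (a1 / b) + (1 - θ) * (a3 / b) := by rw [ha2]; ring
    constructor <;> nlinarith
  have hbT : 0 < b * T := mul_pos hb hT
  obtain ⟨a1, ha1, q1⟩ := hE 0 (b * T / 3) le_rfl (by linarith) (by linarith)
  obtain ⟨a3, ha3, q3⟩ := hE (2 * (b * T) / 3) (b * T) (by linarith) (by linarith) le_rfl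
  obtain ⟨a2, ha2, q2⟩ := hE (b * T / 3) (2 * (b * T) / 3) (by linarith) (by linarith) (by linarith)
  have i1 : a1 ∈ Ioo 0 (b * T) := ⟨ha1.1, by linarith [ha1.2]⟩
  have i3 : a3 ∈ Ioo 0 (b * T) := ⟨by linarith [ha3.1], ha3.2⟩
  have hd13 : a1 < a3 := by linarith [ha1.2, ha3.1]
  set θ := (a3 - a2) / (a3 - a1) with hθ
  have hθ0 : 0 < θ := div_pos (by linarith [ha2.2, ha3.1]) (by linarith)
  have hθ1 : θ < 1 := by rw [hθ, div_lt_one (by linarith)]; linarith [ha1.2, ha2.1]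
  have hcomb : θ * a1 + (1 - θ) * a3 = a2 := by
    rw [hθ]; have : a3 - a1 ≠ 0 := by linarith
    field_simp; ring
  obtain ⟨eα, eβ⟩ := haff a1 i1 a3 i3 θ hθ0 hθ1
  rw [hcomb] at eα eβ
  rw [eα, eβ] at q2
  have hdich : α a1 = α a3 ∨ β a1 = β a3 := by
    have hprod : θ * (1 - θ) * ((α a1 - α a3) * (β a1 - β a3)) = 0 := by
      linear_combination -q2 + θ * q1 + (1 - θ) * q3
    rcases mul_eq_zero.1 hprod with h' | h'
    · exact absurd h' (mul_pos hθ0 (sub_pos.2 hθ1)).ne'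
    · rcases mul_eq_zero.1 h' with h' | h'
      · exact Or.inl (sub_eq_zero.1 h')
      · exact Or.inr (sub_eq_zero.1 h')
  have hαnn : ∀ a ∈ Ioo 0 (b * T), 0 ≤ α a ∧ β a ≤ T := fun a ha =>
    ⟨le_csInf (hne a ha) fun t ht => ht.1.1.le, csSup_le (hne a ha) fun t ht => ht.1.2.le⟩
  rcases hdich with hd | hd
  · left
    have hconst : ∀ a ∈ Ioo 0 (b * T), α a = 0 := by
      have hc' := fun a (ha : a ∈ Ioo 0 (b * T)) => const_of_affine (g := α) (fun x hx y hy t t0 t1 => (haff x hx y hy t t0 t1).1) i1 i3 hd13 hd ha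
      have : α a1 ≤ 0 := le_of_forall_pos_le_add fun ε hε => by
        have hI : min (b * T / 2) (b * ε) ∈ Ioo 0 (b * T) :=
          ⟨lt_min (by linarith) (by positivity), (min_le_left _ _).trans_lt (by linarith)⟩
        have h5 := hlen _ hI
        have h6 := (hαnn _ hI).2
        have h7 : min (b * T / 2) (b * ε) / b ≤ ε := by
          rw [div_le_iff₀ hb]; linarith [min_le_right (b * T / 2) (b * ε)]
        rw [hc' _ hI] at h5
        linarith
      exact fun a ha => by rw [hc' a ha]; exact le_antisymm this (hαnn a1 i1).1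
    exact profile_left co hp hb hlen hconst
  · right
    have hconst : ∀ a ∈ Ioo 0 (b * T), β a = T := by
      have hc' := fun a (ha : a ∈ Ioo 0 (b * T)) => const_of_affine (g := β) (fun x hx y hy t t0 t1 => (haff x hx y hy t t0 t1).2) i1 i3 hd13 hd ha
      have : T ≤ β a1 := le_of_forall_pos_le_add fun ε hε => by
        have hI : min (b * T / 2) (b * ε) ∈ Ioo 0 (b * T) :=
          ⟨lt_min (by linarith) (by positivity), (min_le_left _ _).trans_lt (by linarith)⟩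
        have h5 := hlen _ hI
        have h6 := (hαnn _ hI).1
        have h7 : min (b * T / 2) (b * ε) / b ≤ ε := by
          rw [div_le_iff₀ hb]; linarith [min_le_right (b * T / 2) (b * ε)]
        rw [hc' _ hI] at h5
        linarith
      exact fun a ha => by rw [hc' a ha]; exact le_antisymm (hαnn a1 i1).2 this
    exact profile_right co hp hb hlen hconst

/-- The inequality for a concave profile on `[0,T]`. -/
theorem two_sided (hm : 1 ≤ m) (hT : 0 < T) (hc : ConcaveOn ℝ (Icc 0 T) ψ)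
    (h0 : ∀ t ∈ Icc 0 T, 0 ≤ ψ t) (hp : ∀ t ∈ Ioo 0 T, 0 < ψ t) :
    let V := ∫ t in (0:ℝ)..T, ψ t ^ m
    let M1 := ∫ t in (0:ℝ)..T, t * ψ t ^ m
    let M2 := ∫ t in (0:ℝ)..T, t ^ 2 * ψ t ^ m
    let W := ∫ t in (0:ℝ)..T, ψ t ^ (m + 2)
    0 < V ∧ (V * M2 - M1 ^ 2) * W ^ m ≤ cPhi m * V ^ (m + 4) ∧
      ((V * M2 - M1 ^ 2) * W ^ m = cPhi m * V ^ (m + 4) → ∃ b, 0 < b ∧
        ((∀ t ∈ Ioo 0 T, ψ t = b * (T - t)) ∨ (∀ t ∈ Ioo 0 T, ψ t = b * t))) := by
  intro V M1 M2 W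
  obtain ⟨φ, φc, φconc, φanti, φpos, φT, hlev⟩ := exists_rearr hT hc h0 hp
  obtain ⟨hV, hle, heq⟩ := one_sided hm hT φc φconc φanti φpos φT
  set Vs := ∫ t in (0:ℝ)..T, φ t ^ m with hVs
  set N1 := ∫ t in (0:ℝ)..T, t * φ t ^ m with hN1
  set N2 := ∫ t in (0:ℝ)..T, t ^ 2 * φ t ^ m with hN2
  have co : ConcaveOn ℝ (Ioo 0 T) ψ := hc.subset Ioo_subset_Icc_self (convex_Ioo 0 T)
  have φo : ConcaveOn ℝ (Ioo 0 T) φ := φconc.subset Ioo_subset_Icc_self (convex_Ioo 0 T)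
  have o0 : ∀ t ∈ Ioo 0 T, 0 ≤ ψ t := fun t ht => (hp t ht).le
  have φ0 : ∀ t ∈ Ioo 0 T, 0 ≤ φ t := fun t ht => (φpos t ⟨ht.1.le, ht.2⟩).le
  have hB : ∀ t ∈ Ioo 0 T, ψ t ≤ 2 * ψ (T / 2) := fun t ht => by
    have ht' : T - t ∈ Icc 0 T := ⟨by linarith [ht.2], by linarith [ht.1]⟩
    have := hc.2 (Ioo_subset_Icc_self ht) ht' (show (0:ℝ) ≤ 1/2 by norm_num)
      (show (0:ℝ) ≤ 1/2 by norm_num) (show (1/2:ℝ) + 1/2 = 1 by norm_num)
    simp only [smul_eq_mul] at this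
    rw [show 1/2 * t + 1/2 * (T - t) = T / 2 by ring] at this
    linarith [h0 _ ht']
  have φB : ∀ t ∈ Ioo 0 T, φ t ≤ φ 0 := fun t ht =>
    φanti ⟨le_rfl, hT.le⟩ (Ioo_subset_Icc_self ht) ht.1.le
  have hpow : ∀ p : ℕ, p ≠ 0 → ∫ t in (0:ℝ)..T, ψ t ^ p = ∫ t in (0:ℝ)..T, φ t ^ p := by
    intro p hp0
    have h1 := (layer hT co o0 hB p continuous_const fun _ => (zero_le_one (α := ℝ))).1
    have h2 := (layer hT φo φ0 φB p continuous_const fun _ => (zero_le_one (α := ℝ))).1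
    simp only [one_mul] at h1 h2
    have he : ∫⁻ z in Ioi 0, levMeas T ψ p (fun _ => 1) z = ∫⁻ z in Ioi 0, levMeas T φ p (fun _ => 1) z := by
      refine setLIntegral_congr_fun measurableSet_Ioi fun z hz => ?_
      rw [levMeas_eq co o0 hp0 continuous_const (fun _ => zero_le_one) hz,
        levMeas_eq φo φ0 hp0 continuous_const (fun _ => zero_le_one) hz]
      obtain ⟨e1, e2⟩ := hlev (z ^ ((p:ℝ)⁻¹))
      rw [e1, e2]; simp
    refine (ENNReal.ofReal_eq_ofReal_iff ?_ ?_).1 (h1.trans (he.trans h2.symm))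
    · exact intervalIntegral.integral_nonneg hT.le fun t ht => pow_nonneg (h0 t ht) p
    · exact intervalIntegral.integral_nonneg hT.le fun t ht =>
        pow_nonneg (φT.trans (φanti ht ⟨hT.le, le_rfl⟩ ht.2)) p
  have eV : V = Vs := hpow m (by omega)
  have eW : W = ∫ t in (0:ℝ)..T, φ t ^ (m + 2) := hpow (m + 2) (by omega)
  refine ⟨eV ▸ hV, ?_⟩
  set ν := N1 / Vs with hν
  obtain ⟨μ, hμ⟩ := exists_centre (T := T) (ψ := ψ) ν
  set Jψ := ∫ t in (0:ℝ)..T, (t - μ) ^ 2 * ψ t ^ m with hJψ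
  set Jφ := ∫ t in (0:ℝ)..T, (t - ν) ^ 2 * φ t ^ m with hJφ
  have hsqc : ∀ μ : ℝ, Continuous fun t : ℝ => (t - μ) ^ 2 := fun μ => by fun_prop
  have L1 := (layer hT co o0 hB m (hsqc μ) fun t => sq_nonneg _).1
  have L2 := (layer hT φo φ0 φB m (hsqc ν) fun t => sq_nonneg _).1
  have hpt : ∀ z ∈ Ioi (0:ℝ), levMeas T ψ m (fun t => (t - μ) ^ 2) z ≤
      levMeas T φ m (fun t => (t - ν) ^ 2) z := by
    intro z hz
    rw [levMeas_eq co o0 (by omega) (hsqc μ) (fun t => sq_nonneg _) hz,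
      levMeas_eq φo φ0 (by omega) (hsqc ν) (fun t => sq_nonneg _) hz]
    refine ENNReal.ofReal_le_ofReal ?_
    obtain ⟨e1, e2⟩ := hlev (z ^ ((m:ℝ)⁻¹))
    rw [sq_moment, sq_moment, e1, e2, sub_zero, zero_add]
    rcases eq_empty_or_nonempty (lev T ψ (z ^ ((m:ℝ)⁻¹))) with he | hne
    · simp [he]
    · exact mul_le_mul_of_nonneg_left (add_le_add (hμ _ hne) le_rfl) (sub_nonneg.2 (lev_le _))
  have hJ0 : 0 ≤ Jφ := intervalIntegral.integral_nonneg hT.le fun t ht =>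
    mul_nonneg (sq_nonneg _) (pow_nonneg (φT.trans (φanti ht ⟨hT.le, le_rfl⟩ ht.2)) m)
  have hJ : Jψ ≤ Jφ := by
    rw [← ENNReal.ofReal_le_ofReal_iff hJ0, L1, L2]
    exact setLIntegral_mono' measurableSet_Ioi hpt
  have hA : V * Jψ = (V * M2 - M1 ^ 2) + (μ * V - M1) ^ 2 := by
    rw [hJψ, moments_expand hT co o0 hB m μ]; ring
  have hAs : Vs * Jφ = Vs * N2 - N1 ^ 2 := by
    rw [hJφ, moments_expand hT φo φ0 φB m ν, ← hN1, ← hN2, ← hVs, hν]
    field_simp
    ring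
  have hkey : V * M2 - M1 ^ 2 ≤ Vs * N2 - N1 ^ 2 := by
    rw [← hAs, ← eV]
    nlinarith [sq_nonneg (μ * V - M1), mul_le_mul_of_nonneg_left hJ (eV ▸ hV.le : 0 ≤ V)]
  have hW0 : 0 < W := by
    refine intervalIntegral.intervalIntegral_pos_of_pos_on ?_
      (fun t ht => pow_pos (hp t ht) _) hT
    simpa using (layer hT co o0 hB (m + 2) continuous_const fun _ => (zero_le_one (α := ℝ))).2
  have hfin : (Vs * N2 - N1 ^ 2) * W ^ m ≤ cPhi m * V ^ (m + 4) := by rw [eW, eV]; exact hle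
  refine ⟨(mul_le_mul_of_nonneg_right hkey (pow_nonneg hW0.le m)).trans hfin, fun h => ?_⟩
  have h1 : (Vs * N2 - N1 ^ 2) * W ^ m = cPhi m * V ^ (m + 4) :=
    le_antisymm hfin (h ▸ mul_le_mul_of_nonneg_right hkey (pow_nonneg hW0.le m))
  obtain ⟨b, hb, hlin⟩ := heq (by rw [eW, eV] at h1; exact h1)
  have h2 : V * M2 - M1 ^ 2 = Vs * N2 - N1 ^ 2 :=
    mul_right_cancel₀ (pow_pos hW0 m).ne' (h.trans h1.symm)
  have hJeq : Jψ = Jφ := le_antisymm hJ (by
    refine le_of_mul_le_mul_left ?_ hV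
    rw [hAs, ← h2, ← eV, hA]
    nlinarith [sq_nonneg (μ * V - M1)])
  have hae : levMeas T ψ m (fun t => (t - μ) ^ 2) =ᵐ[volume.restrict (Ioi 0)]
      levMeas T φ m (fun t => (t - ν) ^ 2) := by
    refine ae_eq_of_ae_le_of_lintegral_le
      (by filter_upwards [ae_restrict_mem measurableSet_Ioi] with z hz using hpt z hz)
      (by rw [← L1]; exact ENNReal.ofReal_ne_top)
      (levMeas_antitone T φ m _).measurable.aemeasurable (le_of_eq ?_)
    rw [← L1, ← L2, ← hJψ, ← hJφ, hJeq]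
  set α : ℝ → ℝ := fun a => sInf (lev T ψ a) with hα
  set β : ℝ → ℝ := fun a => sSup (lev T ψ a) with hβ
  have hlen : ∀ a ∈ Ioo 0 (b * T), β a - α a = T - a / b := by
    intro a ha
    have hab : a / b < T := by rw [div_lt_iff₀ hb]; linarith [ha.2]
    have hs : lev T φ a = Ioo 0 (T - a / b) := by
      ext t
      constructor
      · rintro ⟨ht, hlt⟩
        rw [hlin t (Ioo_subset_Icc_self ht)] at hlt
        exact ⟨ht.1, by have := (div_lt_iff₀' hb).2 hlt; linarith⟩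
      · rintro ⟨h1, h2⟩
        have hI : t ∈ Ioo 0 T := ⟨h1, by linarith [div_pos ha.1 hb]⟩
        refine ⟨hI, ?_⟩
        rw [hlin t (Ioo_subset_Icc_self hI), ← div_lt_iff₀' hb]
        linarith
    rw [← (hlev a).2, hs, csSup_Ioo (by linarith)]
  -- a level in every interval where the centred moments agree
  have hE : ∀ l r, 0 ≤ l → l < r → r ≤ b * T → ∃ a ∈ Ioo l r,
      ((α a + β a) / 2 - μ) ^ 2 = ((β a - α a) / 2 - ν) ^ 2 := by
    intro l r hl hlr hr
    have hlr' : l ^ m < r ^ m := pow_lt_pow_left₀ hlr hl (by omega)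
    by_contra hh
    push Not at hh
    have hsub : Ioo (l ^ m) (r ^ m) ⊆ {z | levMeas T ψ m (fun t => (t - μ) ^ 2) z ≠
        levMeas T φ m (fun t => (t - ν) ^ 2) z} := by
      intro z hz
      have hz0 : 0 < z := lt_of_le_of_lt (pow_nonneg hl m) hz.1
      set a := z ^ ((m:ℝ)⁻¹) with ha
      have hap : a ^ m = z := Real.rpow_inv_natCast_pow hz0.le (by omega)
      have ha0 : 0 ≤ a := Real.rpow_nonneg hz0.le _
      have haI : a ∈ Ioo l r :=
        ⟨lt_of_pow_lt_pow_left₀ m ha0 (by rw [hap]; exact hz.1),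
         lt_of_pow_lt_pow_left₀ m (hl.trans hlr.le) (by rw [hap]; exact hz.2)⟩
      have hI' : a ∈ Ioo 0 (b * T) := ⟨hl.trans_lt haI.1, haI.2.trans_le hr⟩
      simp only [mem_ofPred_eq]
      rw [levMeas_eq co o0 (by omega) (hsqc μ) (fun t => sq_nonneg _) hz0,
        levMeas_eq φo φ0 (by omega) (hsqc ν) (fun t => sq_nonneg _) hz0, ← ha, sq_moment,
        sq_moment, (hlev a).1, (hlev a).2, sub_zero, zero_add]
      intro he
      have hwpos : 0 < β a - α a := by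
        rw [hlen a hI', sub_pos, div_lt_iff₀ hb]; linarith [hI'.2]
      rw [ENNReal.ofReal_eq_ofReal_iff (mul_nonneg hwpos.le (by positivity))
        (mul_nonneg hwpos.le (by positivity))] at he
      exact hh a haI (add_right_cancel (mul_left_cancel₀ hwpos.ne' he))
    have h0' : volume.restrict (Ioi (0:ℝ)) (Ioo (l ^ m) (r ^ m)) = 0 :=
      measure_mono_null hsub (ae_iff.1 hae)
    rw [Measure.restrict_apply measurableSet_Ioo, inter_eq_left.2
      (show Ioo (l ^ m) (r ^ m) ⊆ Ioi 0 from fun z hz => lt_of_le_of_lt (pow_nonneg hl m) hz.1),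
      Real.volume_Ioo, ENNReal.ofReal_eq_zero] at h0'
    linarith
  exact ⟨b, hb, profile_of_levels hT co hp hb hlen hE⟩

end Vale.Agent.P254.Rev
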