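import Vale.Agent.P254.PermCoord
import Vale.Agent.P254.RevTwoSided
import Vale.Agent.P254.FewVert

/-!
Bodies invariant under all permutations of the coordinates.
-/

open MeasureTheory Set Matrix Pointwise

namespace Vale.Agent.P254

variable {m : ℕ}

/-- The claim in dimension `n`. -/
def PermClaim (n : ℕ) : Prop :=
  ∀ K : Set (Fin n → ℝ), IsBody K → IsPermInvariant K →
    nrat K ≤ 1 ∧ (nrat K = 1 → IsSimplexBody K)

lemma permClaim_one : PermClaim 1 := by
  classical
  intro K hK _
  obtain ⟨p, hp, hpm⟩ := hK.2.1.exists_isMinOn hK.nonempty (continuous_apply 0).continuousOn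
  obtain ⟨q, hq, hqm⟩ := hK.2.1.exists_isMaxOn hK.nonempty (continuous_apply 0).continuousOn
  refine fewVert_main le_rfl hK {p, q} (Finset.card_le_two.trans (by norm_num)) ?_
  refine Subset.antisymm (hK.1.convexHull_subset_iff.2 ?_) fun x hx => ?_
  · intro x hx
    simp only [Finset.coe_insert, Finset.coe_singleton, mem_insert_iff, mem_singleton_iff] at hx
    rcases hx with rfl | rfl <;> assumption
  · rw [Finset.coe_insert, Finset.coe_singleton, convexHull_pair]
    have h1 : p 0 ≤ x 0 := hpm hx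
    have h2 : x 0 ≤ q 0 := hqm hx
    rcases (h1.trans h2).eq_or_lt with he | hlt
    · have : x = p := funext fun i => by
        rw [Subsingleton.elim i 0]; exact le_antisymm (he ▸ h2) h1
      rw [this]; exact left_mem_segment ℝ p q
    · have hd : 0 < q 0 - p 0 := sub_pos.2 hlt
      refine ⟨(q 0 - x 0) / (q 0 - p 0), (x 0 - p 0) / (q 0 - p 0),
        div_nonneg (by linarith) hd.le, div_nonneg (by linarith) hd.le, ?_, ?_⟩
      · rw [← add_div, div_eq_one_iff_eq hd.ne']; ring
      · funext i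
        rw [Subsingleton.elim i 0]
        simp only [Pi.add_apply, Pi.smul_apply, smul_eq_mul]
        field_simp
        ring

/-- A compact convex set of positive volume is a body. -/
lemma isBody_of_vol_pos {ι : Type*} [Fintype ι] {S : Set (ι → ℝ)} (hc : Convex ℝ S)
    (hk : IsCompact S) (hv : 0 < vol S) : IsBody S := by
  refine ⟨hc, hk, ?_⟩
  by_contra h
  rw [not_nonempty_iff_eq_empty] at h
  have h0 := hc.addHaar_frontier (volume : Measure (ι → ℝ))
  rw [frontier, h, diff_empty, hk.isClosed.closure_eq] at h0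
  simp [vol, h0] at hv

/-- A closed subset of full volume of a body is the body. -/
lemma body_eq_of_subset_vol {ι : Type*} [Fintype ι] {A S : Set (ι → ℝ)} (hS : IsBody S)
    (hA : IsClosed A) (hsub : A ⊆ S) (hv : vol S ≤ vol A) : A = S := by
  refine hsub.antisymm ?_
  have hopen : IsOpen (interior S \ A) := isOpen_interior.sdiff hA
  have hnull : volume (S \ A) = 0 := by
    rw [measure_sdiff hsub hA.measurableSet.nullMeasurableSet
      (measure_mono hsub |>.trans_lt hS.2.1.measure_lt_top).ne, tsub_eq_zero_iff_le]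
    exact (ENNReal.toReal_le_toReal hS.2.1.measure_lt_top.ne
      ((measure_mono hsub).trans_lt hS.2.1.measure_lt_top).ne).1 hv
  have hempty : interior S \ A = ∅ :=
    hopen.eq_empty_of_measure_zero (measure_mono_null (Set.sdiff_subset_sdiff_left interior_subset) hnull)
  rw [sdiff_eq_empty] at hempty
  calc S ⊆ closure S := subset_closure
    _ = closure (interior S) := (hS.1.closure_interior_eq_closure_of_nonempty_interior hS.2.2).symm
    _ ⊆ A := closure_minimal hempty hA

lemma vol_smul_set {r : ℝ} (hr : 0 ≤ r) (S : Set (Fin m → ℝ)) : vol (r • S) = r ^ m * vol S := by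
  unfold vol
  rw [Measure.addHaar_smul, ENNReal.toReal_mul, Module.finrank_fin_fun,
    ENNReal.toReal_ofReal (abs_nonneg _), abs_of_nonneg (pow_nonneg hr m)]

/-- The root constant for the second moment of a slice. -/
noncomputable def kap (m : ℕ) : ℝ := (sxConst m / ((m:ℝ) + 1)) ^ ((m:ℝ)⁻¹)

lemma kap_pos (m : ℕ) : 0 < kap m :=
  Real.rpow_pos_of_pos (div_pos (sxConst_pos m) (by positivity)) _

lemma kap_pow (hm : 1 ≤ m) : kap m ^ m = sxConst m / ((m:ℝ) + 1) :=
  Real.rpow_inv_natCast_pow (div_nonneg (sxConst_pos m).le (by positivity)) (by omega)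

lemma det_smul_one_add_ones (a : ℝ) :
    (Matrix.of fun i j : Fin m => a * ((if i = j then 1 else 0) + 1)).det = a ^ m * ((m:ℝ) + 1) := by
  have : (Matrix.of fun i j : Fin m => a * ((if i = j then 1 else 0) + 1)) =
      a • (1 + replicateCol Unit (fun _ : Fin m => (1:ℝ)) * replicateRow Unit (fun _ : Fin m => (1:ℝ))) := by
    ext i j; simp [Matrix.mul_apply, Matrix.one_apply]
  rw [this, det_smul, det_one_add_replicateCol_mul_replicateRow, Fintype.card_fin]
  simp only [dotProduct, one_mul, Finset.sum_const, Finset.card_univ, Fintype.card_fin, nsmul_eq_mul,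
    mul_one]
  ring

/-- The bound on the second moment of one slice coming from the induction hypothesis. -/
lemma slice_bound (hm : 1 ≤ m) (ih : PermClaim m) {S : Set (Fin m → ℝ)} (hs : SymSlice S)
    (hc : Convex ℝ S) (hk : IsCompact S) (i0 : Fin m) :
    (∫ y in S, y i0 ^ 2) ≤ 2 * kap m * (vol S ^ ((m:ℝ)⁻¹)) ^ (m + 2) ∧
      (0 < vol S → (∫ y in S, y i0 ^ 2) = 2 * kap m * (vol S ^ ((m:ℝ)⁻¹)) ^ (m + 2) →
        IsSimplexBody S) := by
  set p := ∫ y in S, y i0 ^ 2 with hp
  rcases (show 0 ≤ vol S from ENNReal.toReal_nonneg).eq_or_lt with hz | hpos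
  · have h0 : volume S = 0 :=
      ((ENNReal.toReal_eq_zero_iff _).1 hz.symm).resolve_right hk.measure_lt_top.ne
    refine ⟨?_, fun h => absurd h (by rw [← hz]; simp)⟩
    rw [hp, setIntegral_measure_zero _ h0]
    exact mul_nonneg (mul_nonneg two_pos.le (kap_pos m).le)
      (pow_nonneg (Real.rpow_nonneg ENNReal.toReal_nonneg _) _)
  have hb : IsBody S := isBody_of_vol_pos hc hk hpos
  obtain ⟨hle, heq⟩ := ih S hb hs.perm
  set ψ := vol S ^ ((m:ℝ)⁻¹) with hψ
  have hψm : ψ ^ m = vol S := Real.rpow_inv_natCast_pow hpos.le (by omega)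
  have hψ0 : 0 < ψ := Real.rpow_pos_of_pos hpos _
  have hcov : covMat S = Matrix.of fun i j : Fin m =>
      (p / (2 * vol S)) * ((if i = j then 1 else 0) + 1) := by
    ext i j
    rw [covMat_apply hk hpos.ne', hs.mean_zero hk, hs.mean_zero hk, hs.second hk i0]
    simp only [Matrix.of_apply, ← hp]
    ring
  have hiso : nrat S = (p / (2 * ψ ^ (m + 2))) ^ m * ((m:ℝ) + 1) / sxConst m := by
    unfold nrat isoRatio
    rw [hcov, det_smul_one_add_ones, Fintype.card_fin, ← hψm, div_pow, div_pow]
    field_simp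
    ring
  have hp0 : 0 ≤ p := integral_nonneg fun x => sq_nonneg _
  have hk' := kap_pow hm
  have hsx := sxConst_pos m
  have hiso' : nrat S = (p / (2 * ψ ^ (m + 2)) / kap m) ^ m := by
    rw [hiso, div_pow _ (kap m), hk']; field_simp
  rw [hiso'] at hle heq
  have hbase : 0 ≤ p / (2 * ψ ^ (m + 2)) / kap m :=
    div_nonneg (div_nonneg hp0 (by positivity)) (kap_pos m).le
  constructor
  · have := (pow_le_one_iff_of_nonneg hbase (by omega)).1 hle
    rw [div_le_one (kap_pos m), div_le_iff₀ (by positivity)] at this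
    linarith
  · intro _ h
    refine heq ?_
    have : p / (2 * ψ ^ (m + 2)) / kap m = 1 := by
      rw [h]; have := kap_pos m; field_simp
    rw [this, one_pow]

/-- A body whose slices have linear root volume, one of them a simplex, is a simplex. -/
lemma simplex_of_profile {m : ℕ} {K : Set (Fin (m + 1) → ℝ)} (hK : IsBody K) (hP : IsPermInvariant K)
    {a T b s1 : ℝ} (hTp : 0 < T) (hb : 0 < b)
    (hrange : ∀ x ∈ meanImg K, a ≤ x 0 ∧ x 0 ≤ a + T)
    (hne : ∀ s ∈ Icc 0 T, (slc (meanImg K) (s + a)).Nonempty)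
    (hprof : (∀ t ∈ Ioo 0 T, slv (meanImg K) (t + a) = (b * (T - t)) ^ m) ∨
      (∀ t ∈ Ioo 0 T, slv (meanImg K) (t + a) = (b * t) ^ m))
    (hs1 : s1 ∈ Ioo 0 T) {v : Fin (Fintype.card (Fin m) + 1) → Fin m → ℝ}
    (hvS : convexHull ℝ (range v) = slc (meanImg K) (s1 + a)) : IsSimplexBody K := by
  classical
  set C := meanImg K with hC
  have hCb : IsBody C := isBody_affMap meanMat_det hK
  have hks : ∀ t, IsCompact (slc C t) := slc_isCompact hCb.2.1
  have hcs : ∀ t, Convex ℝ (slc C t) := slc_convex hCb.1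
  -- apex `e` and far end `f`
  obtain ⟨e, f, he, hef, hprof'⟩ : ∃ e f : ℝ, (e = 0 ∧ f = T ∨ e = T ∧ f = 0) ∧ e ≠ f ∧
      ∀ u ∈ Ioo (0:ℝ) 1, slv C (e + u * (f - e) + a) = (b * T * u) ^ m := by
    rcases hprof with h' | h'
    · refine ⟨T, 0, Or.inr ⟨rfl, rfl⟩, hTp.ne', fun u hu => ?_⟩
      rw [h' _ ⟨by nlinarith [hu.2], by nlinarith [hu.1]⟩]; ring
    · refine ⟨0, T, Or.inl ⟨rfl, rfl⟩, hTp.ne, fun u hu => ?_⟩
      rw [h' _ ⟨by nlinarith [hu.1], by nlinarith [hu.2]⟩]; ring
  set Sl : ℝ → Set (Fin m → ℝ) := fun u => slc C (e + u * (f - e) + a) with hSl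
  have hmem01 : ∀ u ∈ Ioo (0:ℝ) 1, e + u * (f - e) ∈ Ioo 0 T := fun u hu => by
    rcases he with ⟨rfl, rfl⟩ | ⟨rfl, rfl⟩
    · exact ⟨by nlinarith [hu.1], by nlinarith [hu.2]⟩
    · exact ⟨by nlinarith [hu.2], by nlinarith [hu.1]⟩
  have heI : e ∈ Icc 0 T := by
    rcases he with ⟨rfl, -⟩ | ⟨rfl, -⟩ <;> constructor <;> linarith
  have hvol : ∀ u ∈ Ioo (0:ℝ) 1, vol (Sl u) = (b * T * u) ^ m := hprof'
  have hapex : (Fin.cons (e + a) 0 : Fin (m + 1) → ℝ) ∈ C :=
    zero_mem_slice hK.1 hP (hne e heI)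
  -- slices are homothetic
  have hhom : ∀ u ∈ Ioo (0:ℝ) 1, ∀ u' ∈ Ioo (0:ℝ) 1, u' ≤ u → (u' / u) • Sl u = Sl u' := by
    intro u hu u' hu' hle
    have hlam : 0 < u' / u := div_pos hu'.1 hu.1
    have hbody : IsBody (Sl u') := isBody_of_vol_pos (hcs _) (hks _)
      (by rw [hvol u' hu']; exact pow_pos (mul_pos (mul_pos hb hTp) hu'.1) m)
    refine body_eq_of_subset_vol hbody ((hks _).smul (u' / u)).isClosed ?_ ?_
    · rintro _ ⟨y, hy, rfl⟩
      have := hCb.1 hapex hy (sub_nonneg.2 ((div_le_one hu.1).2 hle)) hlam.le (by ring)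
      rw [combo_cons, smul_zero, zero_add] at this
      show (Fin.cons _ _ : Fin (m + 1) → ℝ) ∈ C
      convert this using 2
      have := hu.1.ne'
      field_simp
      ring
    · rw [vol_smul_set hlam.le, hvol u hu, hvol u' hu', ← mul_pow]
      refine le_of_eq (congrArg (· ^ m) ?_)
      have := hu.1.ne'
      field_simp
  obtain ⟨u1, hu1, hu1e⟩ : ∃ u ∈ Ioo (0:ℝ) 1, e + u * (f - e) = s1 := by
    rcases he with ⟨rfl, rfl⟩ | ⟨rfl, rfl⟩
    · exact ⟨s1 / f, ⟨div_pos hs1.1 hTp, (div_lt_one hTp).2 hs1.2⟩, by field_simp; ring⟩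
    · refine ⟨(e - s1) / e, ⟨div_pos (sub_pos.2 hs1.2) hTp, (div_lt_one hTp).2 (by linarith [hs1.1])⟩,
        by field_simp; ring⟩
  have hS1 : convexHull ℝ (range v) = Sl u1 := by rw [hSl]; simp only [hu1e]; exact hvS
  set base : Fin (Fintype.card (Fin m) + 1) → Fin (m + 1) → ℝ :=
    fun i => Fin.cons (f + a) (u1⁻¹ • v i) with hbase
  set V' : Finset (Fin (m + 1) → ℝ) := insert (Fin.cons (e + a) 0) (Finset.univ.image base) with hV'
  have hVcard : V'.card ≤ m + 1 + 1 := by
    refine (Finset.card_insert_le _ _).trans (Nat.succ_le_succ ?_)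
    exact Finset.card_image_le.trans (by simp)
  have hkey : ∀ u ∈ Ioo (0:ℝ) 1, Sl u = (u / u1) • Sl u1 := by
    intro u hu
    rcases le_total u u1 with h' | h'
    · exact (hhom u1 hu1 u hu h').symm
    · rw [← hhom u hu u1 hu1 h', smul_smul]
      have := hu.1.ne'
      have := hu1.1.ne'
      rw [show u / u1 * (u1 / u) = 1 by field_simp, one_smul]
  have hbaseC : ∀ i, base i ∈ C := by
    intro i
    set g : ℝ → Fin (m + 1) → ℝ := fun u => Fin.cons (e + u * (f - e) + a) ((u / u1) • v i) with hg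
    have hgc : Continuous g := continuous_pi fun j => by
      refine Fin.cases ?_ (fun l => ?_) j <;> simp [hg] <;> fun_prop
    have hg1 : g 1 = base i := by
      simp only [hg, hbase, one_div]
      congr 1
      ring
    have : g 1 ∈ closure C := by
      refine map_mem_closure hgc (s := Ioo 0 1) (by rw [closure_Ioo zero_ne_one]; exact right_mem_Icc.2 zero_le_one) ?_
      intro u hu
      show (u / u1) • v i ∈ Sl u
      rw [hkey u hu]
      exact smul_mem_smul_set (hS1 ▸ subset_convexHull ℝ _ (mem_range_self i))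
    rwa [hCb.2.1.isClosed.closure_eq, hg1] at this
  have hhull : convexHull ℝ (V' : Set (Fin (m + 1) → ℝ)) = C := by
    refine Subset.antisymm (hCb.1.convexHull_subset_iff.2 ?_) ?_
    · intro x hx
      simp only [hV', Finset.coe_insert, Finset.coe_image, Finset.coe_univ, image_univ,
        mem_insert_iff, mem_range] at hx
      rcases hx with rfl | ⟨i, rfl⟩
      · exact hapex
      · exact hbaseC i
    · set H := convexHull ℝ (V' : Set (Fin (m + 1) → ℝ)) with hH
      have hint : interior C ⊆ H := by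
        intro z hz
        have hzI : z 0 - a ∈ Ioo 0 T := by
          have hmax := hrange
          obtain ⟨ε, hε, hball⟩ := Metric.mem_nhds_iff.1 (mem_interior_iff_mem_nhds.1 hz)
          have hmv : ∀ d : ℝ, |d| < ε → Function.update z 0 (z 0 + d) ∈ C := fun d hd => hball (by
            rw [Metric.mem_ball, dist_pi_lt_iff hε]
            intro j
            by_cases hj : j = 0
            · subst hj; simpa [Real.dist_eq] using hd
            · simp [Function.update_of_ne hj, hε])
          have h1 := (hmax _ (hmv (ε / 2) (by rw [abs_of_pos (half_pos hε)]; linarith))).2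
          have h2 := (hmax _ (hmv (-(ε / 2)) (by rw [abs_neg, abs_of_pos (half_pos hε)]; linarith))).1
          simp only [Function.update_self] at h1 h2
          constructor <;> linarith
        set u := (z 0 - a - e) / (f - e) with hu
        have hfe : f - e ≠ 0 := sub_ne_zero.2 (Ne.symm hef)
        have hue : e + u * (f - e) = z 0 - a := by rw [hu]; field_simp; ring
        have hu01 : u ∈ Ioo (0:ℝ) 1 := by
          rcases he with ⟨rfl, rfl⟩ | ⟨rfl, rfl⟩
          · exact ⟨by nlinarith [hzI.1], by nlinarith [hzI.2]⟩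
          · exact ⟨by nlinarith [hzI.2], by nlinarith [hzI.1]⟩
        have hzmem : Fin.tail z ∈ Sl u := by
          show (Fin.cons (e + u * (f - e) + a) (Fin.tail z) : Fin (m + 1) → ℝ) ∈ C
          rw [hue, sub_add_cancel, Fin.cons_self_tail]
          exact interior_subset hz
        rw [hkey u hu01, ← hS1] at hzmem
        obtain ⟨y1, hy1, hy1e⟩ := hzmem
        -- lift the base simplex
        let A : (Fin m → ℝ) →ᵃ[ℝ] (Fin (m + 1) → ℝ) :=
          { toFun := fun y => Fin.cons (f + a) (u1⁻¹ • y)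
            linear :=
              { toFun := fun y => Fin.cons 0 (u1⁻¹ • y)
                map_add' := fun p q => by
                  funext j; refine Fin.cases ?_ (fun l => ?_) j <;> simp [mul_add]
                map_smul' := fun r p => by
                  funext j; refine Fin.cases ?_ (fun l => ?_) j <;> simp [mul_left_comm] }
            map_vadd' := fun p q => by
              funext j; refine Fin.cases ?_ (fun l => ?_) j <;> simp [mul_add] }
        have hb' : A y1 ∈ H := by
          have : A y1 ∈ A '' convexHull ℝ (range v) := mem_image_of_mem A hy1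
          rw [A.image_convexHull] at this
          refine convexHull_mono ?_ this
          rintro _ ⟨_, ⟨i, rfl⟩, rfl⟩
          exact Finset.mem_coe.2 (Finset.mem_insert_of_mem (Finset.mem_image.2 ⟨i, Finset.mem_univ _, rfl⟩))
        have ha' : (Fin.cons (e + a) 0 : Fin (m + 1) → ℝ) ∈ H :=
          subset_convexHull ℝ _ (Finset.mem_coe.2 (Finset.mem_insert_self _ _))
        have := convex_convexHull ℝ _ ha' hb' (sub_nonneg.2 hu01.2.le) hu01.1.le (by ring)
        convert this using 1
        show z = (1 - u) • (Fin.cons (e + a) 0 : Fin (m + 1) → ℝ) + u • (Fin.cons (f + a) (u1⁻¹ • y1) : Fin (m + 1) → ℝ)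
        rw [combo_cons, smul_zero, zero_add, smul_smul, ← div_eq_mul_inv]
        rw [show (u / u1) • y1 = Fin.tail z from hy1e, show (1 - u) * (e + a) + u * (f + a) = z 0 by
          linear_combination hue, Fin.cons_self_tail]
      calc C ⊆ closure C := subset_closure
        _ = closure (interior C) := (hCb.1.closure_interior_eq_closure_of_nonempty_interior hCb.2.2).symm
        _ ⊆ H := closure_minimal hint
          (V'.finite_toSet.isCompact_convexHull (𝕜 := ℝ)).isClosed
  -- back to `K`
  have hMinv : ∀ x, (meanMat m)⁻¹ *ᵥ (meanMat m *ᵥ x) = x := fun x => by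
    rw [mulVec_mulVec, nonsing_inv_mul _ (Ne.isUnit meanMat_det), one_mulVec]
  refine isSimplexBody_of_card_le hK (s := V'.image (affMap 0 (meanMat m)⁻¹)) ?_
    (Finset.card_image_le.trans (hVcard.trans (by simp)))
  rw [Finset.coe_image, ← AffineMap.image_convexHull, hhull, hC, meanImg, ← image_comp]
  have : (affMap (0 : Fin (m + 1) → ℝ) (meanMat m)⁻¹ ∘ affMap 0 (meanMat m)) = id := by
    funext x; simp [affMap_apply, hMinv]
  rw [this, image_id]


/-- The step of the induction. -/
theorem perm_step (hm : 1 ≤ m) (ih : PermClaim m) : PermClaim (m + 1) := by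
  classical
  intro K hK hP
  set C := meanImg K with hC
  have hCb : IsBody C := isBody_affMap meanMat_det hK
  have hr : nrat C = nrat K := nrat_affMap meanMat_det hK
  have hks : ∀ t, IsCompact (slc C t) := slc_isCompact hCb.2.1
  have hcs : ∀ t, Convex ℝ (slc C t) := slc_convex hCb.1
  have hss : ∀ t, SymSlice (slc C t) := symSlice_meanImg hP
  have hVp : 0 < vol C := hCb.vol_pos
  set i0 : Fin m := ⟨0, hm⟩ with hi0
  obtain ⟨zl, hzl, hlo⟩ := hCb.2.1.exists_isMinOn hCb.nonempty (continuous_apply 0).continuousOn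
  obtain ⟨zh, hzh, hhi⟩ := hCb.2.1.exists_isMaxOn hCb.nonempty (continuous_apply 0).continuousOn
  set lo := zl 0 with hlodef
  set hi := zh 0 with hhidef
  have hout : ∀ t, t ∉ Icc lo hi → slc C t = ∅ := fun t ht => by
    refine eq_empty_of_forall_notMem fun y hy => ht ?_
    have h1 : lo ≤ (Fin.cons t y : Fin (m + 1) → ℝ) 0 := hlo hy
    have h2 : (Fin.cons t y : Fin (m + 1) → ℝ) 0 ≤ hi := hhi hy
    simp only [Fin.cons_zero] at h1 h2
    exact ⟨h1, h2⟩
  set a : ℝ := lo with ha
  set T : ℝ := hi - lo with hT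
  have hT0 : 0 ≤ T := sub_nonneg.2 (hlo hzh)
  -- transfer of integrals over slices to the interval
  have toI : ∀ φ : (Fin (m + 1) → ℝ) → ℝ, Continuous φ →
      IntervalIntegrable (fun s => ∫ y in slc C (s + a), φ (Fin.cons (s + a) y)) volume 0 T ∧
      ∫ x in C, φ x = ∫ s in (0:ℝ)..T, ∫ y in slc C (s + a), φ (Fin.cons (s + a) y) := by
    intro φ hφ
    obtain ⟨hi', he⟩ := integral_slices hCb.2.1 hφ
    refine ⟨(hi'.comp_add_right a).intervalIntegrable, ?_⟩
    rw [intervalIntegral.integral_comp_add_right (fun t => ∫ y in slc C t, φ (Fin.cons t y)),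
      zero_add, show T + a = hi by rw [hT]; ring, intervalIntegral.integral_of_le (hlo hzh),
      ← integral_Icc_eq_integral_Ioc, he]
    refine (setIntegral_eq_integral_of_forall_compl_eq_zero fun t ht => ?_).symm
    simp [hout t ht]
  set ψ : ℝ → ℝ := fun s => slv C (s + a) ^ ((m:ℝ)⁻¹) with hψ
  have hψ0 : ∀ s, 0 ≤ ψ s := fun s => Real.rpow_nonneg (slv_nonneg _ _) _
  have hψm : ∀ s, ψ s ^ m = slv C (s + a) := fun s =>
    Real.rpow_inv_natCast_pow (slv_nonneg _ _) (by omega)
  have hne : ∀ s ∈ Icc 0 T, (slc C (s + a)).Nonempty := by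
    intro s hs
    rcases hT0.eq_or_lt with h0 | h0
    · refine ⟨fun j => zl j.succ, ?_⟩
      show (Fin.cons (s + a) (fun j => zl j.succ) : Fin (m + 1) → ℝ) ∈ C
      rw [show s + a = zl 0 by rw [← h0] at hs; linarith [hs.1, hs.2]]
      exact (Fin.cons_self_tail zl).symm ▸ hzl
    · refine ⟨((T - s) / T) • (fun j => zl j.succ) + (s / T) • (fun j => zh j.succ), ?_⟩
      show (Fin.cons (s + a) _ : Fin (m + 1) → ℝ) ∈ C
      have := hCb.1 hzl hzh (div_nonneg (sub_nonneg.2 hs.2) h0.le) (div_nonneg hs.1 h0.le)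
        (by rw [← add_div, div_eq_one_iff_eq h0.ne']; ring)
      rw [← Fin.cons_self_tail zl, ← Fin.cons_self_tail zh, combo_cons] at this
      convert this using 2
      · rw [← hlodef, ← hhidef, ha, show hi = T + lo by rw [hT]; ring]
        field_simp
        ring
      · funext j; simp [Fin.tail]
  have hconc : ConcaveOn ℝ (Icc 0 T) ψ := by
    refine ⟨convex_Icc _ _, fun x hx y hy p q hp hq hpq => ?_⟩
    simp only [smul_eq_mul]
    refine bm_root (by omega) (hcs _) (hks _) (hne x hx) (hcs _) (hks _) (hne y hy) (hcs _) (hks _)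
      hp hq hpq ?_
    intro u hu v hv
    have := hCb.1 hu hv hp hq hpq
    rw [combo_cons, show p * (x + a) + q * (y + a) = p * x + q * y + a by
      linear_combination a * hpq] at this
    exact this
  have hV : vol C = ∫ s in (0:ℝ)..T, ψ s ^ m := by
    have := (toI (fun _ => 1) continuous_const).2
    simp only [setIntegral_one] at this
    simp only [hψm]; exact this
  have hTp : 0 < T := by
    rcases hT0.eq_or_lt with h | h
    · rw [← h, intervalIntegral.integral_same] at hV; linarith
    · exact h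
  obtain ⟨s0, hs0, hs0p⟩ : ∃ s0 ∈ Ioo 0 T, 0 < ψ s0 := by
    by_contra hh
    push Not at hh
    have : ∫ s in (0:ℝ)..T, ψ s ^ m = 0 := by
      rw [intervalIntegral.integral_of_le hTp.le, integral_Ioc_eq_integral_Ioo]
      refine setIntegral_eq_zero_of_forall_eq_zero fun s hs => ?_
      rw [le_antisymm (hh s hs) (hψ0 s), zero_pow (by omega)]
    linarith
  have hψp : ∀ s ∈ Ioo 0 T, 0 < ψ s := by
    intro s hs
    rcases lt_trichotomy s s0 with h | h | h
    · have h1 : 0 < s / s0 := div_pos hs.1 hs0.1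
      have := hconc.2 (left_mem_Icc.2 hTp.le) (Ioo_subset_Icc_self hs0)
        (sub_nonneg.2 ((div_le_one hs0.1).2 h.le)) h1.le (by ring)
      simp only [smul_eq_mul, mul_zero, zero_add, div_mul_cancel₀ _ hs0.1.ne'] at this
      linarith [mul_nonneg (sub_nonneg.2 ((div_le_one hs0.1).2 h.le)) (hψ0 0), mul_pos h1 hs0p]
    · exact h ▸ hs0p
    · have hd : 0 < T - s0 := sub_pos.2 hs0.2
      have h1 : 0 < (T - s) / (T - s0) := div_pos (sub_pos.2 hs.2) hd
      have h2 : 0 ≤ (s - s0) / (T - s0) := div_nonneg (by linarith) hd.le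
      have := hconc.2 (Ioo_subset_Icc_self hs0) (right_mem_Icc.2 hTp.le) h1.le h2
        (by rw [← add_div, div_eq_one_iff_eq hd.ne']; ring)
      simp only [smul_eq_mul] at this
      rw [show (T - s) / (T - s0) * s0 + (s - s0) / (T - s0) * T = s by field_simp; ring] at this
      linarith [mul_nonneg h2 (hψ0 T), mul_pos h1 hs0p]
  obtain ⟨hV0, hmain, hmeq⟩ := Rev.two_sided hm hTp hconc (fun s _ => hψ0 s) hψp
  set M1 := ∫ s in (0:ℝ)..T, s * ψ s ^ m with hM1
  set M2 := ∫ s in (0:ℝ)..T, s ^ 2 * ψ s ^ m with hM2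
  set W := ∫ s in (0:ℝ)..T, ψ s ^ (m + 2) with hW
  rw [← hV] at hmain hmeq
  set V := vol C with hVdef
  have iψ : IntervalIntegrable (fun s => ψ s ^ m) volume 0 T := by
    have := (toI (fun _ => 1) continuous_const).1
    simp only [setIntegral_one] at this
    simp only [hψm]; exact this
  have iW : IntervalIntegrable (fun s => ψ s ^ (m + 2)) volume 0 T := by
    have hB := fun s (hs : s ∈ Ioo 0 T) => le_of_lt (hψp s hs)
    obtain ⟨M, hM⟩ := slv_bound hCb.2.1
    have := (Rev.layer hTp (hconc.subset Ioo_subset_Icc_self (convex_Ioo 0 T)) hB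
      (B := M ^ ((m:ℝ)⁻¹)) (fun s _ => Real.rpow_le_rpow (slv_nonneg _ _) (hM _) (by positivity))
      (m + 2) continuous_const fun _ => (zero_le_one (α := ℝ))).2
    simpa using this
  have hf0 : ∫ x in C, x 0 = M1 + a * V := by
    rw [(toI (fun x => x 0) (continuous_apply 0)).2]
    have : ∀ s, ∫ y in slc C (s + a), (Fin.cons (s + a) y : Fin (m + 1) → ℝ) 0 =
        s * ψ s ^ m + a * ψ s ^ m := fun s => by
      simp [hψm, slv, vol, Measure.real]; ring
    simp only [this]
    rw [intervalIntegral.integral_add (iψ.continuousOn_mul (g := fun s => s) continuousOn_id)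
      (iψ.const_mul _), intervalIntegral.integral_const_mul, ← hV]
  have hf00 : ∫ x in C, x 0 * x 0 = M2 + 2 * a * M1 + a ^ 2 * V := by
    rw [(toI (fun x => x 0 * x 0) (by fun_prop)).2]
    have : ∀ s, ∫ y in slc C (s + a), (Fin.cons (s + a) y : Fin (m + 1) → ℝ) 0 *
        (Fin.cons (s + a) y : Fin (m + 1) → ℝ) 0 =
        s ^ 2 * ψ s ^ m + 2 * a * (s * ψ s ^ m) + a ^ 2 * ψ s ^ m := fun s => by
      simp [hψm, slv, vol, Measure.real]; ring
    simp only [this]
    have i1 := iψ.continuousOn_mul (g := fun s => s) continuousOn_id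
    have i2 := iψ.continuousOn_mul (g := fun s => s ^ 2) (by fun_prop)
    rw [intervalIntegral.integral_add (i2.add (i1.const_mul _)) (iψ.const_mul _),
      intervalIntegral.integral_add i2 (i1.const_mul _), intervalIntegral.integral_const_mul,
      intervalIntegral.integral_const_mul, ← hV]
  have hfj : ∀ j : Fin m, ∫ x in C, x j.succ = 0 := fun j => by
    rw [(toI (fun x => x j.succ) (continuous_apply _)).2]
    simp [(hss _).mean_zero (hks _)]
  have hf0j : ∀ j : Fin m, ∫ x in C, x 0 * x j.succ = 0 := fun j => by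
    rw [(toI (fun x => x 0 * x j.succ) (by fun_prop)).2]
    simp [integral_const_mul, (hss _).mean_zero (hks _)]
  set P := ∫ x in C, x i0.succ ^ 2 with hPdef
  have hpI := toI (fun x => x i0.succ ^ 2) (by fun_prop)
  simp only [Fin.cons_succ] at hpI
  have hfij : ∀ i j : Fin m, ∫ x in C, x i.succ * x j.succ =
      P / 2 * ((if i = j then 1 else 0) + 1) := fun i j => by
    rw [(toI (fun x => x i.succ * x j.succ) (by fun_prop)).2, hPdef, hpI.2,
      ← intervalIntegral.integral_div, ← intervalIntegral.integral_mul_const]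
    refine intervalIntegral.integral_congr fun s _ => ?_
    simp only [Fin.cons_succ]
    exact (hss _).second (hks _) i0 i j
  have hdet : (covMat C).det = (V * M2 - M1 ^ 2) / V ^ 2 * ((P / (2 * V)) ^ m * ((m:ℝ) + 1)) := by
    have c00 : covMat C 0 0 = (V * M2 - M1 ^ 2) / V ^ 2 := by
      rw [covMat_apply hCb.2.1 hVp.ne', hf00, hf0, ← hVdef]; field_simp; ring
    have c0j : ∀ j : Fin m, covMat C 0 j.succ = 0 := fun j => by
      rw [covMat_apply hCb.2.1 hVp.ne', hf0j, hfj]; ring
    have cij : (covMat C).submatrix Fin.succ (Fin.succAbove 0) =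
        Matrix.of fun i j : Fin m => P / (2 * V) * ((if i = j then 1 else 0) + 1) := by
      ext i j
      simp only [submatrix_apply, Fin.succAbove_zero, Matrix.of_apply]
      rw [covMat_apply hCb.2.1 hVp.ne', hfij, hfj, hfj, ← hVdef]
      ring
    rw [det_succ_row_zero, Fin.sum_univ_succ, cij, det_smul_one_add_ones, c00]
    simp [c0j]
  have hP0 : 0 ≤ P := integral_nonneg fun x => sq_nonneg _
  have hpt : ∀ s, (∫ y in slc C (s + a), y i0 ^ 2) ≤ 2 * kap m * ψ s ^ (m + 2) := fun s =>
    (slice_bound hm ih (hss _) (hcs _) (hks _) i0).1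
  have hPW : P ≤ 2 * kap m * W := by
    rw [hPdef, hpI.2, hW, ← intervalIntegral.integral_const_mul]
    exact intervalIntegral.integral_mono_on hT0 hpI.1 (iW.const_mul _) fun s _ => hpt s
  have hn : nrat C = (V * M2 - M1 ^ 2) * (P / (2 * kap m)) ^ m /
      (Rev.cPhi m * V ^ (m + 4)) := by
    unfold nrat isoRatio
    rw [hdet, Fintype.card_fin, ← hVdef]
    simp only [div_pow, mul_pow, kap_pow hm, sxConst, Rev.cPhi, Nat.factorial_succ]
    push_cast
    have : (m.factorial : ℝ) ≠ 0 := by positivity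
    field_simp
    ring
  have hc0 : 0 < Rev.cPhi m * V ^ (m + 4) := by unfold Rev.cPhi; positivity
  have hk0 := kap_pos m
  have hQ : P / (2 * kap m) ≤ W := by rw [div_le_iff₀ (by positivity)]; linarith
  have hdet0 : 0 ≤ V * M2 - M1 ^ 2 := by
    have := (covMat_posSemidef hCb.2.1 (K := C)).diag_nonneg (i := (0 : Fin (m + 1)))
    rw [covMat_apply hCb.2.1 hVp.ne', hf00, hf0, ← hVdef] at this
    have e : V⁻¹ * (M2 + 2 * a * M1 + a ^ 2 * V) - V⁻¹ * (M1 + a * V) * (V⁻¹ * (M1 + a * V))
        = (V * M2 - M1 ^ 2) / V ^ 2 := by field_simp; ring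
    rw [e, le_div_iff₀ (by positivity), zero_mul] at this
    exact this
  have hstep : (V * M2 - M1 ^ 2) * (P / (2 * kap m)) ^ m ≤ (V * M2 - M1 ^ 2) * W ^ m :=
    mul_le_mul_of_nonneg_left (pow_le_pow_left₀ (div_nonneg hP0 (by positivity)) hQ m) hdet0
  refine ⟨?_, fun h => ?_⟩
  · rw [← hr, hn, div_le_one hc0]; exact hstep.trans hmain
  rw [← hr, hn, div_eq_one_iff_eq hc0.ne'] at h
  have e1 : (V * M2 - M1 ^ 2) * W ^ m = Rev.cPhi m * V ^ (m + 4) :=
    le_antisymm hmain (h ▸ hstep)
  have hdp : 0 < V * M2 - M1 ^ 2 := lt_of_le_of_ne hdet0 fun h0 => by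
    rw [← h0, zero_mul] at h; linarith
  have e2 : P = 2 * kap m * W := by
    have := (pow_left_inj₀ (div_nonneg hP0 (by positivity)) (by
      exact intervalIntegral.integral_nonneg hT0 fun s _ => pow_nonneg (hψ0 s) _) (by omega)).1
      (mul_left_cancel₀ hdp.ne' (h.trans e1.symm))
    rw [div_eq_iff (by positivity)] at this; linarith
  -- some slice is extremal, hence a simplex
  obtain ⟨s1, hs1, hse⟩ : ∃ s ∈ Ioo 0 T, (∫ y in slc C (s + a), y i0 ^ 2) = 2 * kap m * ψ s ^ (m + 2) := by
    by_contra hh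
    push Not at hh
    have hpos : 0 < ∫ s in (0:ℝ)..T, (2 * kap m * ψ s ^ (m + 2) - ∫ y in slc C (s + a), y i0 ^ 2) :=
      intervalIntegral.intervalIntegral_pos_of_pos_on ((iW.const_mul _).sub hpI.1)
        (fun s hs => sub_pos.2 (lt_of_le_of_ne (hpt s) (hh s hs))) hTp
    rw [intervalIntegral.integral_sub (iW.const_mul _) hpI.1, intervalIntegral.integral_const_mul,
      ← hpI.2, ← hW, ← hPdef] at hpos
    linarith
  have hvs1 : 0 < vol (slc C (s1 + a)) := by
    have := pow_pos (hψp s1 hs1) m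
    rwa [hψm] at this
  obtain ⟨v, -, hvS⟩ := (slice_bound hm ih (hss _) (hcs _) (hks _) i0).2 hvs1 hse
  obtain ⟨b, hb, hprof⟩ := hmeq e1
  refine simplex_of_profile hK hP (a := a) (b := b) hTp hb
    (fun x hx => ⟨hlo hx, (show x 0 ≤ hi from hhi hx).trans_eq (by rw [hT]; ring)⟩) hne ?_ hs1 hvS
  exact hprof.imp (fun h' t ht => by rw [← hψm, h' t ht]) (fun h' t ht => by rw [← hψm, h' t ht])

theorem perm_main : ∀ n : ℕ, 1 ≤ n → PermClaim n := by
  intro n hn
  induction n, hn using Nat.le_induction with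
  | base => exact permClaim_one
  | succ m hm ih => exact perm_step hm ih

end Vale.Agent.P254
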