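import Vale.Agent.P254.RevPot

/-!
The one dimensional inequality behind bodies with a symmetric slicing, in the tail variable `w`:
for `y > 0` increasing with `y w / w` decreasing, `Var * W ^ m` is maximal for constant `y`.
-/

open MeasureTheory Set Filter Topology

namespace Vale.Agent.P254.Rev

noncomputable def Sf (m : ℕ) (f : ℝ → ℝ) (w : ℝ) : ℝ :=
  ((m:ℝ) + 2) * ∫ z in (0:ℝ)..w, z ^ (m + 1) * f z

noncomputable def Tf (m : ℕ) (f : ℝ → ℝ) (w : ℝ) : ℝ := ((m:ℝ) + 2) * ∫ z in w..(1:ℝ), f z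

noncomputable def theta (m : ℕ) (y : ℝ → ℝ) : ℝ := Sf m (fun w => y w ^ m) 1

noncomputable def QQ (m : ℕ) (y : ℝ → ℝ) : ℝ :=
  2 * ∫ w in (0:ℝ)..1,
    ((m:ℝ) + 2) * w ^ (m + 1) * y w ^ m * Tf m (fun z => y z ^ m) w

noncomputable def WW (m : ℕ) (y : ℝ → ℝ) : ℝ :=
  ((m:ℝ) + 3) * ∫ w in (0:ℝ)..1, w ^ m * (w / y w) ^ 2

/-- The admissible profiles. -/
structure Good (y : ℝ → ℝ) : Prop where
  cont : Continuous y
  pos : ∀ w, 0 < w → w ≤ 1 → 0 < y w
  mono : MonotoneOn y (Icc 0 1)
  ratio : ∀ u w, 0 < u → u ≤ w → w ≤ 1 → y w * u ≤ y u * w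

variable {m : ℕ} {y : ℝ → ℝ}

section calculus
variable {f g : ℝ → ℝ}

lemma hasDerivAt_Sf (hf : Continuous f) (w : ℝ) :
    HasDerivAt (Sf m f) (((m:ℝ) + 2) * (w ^ (m + 1) * f w)) w :=
  (((continuous_id.pow (m + 1)).mul hf).integral_hasStrictDerivAt 0 w).hasDerivAt.const_mul _

lemma hasDerivAt_Tf (hf : Continuous f) (w : ℝ) :
    HasDerivAt (Tf m f) (-(((m:ℝ) + 2) * f w)) w := by
  have h := intervalIntegral.integral_hasDerivAt_left (hf.intervalIntegrable w 1)
    (hf.stronglyMeasurableAtFilter _ _) hf.continuousAt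
  exact (h.const_mul ((m:ℝ) + 2)).congr_deriv (by ring)

lemma continuous_Sf (hf : Continuous f) : Continuous (Sf m f) :=
  continuous_iff_continuousAt.2 fun w => (hasDerivAt_Sf hf w).continuousAt

lemma continuous_Tf (hf : Continuous f) : Continuous (Tf m f) :=
  continuous_iff_continuousAt.2 fun w => (hasDerivAt_Tf hf w).continuousAt

lemma parts (hf : Continuous f) (hg : Continuous g) :
    ∫ w in (0:ℝ)..1, ((m:ℝ) + 2) * w ^ (m + 1) * f w * Tf m g w =
      ∫ w in (0:ℝ)..1, ((m:ℝ) + 2) * g w * Sf m f w := by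
  have cS := continuous_Sf (m := m) hf
  have cT := continuous_Tf (m := m) hg
  have h := intervalIntegral.integral_eq_sub_of_hasDerivAt (a := (0:ℝ)) (b := 1)
    (f := fun w => Sf m f w * Tf m g w)
    (f' := fun w => ((m:ℝ) + 2) * w ^ (m + 1) * f w * Tf m g w
      - ((m:ℝ) + 2) * g w * Sf m f w)
    (fun w _ => ((hasDerivAt_Sf hf w).mul (hasDerivAt_Tf hg w)).congr_deriv (by ring))
    (Continuous.intervalIntegrable (by fun_prop) _ _)
  rw [intervalIntegral.integral_sub (Continuous.intervalIntegrable (by fun_prop) _ _)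
    (Continuous.intervalIntegrable (by fun_prop) _ _)] at h
  simp [Sf, Tf] at h ⊢
  linarith

end calculus

lemma Good.contx (hy : Good y) : Continuous fun w => y w ^ m := hy.cont.pow m

lemma Good.x_ratio (hy : Good y) {u w : ℝ} (hu : 0 < u) (huw : u ≤ w) (hw : w ≤ 1) :
    y w ^ m * u ^ m ≤ y u ^ m * w ^ m := by
  rw [← mul_pow, ← mul_pow]
  exact pow_le_pow_left₀ (mul_nonneg (hy.pos w (hu.trans_le huw) hw).le hu.le)
    (hy.ratio u w hu huw hw) m

/-- The kernel `S / w ^ n + T` decreases at a speed at least `(n+1)/2 * x`. -/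
lemma K_slope (hy : Good y) {u v : ℝ} (hu : 0 < u) (huv : u ≤ v) (hv : v ≤ 1) :
    Sf m (fun w => y w ^ m) v / v ^ (m + 1) + Tf m (fun w => y w ^ m) v
      + ((m:ℝ) + 2) / 2 * ∫ z in u..v, y z ^ m
    ≤ Sf m (fun w => y w ^ m) u / u ^ (m + 1) + Tf m (fun w => y w ^ m) u := by
  set x : ℝ → ℝ := fun w => y w ^ m with hx
  have hc : Continuous x := hy.contx
  set G : ℝ → ℝ := fun w => Sf m x w / w ^ (m + 1) + Tf m x w
    + ((m:ℝ) + 2) / 2 * ∫ z in u..w, x z with hG
  have hd : ∀ w, 0 < w → HasDerivAt G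
      (-(((m:ℝ) + 1) * Sf m x w / w ^ (m + 2)) + ((m:ℝ) + 2) / 2 * x w) w := by
    intro w hw
    have := (((hasDerivAt_Sf (m := m) hc w).div (hasDerivAt_pow (m + 1) w) (by positivity)).add
      (hasDerivAt_Tf (m := m) hc w)).add
      ((hc.integral_hasStrictDerivAt u w).hasDerivAt.const_mul (((m:ℝ) + 2) / 2))
    refine (this.congr_of_eventuallyEq (EventuallyEq.of_eq ?_)).congr_deriv ?_
    · funext z; simp [hG]
    · simp only [show m + 1 - 1 = m by omega]
      push_cast
      field_simp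
      ring
  have hb : ∀ w, 0 < w → w ≤ 1 →
      ((m:ℝ) + 2) / (2 * ((m:ℝ) + 1)) * (x w * w ^ (m + 2)) ≤ Sf m x w := by
    intro w hw hw1
    have h1 : ∫ z in (0:ℝ)..w, z ^ (2 * m + 1) * (x w / w ^ m) ≤
        ∫ z in (0:ℝ)..w, z ^ (m + 1) * x z := by
      refine intervalIntegral.integral_mono_on hw.le
        (Continuous.intervalIntegrable (by fun_prop) _ _)
        (Continuous.intervalIntegrable (by fun_prop) _ _) fun z hz => ?_
      rcases hz.1.eq_or_lt with rfl | hz0
      · simp
      · have := hy.x_ratio (m := m) hz0 hz.2 hw1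
        rw [show 2 * m + 1 = (m + 1) + m by omega, pow_add z, mul_assoc]
        refine mul_le_mul_of_nonneg_left ?_ (pow_nonneg hz0.le _)
        rw [← mul_div_assoc, div_le_iff₀ (by positivity)]
        simp only [hx]
        linarith
    rw [intervalIntegral.integral_mul_const, integral_pow] at h1
    have e : ((0:ℝ) ^ (2 * m + 1 + 1)) = 0 := zero_pow (by omega)
    rw [e] at h1
    have h2 := mul_le_mul_of_nonneg_left h1 (show (0:ℝ) ≤ (m:ℝ) + 2 by positivity)
    refine le_trans (le_of_eq ?_) h2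
    push_cast
    rw [show 2 * m + 1 + 1 = (m + 2) + m by omega, pow_add w]
    field_simp
    ring
  have hanti : AntitoneOn G (Icc u v) := by
    refine antitoneOn_of_hasDerivWithinAt_nonpos (convex_Icc u v)
      (fun z hz => (hd z (hu.trans_le hz.1)).continuousAt.continuousWithinAt)
      (fun z hz => (hd z ?_).hasDerivWithinAt) (fun z hz => ?_)
      <;> rw [interior_Icc] at hz
    · exact hu.trans hz.1
    · have hz0 := hu.trans hz.1
      have := hb z hz0 (hz.2.le.trans hv)
      have h3 : ((m:ℝ) + 2) / 2 * x z ≤ ((m:ℝ) + 1) * Sf m x z / z ^ (m + 2) := by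
        rw [le_div_iff₀ (by positivity)]
        refine le_trans (le_of_eq ?_) (mul_le_mul_of_nonneg_left this
          (show (0:ℝ) ≤ (m:ℝ) + 1 by positivity))
        field_simp
      linarith
  have := hanti ⟨le_rfl, huv⟩ ⟨huv, le_rfl⟩ huv
  simp only [hG, intervalIntegral.integral_same, mul_zero, add_zero] at this
  exact this

lemma intI_ratio (hy : Good y) {a b : ℝ} (ha : 0 ≤ a) (hb : b ≤ 1) (hab : a ≤ b) :
    IntervalIntegrable (fun w => (w / y w) ^ 2) volume a b := by
  have hnn : ∀ w ∈ Icc (0:ℝ) 1, 0 ≤ w / y w := by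
    intro w hw
    rcases hw.1.eq_or_lt with rfl | hw0
    · simp
    · exact (div_pos hw0 (hy.pos w hw0 hw.2)).le
  have hmono : MonotoneOn (fun w => (w / y w) ^ 2) (Icc 0 1) := by
    intro u hu w hw huw
    refine pow_le_pow_left₀ (hnn u hu) ?_ 2
    rcases hu.1.eq_or_lt with rfl | hu0
    · simpa using hnn w hw
    · have hw0 := hu0.trans_le huw
      rw [div_le_div_iff₀ (hy.pos u hu0 hu.2) (hy.pos w hw0 hw.2)]
      linarith [hy.ratio u w hu0 huw hw.2]
  have : MonotoneOn (fun w => (w / y w) ^ 2) (uIcc a b) := by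
    rw [uIcc_of_le hab]
    exact hmono.mono (Icc_subset_Icc ha hb)
  exact this.intervalIntegrable

/-- The integrand of the linearised inequality. -/
noncomputable def Gint (m : ℕ) (y : ℝ → ℝ) (w : ℝ) : ℝ :=
  (y w ^ m - 1) * (((m:ℝ) + 2) / (m + 1)) *
      (Sf m (fun z => y z ^ m) w + w ^ (m + 1) * Tf m (fun z => y z ^ m) w
        - theta m y * w ^ (m + 1) + ((m:ℝ) + 1) * (1 - w) * w ^ (m + 1))
    + m * (w ^ m * (w / y w) ^ 2 - w ^ (m + 2))

lemma intI_Gint (hy : Good y) {a b : ℝ} (ha : 0 ≤ a) (hb : b ≤ 1) (hab : a ≤ b) :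
    IntervalIntegrable (Gint m y) volume a b := by
  have h1 : IntervalIntegrable (fun w => w ^ m * (w / y w) ^ 2) volume a b :=
    (intI_ratio hy ha hb hab).continuousOn_mul (by fun_prop)
  have cS := continuous_Sf (m := m) (hy.contx (m := m))
  have cT := continuous_Tf (m := m) (hy.contx (m := m))
  have cy := hy.cont
  exact (Continuous.intervalIntegrable (by fun_prop) _ _).add
    ((h1.sub (Continuous.intervalIntegrable (by fun_prop) _ _)).const_mul _)

lemma total (hy : Good y) :
    ((m:ℝ) + 1) * ∫ w in (0:ℝ)..1, Gint m y w =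
      (QQ m y - theta m y ^ 2) - ((m:ℝ) + 1) / (m + 3)
        + m * (((m:ℝ) + 1) / (m + 3)) * (WW m y - 1) := by
  set x : ℝ → ℝ := fun w => y w ^ m with hx
  have hc : Continuous x := hy.contx
  have cS := continuous_Sf (m := m) hc
  have cT := continuous_Tf (m := m) hc
  have hcr : IntervalIntegrable (fun w => w ^ m * (w / y w) ^ 2) volume 0 1 :=
    (intI_ratio hy le_rfl le_rfl zero_le_one).continuousOn_mul (by fun_prop)
  set θ := theta m y with hθ
  set κ : ℝ := (m:ℝ) + 2 with hκ
  have hn : ((m:ℝ) + 1) ≠ 0 := by positivity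
  have key : ∀ w : ℝ, ((m:ℝ) + 1) * Gint m y w =
      (κ * x w * Sf m x w + κ * w ^ (m + 1) * x w * Tf m x w
        - κ * Sf m x w - κ * w ^ (m + 1) * Tf m x w)
      + (-(θ * κ) * (w ^ (m + 1) * x w) + θ * κ * w ^ (m + 1)
        + κ * w ^ (m + 1) * x w * (((m:ℝ) + 1) * (1 - w))
        - κ * ((m:ℝ) + 1) * (w ^ (m + 1) - w ^ (m + 2)))
      + ((m:ℝ) + 1) * m * (w ^ m * (w / y w) ^ 2 - w ^ (m + 2)) := by
    intro w
    simp only [Gint, ← hθ, hκ, hx]
    field_simp
    ring
  rw [← intervalIntegral.integral_const_mul]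
  simp only [key]
  have pT : ∀ w, Tf m (fun _ => (1:ℝ)) w = κ * (1 - w) := fun w => by simp [Tf, hκ]
  have pS : ∀ w, Sf m (fun _ => (1:ℝ)) w = w ^ (m + 2) := fun w => by
    simp [Sf, integral_pow]; field_simp; ring
  have p1 := parts (m := m) hc hc
  have p2 := parts (m := m) (continuous_const (y := (1:ℝ))) hc
  have p3 := parts (m := m) hc (continuous_const (y := (1:ℝ)))
  simp only [pT, pS, mul_one, ← hκ] at p1 p2 p3
  have iQ : ∫ w in (0:ℝ)..1, κ * w ^ (m + 1) * x w * Tf m x w = QQ m y / 2 := by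
    simp [QQ, hκ, hx]
  have iθ : ∫ w in (0:ℝ)..1, w ^ (m + 1) * x w = θ / κ := by
    simp [hθ, theta, Sf, hκ, hx]
    field_simp
  have I3 : ∫ w in (0:ℝ)..1, κ * w ^ (m + 1) * x w * (((m:ℝ) + 1) * (1 - w)) =
      ((m:ℝ) + 1) / κ * ∫ w in (0:ℝ)..1, κ * Sf m x w := by
    rw [← p3, ← intervalIntegral.integral_const_mul]
    refine intervalIntegral.integral_congr fun w _ => ?_
    simp only [hκ]; field_simp
  rw [intervalIntegral.integral_add ((Continuous.intervalIntegrable (by fun_prop) _ _).add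
      (Continuous.intervalIntegrable (by fun_prop) _ _))
      ((hcr.sub (Continuous.intervalIntegrable (by fun_prop) _ _)).const_mul _),
    intervalIntegral.integral_add (Continuous.intervalIntegrable (by fun_prop) _ _)
      (Continuous.intervalIntegrable (by fun_prop) _ _)]
  rw [intervalIntegral.integral_sub (Continuous.intervalIntegrable (by fun_prop) _ _)
      (Continuous.intervalIntegrable (by fun_prop) _ _),
    intervalIntegral.integral_sub (Continuous.intervalIntegrable (by fun_prop) _ _)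
      (Continuous.intervalIntegrable (by fun_prop) _ _),
    intervalIntegral.integral_add (Continuous.intervalIntegrable (by fun_prop) _ _)
      (Continuous.intervalIntegrable (by fun_prop) _ _),
    intervalIntegral.integral_sub (Continuous.intervalIntegrable (by fun_prop) _ _)
      (Continuous.intervalIntegrable (by fun_prop) _ _),
    intervalIntegral.integral_add (Continuous.intervalIntegrable (by fun_prop) _ _)
      (Continuous.intervalIntegrable (by fun_prop) _ _),
    intervalIntegral.integral_add (Continuous.intervalIntegrable (by fun_prop) _ _)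
      (Continuous.intervalIntegrable (by fun_prop) _ _),
    ← p1, I3, iQ]
  have p2' : ∫ w in (0:ℝ)..1, κ * w ^ (m + 1) * Tf m x w =
      ∫ w in (0:ℝ)..1, κ * x w * w ^ (m + 2) := p2
  rw [p2']
  simp only [intervalIntegral.integral_const_mul, iθ]
  rw [intervalIntegral.integral_sub hcr (Continuous.intervalIntegrable (by fun_prop) _ _),
    intervalIntegral.integral_sub (Continuous.intervalIntegrable (by fun_prop) _ _)
      (Continuous.intervalIntegrable (by fun_prop) _ _)]
  have i4 : ∫ w in (0:ℝ)..1, κ * x w * w ^ (m + 2) =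
      θ - (1 / κ) * ∫ w in (0:ℝ)..1, κ * Sf m x w := by
    have : ∀ w, κ * x w * w ^ (m + 2) = κ * (w ^ (m + 1) * x w)
        - (1 / κ) * (κ * w ^ (m + 1) * x w * (κ * (1 - w))) := fun w => by
      simp only [hκ]; field_simp; ring
    rw [intervalIntegral.integral_congr fun w _ => this w,
      intervalIntegral.integral_sub (Continuous.intervalIntegrable (by fun_prop) _ _)
        (Continuous.intervalIntegrable (by fun_prop) _ _),
      intervalIntegral.integral_const_mul, intervalIntegral.integral_const_mul, p3, iθ]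
    simp only [hκ]
    field_simp
  rw [i4]
  simp only [integral_pow, WW, hκ, intervalIntegral.integral_const_mul]
  push_cast
  simp
  field_simp
  ring

end Vale.Agent.P254.Rev
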