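import Vale.Agent.P254.RevCore

/-!
Sign of the linearised functional, and the resulting one dimensional inequality.
-/

open MeasureTheory Set Filter Topology

namespace Vale.Agent.P254.Rev

variable {m : ℕ} {y : ℝ → ℝ}

/-- `K - θ + n (1 - w)`, times `(n+1)/n`. -/
noncomputable def KK (m : ℕ) (y : ℝ → ℝ) (w : ℝ) : ℝ :=
  ((m:ℝ) + 2) / (m + 1) * (Sf m (fun z => y z ^ m) w / w ^ (m + 1)
    + Tf m (fun z => y z ^ m) w - theta m y + ((m:ℝ) + 1) * (1 - w))

lemma Gint_eq {w : ℝ} (hw : 0 < w) :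
    Gint m y w = w ^ (m + 1) * (y w ^ m - 1) * KK m y w
      + m * w ^ (m + 2) * (1 / y w ^ 2 - 1) := by
  simp only [Gint, KK, div_pow]
  field_simp
  ring

lemma log_lower {t : ℝ} (ht : 1 ≤ t) : 2 * (t - 1) / (t + 1) ≤ Real.log t := by
  have := Real.le_log_one_add_of_nonneg (show 0 ≤ t - 1 by linarith)
  simpa [show t - 1 + 2 = t + 1 by ring] using this

lemma right_path {p w : ℝ} (hp : 0 < p) (hpw : p ≤ w) :
    2 * p + ((m:ℝ) + 2) * p ≤
      4 * p ^ 2 / (((w / p) ^ m + 1) * w) + ((m:ℝ) + 2) * w := by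
  set H : ℝ → ℝ := fun t => 4 * p ^ 2 / (((t / p) ^ m + 1) * t) + ((m:ℝ) + 2) * t with hH
  have hd : ∀ t, 0 < t → HasDerivAt H
      (-(4 * p ^ 2 * (1 + (t / p) ^ m + m * (t / p) ^ m) / (((t / p) ^ m + 1) ^ 2 * t ^ 2))
        + ((m:ℝ) + 2)) t := by
    intro t ht
    have := ((hasDerivAt_const t (4 * p ^ 2)).div
      (((((hasDerivAt_id t).div_const p).pow m).add_const 1).mul (hasDerivAt_id t))
      (by simp only [id, Pi.mul_apply, Pi.pow_apply]; positivity)).add ((hasDerivAt_id t).const_mul ((m:ℝ) + 2))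
    refine (this.congr_of_eventuallyEq (EventuallyEq.of_eq ?_)).congr_deriv ?_
    · funext z; simp [hH]
    · simp only [id, Pi.mul_apply, Pi.pow_apply]
      rcases Nat.eq_zero_or_pos m with rfl | hm
      · simp; field_simp
      · obtain ⟨j, rfl⟩ := Nat.exists_eq_add_of_le hm
        simp only [show 1 + j - 1 = j by omega, pow_add (t / p), pow_one]
        field_simp
        ring
  have hmono : MonotoneOn H (Icc p w) := by
    refine monotoneOn_of_hasDerivWithinAt_nonneg (convex_Icc p w)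
      (fun t ht => (hd t (hp.trans_le ht.1)).continuousAt.continuousWithinAt)
      (fun t ht => (hd t ?_).hasDerivWithinAt) (fun t ht => ?_) <;> rw [interior_Icc] at ht
    · exact hp.trans ht.1
    · have ht0 := hp.trans ht.1
      have hX : 1 ≤ (t / p) ^ m := one_le_pow₀ ((one_le_div hp).2 ht.1.le)
      generalize (t / p) ^ m = X at hX ⊢
      have h4 : 4 * p ^ 2 * (1 + X + m * X) ≤ ((m:ℝ) + 2) * ((X + 1) ^ 2 * t ^ 2) := by
        have h1 : 4 * (1 + X + m * X) ≤ ((m:ℝ) + 2) * (X + 1) ^ 2 := by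
          nlinarith [mul_nonneg (m.cast_nonneg : (0:ℝ) ≤ m) (sq_nonneg (X - 1)),
            mul_nonneg (show 0 ≤ 1 + X by linarith) (show 0 ≤ X - 1 by linarith)]
        have h2 : p ^ 2 ≤ t ^ 2 := pow_le_pow_left₀ hp.le ht.1.le 2
        have h3 := mul_le_mul h1 h2 (sq_nonneg p) (by positivity)
        linarith
      have := (div_le_iff₀ (show 0 < (X + 1) ^ 2 * t ^ 2 by positivity)).2 h4
      linarith
  have := hmono ⟨le_rfl, hpw⟩ ⟨hpw, le_rfl⟩ hpw
  simp only [hH, div_self hp.ne', one_pow] at this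
  refine le_trans (le_of_eq ?_) this
  field_simp
  ring

lemma left_path (hm : 1 ≤ m) {p w : ℝ} (hw : 0 < w) (hwp : w ≤ p) :
    w * Phi m (1/6) (w / p) + ((m:ℝ) + 2) * w
      + ((m:ℝ) + 2) ^ 2 / (2 * (m + 1) ^ 2) * (w ^ (m + 1) / p ^ m)
    ≤ p * (13 / 6) + ((m:ℝ) + 2) * p + ((m:ℝ) + 2) ^ 2 / (2 * (m + 1) ^ 2) * p := by
  have hp : 0 < p := hw.trans_le hwp
  set E : ℝ → ℝ := fun t => t * Phi m (1/6) (t / p) + ((m:ℝ) + 2) * t
      + ((m:ℝ) + 2) ^ 2 / (2 * (m + 1) ^ 2) * (t ^ (m + 1) / p ^ m) with hE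
  have hd : ∀ t, 0 < t → HasDerivAt E
      (Phi m (1/6) (t / p) - ((m:ℝ) + 4) - m * cB m * (t / p) ^ m + ((m:ℝ) + 2)
        + ((m:ℝ) + 2) ^ 2 / (2 * (m + 1)) * (t / p) ^ m) t := by
    intro t ht
    have h1 := (hasDerivAt_id t).div_const p
    have := (((hasDerivAt_id t).mul (((((Real.hasDerivAt_log (show id t / p ≠ 0 by
        simp only [id]; positivity)).comp t h1).const_mul ((m:ℝ) + 4)).const_sub (2 + 1/6)).add
      (((h1.pow m).const_sub 1).const_mul (cB m)))).add ((hasDerivAt_id t).const_mul ((m:ℝ) + 2))).add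
      (((hasDerivAt_pow (m + 1) t).div_const (p ^ m)).const_mul
        (((m:ℝ) + 2) ^ 2 / (2 * (m + 1) ^ 2)))
    refine (this.congr_of_eventuallyEq (EventuallyEq.of_eq ?_)).congr_deriv ?_
    · funext z; simp [hE, Phi]
    · obtain ⟨j, rfl⟩ := Nat.exists_eq_add_of_le hm
      simp only [Phi, id, Function.comp_def, Pi.add_apply, Pi.pow_apply,
        show 1 + j - 1 = j by omega, show 1 + j + 1 - 1 = 1 + j by omega, div_pow, pow_add, pow_one]
      push_cast
      field_simp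
      ring
  have hmono : MonotoneOn E (Icc w p) := by
    refine monotoneOn_of_hasDerivWithinAt_nonneg (convex_Icc w p)
      (fun t ht => (hd t (hw.trans_le ht.1)).continuousAt.continuousWithinAt)
      (fun t ht => (hd t ?_).hasDerivWithinAt) (fun t ht => ?_) <;> rw [interior_Icc] at ht
    · exact hw.trans ht.1
    · have ht0 := hw.trans ht.1
      have hle : t / p ≤ 1 := (div_le_one hp).2 ht.2.le
      have h0 : 0 < t / p := by positivity
      have hB := cB_nonneg (m := m)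
      have e : (m:ℝ) * cB m = ((m:ℝ) + 2) ^ 2 / (2 * (m + 1)) := by
        have : (m:ℝ) ≠ 0 := by exact_mod_cast (by omega : m ≠ 0)
        unfold cB; field_simp
      rw [e]
      have hl := Real.log_nonpos h0.le hle
      have hx : (t / p) ^ m ≤ 1 := pow_le_one₀ h0.le hle
      simp only [Phi]
      nlinarith [mul_nonneg hB (show 0 ≤ 1 - (t / p) ^ m by linarith),
        mul_nonpos_of_nonneg_of_nonpos (show (0:ℝ) ≤ (m:ℝ) + 4 by positivity) hl]
  have := hmono ⟨le_rfl, hwp⟩ ⟨hwp, le_rfl⟩ hwp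
  simp only [hE, div_self hp.ne', show p ^ (m + 1) / p ^ m = p by rw [pow_succ, mul_div_cancel_left₀ _ (by positivity)]] at this
  refine this.trans (le_of_eq ?_)
  simp only [Phi, Real.log_one, one_pow]
  ring

section normalised
variable {p : ℝ} (hm : 1 ≤ m) (hy : Good y) (hp : 0 < p) (hp1 : p ≤ 1) (hyp : y p = 1)
  (hK : KK m y p = 13 / 6 * p)
include hm hy hp hp1 hyp hK

lemma left_bound {w : ℝ} (hw : 0 < w) (hwp : w ≤ p) :
    Gint m y w ≤ w ^ (m + 2) * hh m (y w)
      - (1 / 6 - dm m) * (w ^ (m + 2) * (1 - y w ^ m)) := by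
  have hw1 := hwp.trans hp1
  have hyw : 0 < y w := hy.pos w hw hw1
  have hyw1 : y w ≤ 1 := hyp ▸ hy.mono ⟨hw.le, hw1⟩ ⟨hp.le, hp1⟩ hwp
  have hge : w / p ≤ y w := by
    rw [div_le_iff₀ hp]
    have := hy.ratio w p hw hwp hp1
    rw [hyp, one_mul] at this
    linarith
  have hs := K_slope (m := m) hy hw hwp hp1
  have hI : (p ^ (m + 1) - w ^ (m + 1)) / ((m + 1) * p ^ m) ≤ ∫ z in w..p, y z ^ m := by
    have hc := hy.contx (m := m)
    have := intervalIntegral.integral_mono_on hwp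
      (show IntervalIntegrable (fun z => z ^ m * (1 / p ^ m)) volume w p from
        Continuous.intervalIntegrable (by fun_prop) _ _)
      (hc.intervalIntegrable _ _) (fun z hz => ?_)
    · rw [intervalIntegral.integral_mul_const, integral_pow] at this
      refine le_trans (le_of_eq ?_) this
      field_simp
    · have := hy.x_ratio (m := m) (hw.trans_le hz.1) hz.2 hp1
      rw [hyp, one_pow, one_mul] at this
      rw [mul_one_div, div_le_iff₀ (by positivity)]
      exact this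
  have hKw : w * Phi m (1/6) (w / p) ≤ KK m y w := by
    have h1 := left_path hm hw hwp
    unfold KK at hK ⊢
    have h2 := mul_le_mul_of_nonneg_left hs (show (0:ℝ) ≤ ((m:ℝ) + 2) / (m + 1) by positivity)
    have h3 := mul_le_mul_of_nonneg_left hI
      (show (0:ℝ) ≤ ((m:ℝ) + 2) / (m + 1) * (((m:ℝ) + 2) / 2) by positivity)
    have e1 : ((m:ℝ) + 2) / (m + 1) * (((m:ℝ) + 2) / 2) *
        ((p ^ (m + 1) - w ^ (m + 1)) / ((m + 1) * p ^ m)) =
        ((m:ℝ) + 2) ^ 2 / (2 * (m + 1) ^ 2) * p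
          - ((m:ℝ) + 2) ^ 2 / (2 * (m + 1) ^ 2) * (w ^ (m + 1) / p ^ m) := by
      field_simp; ring
    have e2 : ∀ t : ℝ, ((m:ℝ) + 2) / (m + 1) * (((m:ℝ) + 1) * (1 - t)) =
        ((m:ℝ) + 2) - ((m:ℝ) + 2) * t := fun t => by field_simp
    have := e2 w
    have := e2 p
    nlinarith
  have hPhi : Phi m (1/6) (y w) ≤ Phi m (1/6) (w / p) := by
    have h0 : 0 < w / p := by positivity
    have hl := Real.log_le_log h0 hge
    have hx := pow_le_pow_left₀ h0.le hge m
    have hB := cB_nonneg (m := m)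
    simp only [Phi]
    nlinarith [mul_nonneg hB (show 0 ≤ y w ^ m - (w / p) ^ m by linarith)]
  have hKw' : w * Phi m (1/6) (y w) ≤ KK m y w :=
    (mul_le_mul_of_nonneg_left hPhi hw.le).trans hKw
  have hx1 : y w ^ m ≤ 1 := pow_le_one₀ hyw.le hyw1
  rw [Gint_eq hw]
  have := mul_le_mul_of_nonneg_left hKw'
    (mul_nonneg (pow_nonneg hw.le (m + 1)) (show 0 ≤ 1 - y w ^ m by linarith))
  simp only [hh, Phi, pow_succ w (m + 1)] at this ⊢
  nlinarith

lemma right_bound {w : ℝ} (hpw : p ≤ w) (hw1 : w ≤ 1) :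
    Gint m y w ≤ w ^ (m + 1) * (y w ^ m - 1) *
      (p / 6 - ((m:ℝ) + 2) ^ 2 / (2 * (m + 1)) * (w - p)) := by
  have hw : 0 < w := hp.trans_le hpw
  have hyw : 0 < y w := hy.pos w hw hw1
  have hyw1 : 1 ≤ y w := hyp ▸ hy.mono ⟨hp.le, hp1⟩ ⟨hw.le, hw1⟩ hpw
  have hx1 : 1 ≤ y w ^ m := one_le_pow₀ hyw1
  have hyub : y w ≤ w / p := by
    rw [le_div_iff₀ hp]
    have := hy.ratio p w hp hpw hw1
    rw [hyp, one_mul] at this
    exact this
  have hI : w - p ≤ ∫ z in p..w, y z ^ m := by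
    have := intervalIntegral.integral_mono_on hpw
      (intervalIntegrable_const (c := (1:ℝ)) (μ := volume))
      ((hy.contx (m := m)).intervalIntegrable _ _)
      (fun z hz => one_le_pow₀ (hyp ▸ hy.mono ⟨hp.le, hp1⟩
        ⟨(hp.trans_le hz.1).le, hz.2.trans hw1⟩ hz.1))
    simpa using this
  have hs := K_slope (m := m) hy hp hpw hw1
  have hKw : KK m y w ≤ 13 / 6 * p - ((m:ℝ) + 2) ^ 2 / (2 * (m + 1)) * (w - p)
      - ((m:ℝ) + 2) * (w - p) := by
    unfold KK at hK ⊢
    have h2 := mul_le_mul_of_nonneg_left hs (show (0:ℝ) ≤ ((m:ℝ) + 2) / (m + 1) by positivity)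
    have h3 := mul_le_mul_of_nonneg_left hI
      (show (0:ℝ) ≤ ((m:ℝ) + 2) ^ 2 / (2 * (m + 1)) by positivity)
    have e1 : ((m:ℝ) + 2) / (m + 1) * (((m:ℝ) + 2) / 2 * ∫ z in p..w, y z ^ m) =
        ((m:ℝ) + 2) ^ 2 / (2 * (m + 1)) * ∫ z in p..w, y z ^ m := by field_simp
    have e2 : ∀ t : ℝ, ((m:ℝ) + 2) / (m + 1) * (((m:ℝ) + 1) * (1 - t)) =
        ((m:ℝ) + 2) - ((m:ℝ) + 2) * t := fun t => by field_simp
    have := e2 w
    have := e2 p
    nlinarith
  have hpath := right_path (m := m) hp hpw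
  have hM : 4 * p ^ 2 / (((w / p) ^ m + 1) * w) ≤ w * (4 / ((y w ^ m + 1) * y w ^ 2)) := by
    have e : 4 * p ^ 2 / (((w / p) ^ m + 1) * w) = w * (4 / (((w / p) ^ m + 1) * (w / p) ^ 2)) := by
      simp only [div_pow w p 2]; field_simp
    rw [e]
    refine mul_le_mul_of_nonneg_left ?_ hw.le
    apply div_le_div_of_nonneg_left (by norm_num) (by positivity)
    gcongr
  have hF : (m:ℝ) * (1 / y w ^ 2 - 1) ≤ -((y w ^ m - 1) * (4 / ((y w ^ m + 1) * y w ^ 2))) := by
    have h1 := log_lower hx1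
    rw [Real.log_pow] at h1
    have h2 : 2 * Real.log (y w) ≤ y w ^ 2 - 1 := by
      have := Real.log_le_sub_one_of_pos (show 0 < y w ^ 2 by positivity)
      rw [Real.log_pow] at this
      push_cast at this
      exact this
    have h3 : 4 * (y w ^ m - 1) / (y w ^ m + 1) ≤ m * (y w ^ 2 - 1) := by
      have := mul_le_mul_of_nonneg_left h2 (m.cast_nonneg : (0:ℝ) ≤ m)
      have e : 4 * (y w ^ m - 1) / (y w ^ m + 1) = 2 * (2 * (y w ^ m - 1) / (y w ^ m + 1)) := by ring
      rw [e]; linarith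
    have h4 := div_le_div_of_nonneg_right h3 (show 0 ≤ y w ^ 2 by positivity)
    have e1 : (m:ℝ) * (1 / y w ^ 2 - 1) = -(m * (y w ^ 2 - 1) / y w ^ 2) := by field_simp; ring
    have e2 : (y w ^ m - 1) * (4 / ((y w ^ m + 1) * y w ^ 2)) =
        4 * (y w ^ m - 1) / (y w ^ m + 1) / y w ^ 2 := by field_simp
    linarith
  rw [Gint_eq hw]
  have h5 := mul_le_mul_of_nonneg_left hF (pow_nonneg hw.le (m + 2))
  have h6 := mul_le_mul_of_nonneg_left
    (show KK m y w - w * (4 / ((y w ^ m + 1) * y w ^ 2)) ≤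
      p / 6 - ((m:ℝ) + 2) ^ 2 / (2 * (m + 1)) * (w - p) by linarith)
    (mul_nonneg (pow_nonneg hw.le (m + 1)) (show 0 ≤ y w ^ m - 1 by linarith))
  simp only [pow_succ w (m + 1)] at h5 ⊢
  nlinarith

end normalised

lemma intI_hh {ε p : ℝ} (hy : Good y) (hε : 0 < ε) (hεp : ε ≤ p) (hp1 : p ≤ 1) :
    IntervalIntegrable (fun z => z ^ (m + 2) * hh m (y z)) volume ε p := by
  refine ContinuousOn.intervalIntegrable ?_
  rw [uIcc_of_le hεp]
  have hy0 : ∀ z ∈ Icc ε p, 0 < y z := fun z hz =>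
    hy.pos z (hε.trans_le hz.1) (hz.2.trans hp1)
  have cl : ContinuousOn (fun z => Real.log (y z)) (Icc ε p) :=
    hy.cont.continuousOn.log fun z hz => (hy0 z hz).ne'
  have cy := hy.cont.continuousOn (s := Icc ε p)
  unfold hh Phi
  exact (continuous_pow _).continuousOn.mul ((continuousOn_const.mul
    ((continuousOn_const.div (cy.pow 2) fun z hz => pow_ne_zero _ (hy0 z hz).ne').sub
      continuousOn_const)).sub ((continuousOn_const.sub (cy.pow m)).mul
      ((continuousOn_const.sub (continuousOn_const.mul cl)).add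
        (continuousOn_const.mul (continuousOn_const.sub (cy.pow m))))))

/-- The potential argument. -/
lemma left_potential (hm : 1 ≤ m) (hy : Good y) {ε p : ℝ} (hε : 0 < ε) (hεp : ε ≤ p)
    (hp1 : p ≤ 1) (hyp : y p = 1) :
    ∫ z in ε..p, z ^ (m + 2) * hh m (y z) ≤ 0 := by
  set g : ℝ → ℝ := fun z => z ^ (m + 2) * hh m (y z) with hg
  set M : ℝ → ℝ := fun t => ((m:ℝ) + 3) * (∫ z in ε..t, g z) - t ^ (m + 3) * ZZ m (y t) with hM
  have hy01 : ∀ z ∈ Icc ε p, 0 < y z ∧ y z ≤ 1 := fun z hz =>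
    ⟨hy.pos z (hε.trans_le hz.1) (hz.2.trans hp1),
     hyp ▸ hy.mono ⟨(hε.trans_le hz.1).le, hz.2.trans hp1⟩ ⟨(hε.trans_le hεp).le, hp1⟩ hz.2⟩
  have hgc : ∀ z, 0 < z → z ≤ 1 → ContinuousAt g z := by
    intro z hz hz1
    have hz0 := hy.pos z hz hz1
    exact (continuous_pow _).continuousAt.mul
      ((hasDerivAt_hh hm hz0).continuousAt.comp hy.cont.continuousAt)
  have hgi : IntervalIntegrable g volume ε p := intI_hh hy hε hεp hp1
  have hMc : ContinuousOn M (Icc ε p) := by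
    refine ContinuousOn.sub (continuousOn_const.mul ?_) ((continuous_pow _).continuousOn.mul ?_)
    · have := intervalIntegral.continuousOn_primitive_interval' hgi left_mem_uIcc
      rwa [uIcc_of_le hεp] at this
    · exact fun t ht => ((hasDerivAt_ZZ hm (hy01 t ht).1).continuousAt.comp
        hy.cont.continuousAt).continuousWithinAt
  have hle := image_le_of_liminf_slope_right_le_deriv_boundary hMc (B := fun _ => (0:ℝ))
    (B' := fun _ => (0:ℝ)) ?_ continuousOn_const
    (fun _ _ => hasDerivWithinAt_const _ _ _) ?_ (x := p) ⟨hεp, le_rfl⟩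
  · simp only [hM, hyp, ZZ_one, mul_zero, sub_zero] at hle
    exact nonpos_of_mul_nonpos_right hle (by positivity)
  · simp only [hM, intervalIntegral.integral_same, mul_zero, zero_sub, neg_nonpos]
    exact mul_nonneg (pow_nonneg hε.le _)
      (ZZ_nonneg hm (hy01 ε ⟨le_rfl, hεp⟩).1 (hy01 ε ⟨le_rfl, hεp⟩).2)
  · intro u hu r hr
    have hu0 : 0 < u := hε.trans_le hu.1
    have hu' : u ∈ Icc ε p := ⟨hu.1, hu.2.le⟩
    obtain ⟨hyu, hyu1⟩ := hy01 u hu'
    refine Eventually.frequently ?_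
    set a := y u / u with ha
    have hau : a * u = y u := by rw [ha]; field_simp
    rcases hyu1.eq_or_lt with he | hlt
    · -- `y = 1` from `u` on
      filter_upwards [Ioo_mem_nhdsGT hu.2] with t ht
      have h1 : ∀ z ∈ Icc u p, y z = 1 := fun z hz =>
        le_antisymm (hy01 z ⟨hu.1.trans hz.1, hz.2⟩).2
          (he ▸ hy.mono ⟨hu0.le, hu.2.le.trans hp1⟩
            ⟨(hu0.trans_le hz.1).le, hz.2.trans hp1⟩ hz.1)
      have e : ∫ z in ε..t, g z = ∫ z in ε..u, g z := by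
        rw [← intervalIntegral.integral_add_adjacent_intervals (b := u)
          (hgi.mono_set (by rw [uIcc_of_le hu.1, uIcc_of_le hεp]; exact Icc_subset_Icc le_rfl hu.2.le))
          (hgi.mono_set (by
            rw [uIcc_of_le ht.1.le, uIcc_of_le hεp]; exact Icc_subset_Icc hu.1 ht.2.le))]
        rw [intervalIntegral.integral_congr (g := fun _ => (0:ℝ)) (a := u) (b := t) fun z hz => ?_]
        · simp
        · rw [uIcc_of_le ht.1.le] at hz
          simp [hg, h1 z ⟨hz.1, hz.2.trans ht.2.le⟩, hh_one]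
      have : M t = M u := by
        simp only [hM, e, h1 t ⟨ht.1.le, ht.2.le⟩, he, ZZ_one, mul_zero]
      rw [slope_def_field, this, sub_self, zero_div]
      exact hr
    · set P : ℝ → ℝ := fun t => ((m:ℝ) + 3) * (∫ z in ε..t, g z) - t ^ (m + 3) * ZZ m (a * t) with hP
      have hz0 : 0 < a * u := by rw [hau]; exact hyu
      have hPd : HasDerivAt P 0 u := by
        have hI : HasDerivAt (fun t => ∫ z in ε..t, g z) (g u) u := by
          refine intervalIntegral.integral_hasDerivAt_right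
            (hgi.mono_set (by rw [uIcc_of_le hu.1, uIcc_of_le hεp]; exact Icc_subset_Icc le_rfl hu.2.le))
            ?_ (hgc u hu0 (hu.2.le.trans hp1))
          refine ⟨Ioo 0 p, Ioo_mem_nhds hu0 hu.2, ?_⟩
          exact ContinuousOn.aestronglyMeasurable
            (fun z hz => (hgc z hz.1 (hz.2.le.trans hp1)).continuousWithinAt) measurableSet_Ioo
        have hZ := (hasDerivAt_ZZ hm hz0).comp u ((hasDerivAt_id u).const_mul a)
        have := (hI.const_mul ((m:ℝ) + 3)).sub ((hasDerivAt_pow (m + 3) u).mul hZ)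
        refine (this.congr_of_eventuallyEq (EventuallyEq.of_eq ?_)).congr_deriv ?_
        · funext t; simp [hP, Function.comp_def]
        · simp only [Function.comp_def, hau, show m + 3 - 1 = m + 2 by omega, hg,
            pow_succ u (m + 2)]
          push_cast
          rw [ha]
          field_simp
          ring
      have hMP : M u = P u := by simp [hM, hP, hau]
      have hsl := (hasDerivAt_iff_tendsto_slope.1 hPd).mono_left
        (nhdsWithin_mono u (fun t (ht : u < t) => ne_of_gt ht))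
      have hat : ∀ᶠ t in 𝓝[>] u, a * t < 1 := by
        have : ContinuousAt (fun t => a * t) u := by fun_prop
        exact (this.eventually_lt continuousAt_const (by rw [hau]; exact hlt)).filter_mono
          nhdsWithin_le_nhds
      filter_upwards [Ioo_mem_nhdsGT hu.2, hat, hsl.eventually_lt_const hr] with t ht hat hs
      refine lt_of_le_of_lt ?_ hs
      have ht0 : 0 < t := hu0.trans ht.1
      have htI : t ∈ Icc ε p := ⟨hu.1.trans ht.1.le, ht.2.le⟩
      have hya : y t ≤ a * t := by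
        rw [ha, div_mul_eq_mul_div, le_div_iff₀ hu0]
        exact hy.ratio u t hu0 ht.1.le (ht.2.le.trans hp1)
      have hz : ZZ m (a * t) ≤ ZZ m (y t) :=
        ZZ_antitone hm ⟨(hy01 t htI).1, (hy01 t htI).2⟩
          ⟨(hy01 t htI).1.trans_le hya, hat.le⟩ hya
      have : M t ≤ P t := by
        simp only [hM, hP]
        linarith [mul_le_mul_of_nonneg_left hz (pow_nonneg ht0.le (m + 3))]
      rw [slope_def_field, slope_def_field, hMP]
      exact div_le_div_of_nonneg_right (by linarith) (by linarith [ht.1])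

section normalised
variable {p : ℝ} (hm : 1 ≤ m) (hy : Good y) (hp : 0 < p) (hp1 : p < 1) (hyp : y p = 1)
  (hK : KK m y p = 13 / 6 * p) (hcp : 4 / 3 * p * (1 - p ^ (m + 1)) ≤ ((m:ℝ) + 1) * (1 - p))
include hm hy hp hp1 hyp hK

lemma left_int :
    ∫ w in (0:ℝ)..p, Gint m y w ≤
      -(1 / 6 - dm m) * ∫ w in (0:ℝ)..p, w ^ (m + 2) * (1 - y w ^ m) := by
  have hG := intI_Gint (m := m) hy le_rfl hp1.le hp.le
  have cy := hy.cont
  have hI : ∀ ε, 0 < ε → ε ≤ p →
      (∫ w in ε..p, Gint m y w) + (1 / 6 - dm m) * ∫ w in ε..p, w ^ (m + 2) * (1 - y w ^ m) ≤ 0 := by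
    intro ε hε hεp
    have i1 := intI_Gint (m := m) hy hε.le hp1.le hεp
    have i2 : IntervalIntegrable (fun w => (1 / 6 - dm m) * (w ^ (m + 2) * (1 - y w ^ m)))
        volume ε p := Continuous.intervalIntegrable (by fun_prop) _ _
    rw [← intervalIntegral.integral_const_mul, ← intervalIntegral.integral_add i1 i2]
    refine le_trans (intervalIntegral.integral_mono_on hεp (i1.add i2)
      (intI_hh hy hε hεp hp1.le) fun w hw => ?_) (left_potential hm hy hε hεp hp1.le hyp)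
    have := left_bound hm hy hp hp1.le hyp hK (hε.trans_le hw.1) hw.2
    linarith
  have hc : ContinuousOn (fun ε => (∫ w in ε..p, Gint m y w)
      + (1 / 6 - dm m) * ∫ w in ε..p, w ^ (m + 2) * (1 - y w ^ m)) (Icc 0 p) := by
    refine ContinuousOn.add ?_ (continuousOn_const.mul ?_)
    · have := intervalIntegral.continuousOn_primitive_interval_left
        (show IntegrableOn (Gint m y) (uIcc 0 p) volume by
          rw [uIcc_of_le hp.le]
          exact (intervalIntegrable_iff_integrableOn_Icc_of_le hp.le).1 hG)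
      rwa [uIcc_of_le hp.le] at this
    · have hf : Continuous fun w : ℝ => w ^ (m + 2) * (1 - y w ^ m) := by fun_prop
      exact (continuous_iff_continuousAt.2 fun e => (intervalIntegral.integral_hasDerivAt_left
        (hf.intervalIntegrable e p) (hf.stronglyMeasurableAtFilter _ _)
        hf.continuousAt).continuousAt).continuousOn
  have : (𝓝[Ioc 0 p] (0:ℝ)).NeBot := mem_closure_iff_nhdsWithin_neBot.1
    (by rw [closure_Ioc hp.ne]; exact ⟨le_rfl, hp.le⟩)
  have := isClosed_Iic.mem_of_tendsto (s := Iic (0:ℝ))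
    ((hc 0 ⟨le_rfl, hp.le⟩).mono_left (nhdsWithin_mono 0 (Ioc_subset_Icc_self (a := (0:ℝ)) (b := p))))
    (by filter_upwards [self_mem_nhdsWithin] with ε hε using hI ε hε.1 hε.2)
  simp only [mem_Iic] at this
  linarith

include hcp

omit hy hyp hK in
lemma A_int_neg :
    ∫ w in p..1, w ^ m * (p / 6 - ((m:ℝ) + 2) ^ 2 / (2 * (m + 1)) * (w - p)) < 0 := by
  have e : (fun w : ℝ => w ^ m * (p / 6 - ((m:ℝ) + 2) ^ 2 / (2 * (m + 1)) * (w - p))) =
      fun w => (p / 6 + ((m:ℝ) + 2) ^ 2 / (2 * (m + 1)) * p) * w ^ m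
        - ((m:ℝ) + 2) ^ 2 / (2 * (m + 1)) * w ^ (m + 1) := by funext w; ring
  rw [e, intervalIntegral.integral_sub (Continuous.intervalIntegrable (by fun_prop) _ _)
    (Continuous.intervalIntegrable (by fun_prop) _ _), intervalIntegral.integral_const_mul,
    intervalIntegral.integral_const_mul, integral_pow, integral_pow]
  push_cast
  simp only [one_pow, pow_succ p (m + 1)]
  have hP : p ^ (m + 1) < 1 := pow_lt_one₀ hp.le hp1 (by omega)
  generalize p ^ (m + 1) = P at hP hcp ⊢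
  rw [show (m:ℝ) + 1 + 1 = (m:ℝ) + 2 by ring, sub_neg]
  have hmn : (0:ℝ) ≤ m := m.cast_nonneg
  field_simp
  nlinarith [mul_pos (show (0:ℝ) < (m:ℝ) + 2 by positivity) (sub_pos.2 hp1),
    mul_le_mul_of_nonneg_left hcp hmn, mul_nonneg hp.le (sub_pos.2 hP).le]

lemma right_int : ∫ w in p..1, Gint m y w ≤ 0 ∧
    (0 ≤ ∫ w in p..1, Gint m y w → ∀ w ∈ Icc p 1, y w = 1) := by
  set K : ℝ := ((m:ℝ) + 2) ^ 2 / (2 * (m + 1)) with hKdef
  have hK0 : 0 < K := by positivity
  set A : ℝ → ℝ := fun w => p / 6 - K * (w - p) with hA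
  set c : ℝ := min 1 (p + p / 6 / K) with hc
  have hpc : p ≤ c := le_min hp1.le (le_add_of_nonneg_right (by positivity))
  have hc1 : c ≤ 1 := min_le_left _ _
  have hAc : ∀ w ∈ Icc p 1, (w ≤ c → 0 ≤ A w) ∧ (c < w → A w < 0) := by
    intro w hw
    constructor <;> intro h
    · have : w ≤ p + p / 6 / K := h.trans (min_le_right _ _)
      have := mul_le_mul_of_nonneg_left this hK0.le
      have e : K * (p + p / 6 / K) = K * p + p / 6 := by field_simp
      simp only [hA]; linarith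
    · have : p + p / 6 / K < w := by
        rcases min_choice 1 (p + p / 6 / K) with h' | h'
        · rw [hc, h'] at h; linarith [hw.2]
        · rwa [hc, h'] at h
      have := mul_lt_mul_of_pos_left this hK0
      have e : K * (p + p / 6 / K) = K * p + p / 6 := by field_simp
      simp only [hA]; linarith
  set g : ℝ → ℝ := fun w => w * (y w ^ m - 1) with hg
  have hx1 : ∀ w ∈ Icc p 1, 1 ≤ y w ^ m := fun w hw =>
    one_le_pow₀ (hyp ▸ hy.mono ⟨hp.le, hp1.le⟩ ⟨(hp.trans_le hw.1).le, hw.2⟩ hw.1)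
  have hgm : ∀ u ∈ Icc p 1, ∀ w ∈ Icc p 1, u ≤ w → g u ≤ g w := fun u hu w hw huw =>
    mul_le_mul huw (sub_le_sub_right (pow_le_pow_left₀ (hy.pos u (hp.trans_le hu.1) hu.2).le
      (hy.mono ⟨(hp.trans_le hu.1).le, hu.2⟩ ⟨(hp.trans_le hw.1).le, hw.2⟩ huw) m) _)
      (by linarith [hx1 u hu]) (hp.trans_le hw.1).le
  have hpt : ∀ w ∈ Icc p 1, Gint m y w ≤ g c * (w ^ m * A w) := by
    intro w hw
    refine (right_bound hm hy hp hp1.le hyp hK hw.1 hw.2).trans ?_
    have hwm : (0:ℝ) ≤ w ^ m := pow_nonneg (hp.trans_le hw.1).le _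
    have e : w ^ (m + 1) * (y w ^ m - 1) * A w = g w * (w ^ m * A w) := by simp only [hg]; ring
    show w ^ (m + 1) * (y w ^ m - 1) * A w ≤ _
    rw [e]
    rcases le_or_gt w c with h | h
    · exact mul_le_mul_of_nonneg_right (hgm w hw c ⟨hpc, hc1⟩ h)
        (mul_nonneg hwm ((hAc w hw).1 h))
    · exact mul_le_mul_of_nonpos_right (hgm c ⟨hpc, hc1⟩ w hw h.le)
        (mul_nonpos_of_nonneg_of_nonpos hwm ((hAc w hw).2 h).le)
  have hG := intI_Gint (m := m) hy hp.le le_rfl hp1.le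
  have hAn : ∫ w in p..1, w ^ m * A w < 0 := A_int_neg hm hp hp1 hcp
  have hub : ∫ w in p..1, Gint m y w ≤ g c * ∫ w in p..1, w ^ m * A w := by
    rw [← intervalIntegral.integral_const_mul]
    exact intervalIntegral.integral_mono_on hp1.le hG
      (Continuous.intervalIntegrable (by fun_prop) _ _) hpt
  have hgc : 0 ≤ g c := mul_nonneg (hp.trans_le hpc).le (by linarith [hx1 c ⟨hpc, hc1⟩])
  refine ⟨hub.trans (mul_nonpos_of_nonneg_of_nonpos hgc hAn.le), fun h0 => ?_⟩
  have hgc0 : g c = 0 := by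
    by_contra hne
    have := mul_neg_of_pos_of_neg (lt_of_le_of_ne hgc (Ne.symm hne)) hAn
    linarith
  have hyc : y c ^ m = 1 := by
    rcases mul_eq_zero.1 hgc0 with h | h
    · linarith
    · linarith
  have hone : ∀ w ∈ Icc p c, y w = 1 := by
    intro w hw
    have h1 : y c = 1 := (pow_eq_one_iff_of_nonneg (hy.pos c (hp.trans_le hpc) hc1).le
      (by omega)).1 hyc
    exact le_antisymm (h1 ▸ hy.mono ⟨(hp.trans_le hw.1).le, hw.2.trans hc1⟩
        ⟨(hp.trans_le hpc).le, hc1⟩ hw.2)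
      (hyp ▸ hy.mono ⟨hp.le, hp1.le⟩ ⟨(hp.trans_le hw.1).le, hw.2.trans hc1⟩ hw.1)
  intro w hw
  rcases le_or_gt w c with h | h
  · exact hone w ⟨hw.1, h⟩
  by_contra hne
  have hy1 : 1 < y w ^ m := by
    refine lt_of_le_of_ne (hx1 w hw) fun he => hne ?_
    exact (pow_eq_one_iff_of_nonneg (hy.pos w (hp.trans_le hw.1) hw.2).le (by omega)).1 he.symm
  set f : ℝ → ℝ := fun z => -(z ^ (m + 1) * (y z ^ m - 1) * A z) with hf
  have cy := hy.cont
  have hfc : Continuous f := by simp only [hf, hA]; fun_prop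
  have hfnn : ∀ z ∈ Icc p 1, 0 ≤ f z := by
    intro z hz
    rcases le_or_gt z c with h' | h'
    · simp [hf, hone z ⟨hz.1, h'⟩]
    · have := mul_nonpos_of_nonneg_of_nonpos
        (mul_nonneg (pow_nonneg (hp.trans_le hz.1).le (m + 1)) (sub_nonneg.2 (hx1 z hz)))
        ((hAc z hz).2 h').le
      simp only [hf]; linarith
  have hfw : 0 < f w := by
    have := mul_neg_of_pos_of_neg
      (mul_pos (pow_pos (hp.trans_le hw.1) (m + 1)) (sub_pos.2 hy1)) ((hAc w hw).2 h)
    simp only [hf]; linarith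
  have hpos := intervalIntegral.integral_pos hp1 hfc.continuousOn
    (fun z hz => hfnn z ⟨hz.1.le, hz.2⟩) ⟨w, hw, hfw⟩
  have : ∫ z in p..1, Gint m y z ≤ ∫ z in p..1, -f z := by
    refine intervalIntegral.integral_mono_on hp1.le hG (hfc.neg.intervalIntegrable _ _) fun z hz => ?_
    simp only [hf, neg_neg]
    exact right_bound hm hy hp hp1.le hyp hK hz.1 hz.2
  rw [intervalIntegral.integral_neg] at this
  linarith

/-- Normalised form of the inequality with its equality case. -/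
lemma phi_normalised :
    (QQ m y - theta m y ^ 2) - ((m:ℝ) + 1) / (m + 3)
        + m * (((m:ℝ) + 1) / (m + 3)) * (WW m y - 1) ≤ 0 ∧
    (0 ≤ (QQ m y - theta m y ^ 2) - ((m:ℝ) + 1) / (m + 3)
        + m * (((m:ℝ) + 1) / (m + 3)) * (WW m y - 1) → ∀ w ∈ Icc (0:ℝ) 1, y w = 1) := by
  have cy := hy.cont
  rw [← total hy, ← intervalIntegral.integral_add_adjacent_intervals
    (intI_Gint hy le_rfl hp1.le hp.le) (intI_Gint hy hp.le le_rfl hp1.le)]
  have hL := left_int hm hy hp hp1 hyp hK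
  obtain ⟨hR, hReq⟩ := right_int hm hy hp hp1 hyp hK hcp
  have hn : (0:ℝ) < (m:ℝ) + 1 := by positivity
  have he : 0 < 1 / 6 - dm m := sub_pos.2 dm_lt
  set f : ℝ → ℝ := fun w => w ^ (m + 2) * (1 - y w ^ m) with hf
  have hfc : Continuous f := by fun_prop
  have hy01 : ∀ w ∈ Ioc 0 p, 0 < y w ∧ y w ≤ 1 := fun w hw =>
    ⟨hy.pos w hw.1 (hw.2.trans hp1.le),
      hyp ▸ hy.mono ⟨hw.1.le, hw.2.trans hp1.le⟩ ⟨hp.le, hp1.le⟩ hw.2⟩
  have hfnn : ∀ w ∈ Ioc 0 p, 0 ≤ f w := fun w hw =>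
    mul_nonneg (pow_nonneg hw.1.le _) (sub_nonneg.2 (pow_le_one₀ (hy01 w hw).1.le (hy01 w hw).2))
  have hfI : 0 ≤ ∫ w in (0:ℝ)..p, f w := by
    refine intervalIntegral.integral_nonneg hp.le fun w hw => ?_
    rcases hw.1.eq_or_lt with rfl | h
    · simp [hf]
    · exact hfnn w ⟨h, hw.2⟩
  refine ⟨mul_nonpos_of_nonneg_of_nonpos hn.le (by nlinarith), fun h0 => ?_⟩
  have hs := nonneg_of_mul_nonneg_right h0 hn
  have hz : ∫ w in (0:ℝ)..p, f w = 0 := le_antisymm (by nlinarith) hfI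
  have hleft : ∀ w ∈ Ioc 0 p, y w = 1 := by
    intro w hw
    by_contra hne
    have : y w ^ m < 1 := pow_lt_one₀ (hy01 w hw).1.le
      (lt_of_le_of_ne (hy01 w hw).2 hne) (by omega)
    have := intervalIntegral.integral_pos hp hfc.continuousOn hfnn
      ⟨w, ⟨hw.1.le, hw.2⟩, mul_pos (pow_pos hw.1 _) (sub_pos.2 this)⟩
    linarith
  have hright := hReq (by nlinarith)
  have hall : EqOn y (fun _ => (1:ℝ)) (Ioc 0 1) := fun w hw => by
    rcases le_or_gt w p with h | h
    · exact hleft w ⟨hw.1, h⟩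
    · exact hright w ⟨h.le, hw.2⟩
  have := hall.closure hy.cont continuous_const
  rw [closure_Ioc (zero_ne_one' ℝ)] at this
  exact fun w hw => this hw

end normalised

end Vale.Agent.P254.Rev
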