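import Vale.Agent.P254.RevPhi

/-!
Transfer of the inequality to a decreasing concave profile on `[0,T]`.
-/

open MeasureTheory Set Filter Topology

namespace Vale.Agent.P254.Rev

/-- The sharp constant. -/
noncomputable def cPhi (m : ℕ) : ℝ :=
  ((m:ℝ) + 1) ^ (m + 3) / (((m:ℝ) + 2) ^ 2 * ((m:ℝ) + 3) ^ (m + 1))

variable {m : ℕ} {ψ : ℝ → ℝ} {T : ℝ}

/-- Tail mass. -/
noncomputable def tail (m : ℕ) (ψ : ℝ → ℝ) (T t : ℝ) : ℝ := ∫ s in t..T, ψ s ^ m

lemma tail_homothety (hψc : Continuous ψ) (hconc : ConcaveOn ℝ (Icc 0 T) ψ)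
    (hanti : AntitoneOn ψ (Icc 0 T)) (hpos : ∀ t ∈ Ico 0 T, 0 < ψ t) (hT : 0 ≤ ψ T)
    {t1 t2 : ℝ} (h0 : 0 ≤ t1) (h12 : t1 ≤ t2) (h2 : t2 < T) :
    tail m ψ T t2 * ψ t1 ^ (m + 1) ≤ tail m ψ T t1 * ψ t2 ^ (m + 1) := by
  have hf : Continuous fun t => ψ t ^ m := hψc.pow m
  have hnn : ∀ t ∈ Icc 0 T, 0 ≤ ψ t := fun t ht => by
    rcases ht.2.eq_or_lt with rfl | h
    · exact hT
    · exact (hpos t ⟨ht.1, h⟩).le
  have hsub : ∀ a b, 0 ≤ a → a ≤ b → b ≤ T → ∫ s in a..b, ψ s ^ m ≤ ∫ s in a..T, ψ s ^ m := by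
    intro a b ha hab hb
    rw [← intervalIntegral.integral_add_adjacent_intervals (a := a) (b := b) (c := T)
      (hf.intervalIntegrable _ _) (hf.intervalIntegrable _ _)]
    linarith [intervalIntegral.integral_nonneg (f := fun s => ψ s ^ m) (μ := volume) hb
      fun s hs => pow_nonneg (hnn s ⟨by linarith [hs.1], hs.2⟩) m]
  have m1 : t1 ∈ Icc 0 T := ⟨h0, by linarith⟩
  have m2 : t2 ∈ Icc 0 T := ⟨h0.trans h12, h2.le⟩
  have mT : T ∈ Icc 0 T := ⟨by linarith, le_rfl⟩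
  have p2 : 0 < ψ t2 := hpos t2 ⟨m2.1, h2⟩
  rcases (hanti m1 m2 h12).eq_or_lt with heq | hlt
  · rw [heq]
    refine mul_le_mul_of_nonneg_right ?_ (pow_nonneg (hnn t1 m1) _)
    unfold tail
    rw [← intervalIntegral.integral_add_adjacent_intervals (a := t1) (b := t2) (c := T)
      (hf.intervalIntegrable _ _) (hf.intervalIntegrable _ _)]
    linarith [intervalIntegral.integral_nonneg (f := fun s => ψ s ^ m) (μ := volume) h12
      fun s hs => pow_nonneg (hnn s ⟨by linarith [hs.1], by linarith [hs.2]⟩) m]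
  have h12' : t1 < t2 := lt_of_le_of_ne h12 fun h => by rw [h] at hlt; exact lt_irrefl _ hlt
  set lam := ψ t1 / ψ t2 with hlam
  have hl1 : 1 < lam := (one_lt_div p2).2 hlt
  have hl0 : 0 < lam := by linarith
  have hψ1 : ψ t1 = lam * ψ t2 := by rw [hlam]; field_simp
  set φ : ℝ → ℝ := fun s => lam * (s - t2) + t1 with hφ
  have h3 : ∀ x y z, x ∈ Icc 0 T → z ∈ Icc 0 T → x ≤ y → y ≤ z → x < z →
      ψ x * (z - y) + ψ z * (y - x) ≤ ψ y * (z - x) := by
    intro x y z hx hz hxy hyz hxz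
    have hzx : 0 < z - x := by linarith
    have h := hconc.2 hx hz (div_nonneg (sub_nonneg.2 hyz) hzx.le)
      (div_nonneg (sub_nonneg.2 hxy) hzx.le) (by rw [← add_div, div_eq_one_iff_eq hzx.ne']; ring)
    simp only [smul_eq_mul] at h
    rw [show (z - y) / (z - x) * x + (y - x) / (z - x) * z = y by field_simp; ring] at h
    have := mul_le_mul_of_nonneg_right h hzx.le
    refine le_trans (le_of_eq ?_) this
    field_simp
  have hTT : (lam - 1) * (T - t2) ≤ t2 - t1 := by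
    have h := h3 t1 t2 T m1 mT h12 h2.le (by linarith)
    rw [hψ1] at h
    have := mul_nonneg hT (sub_nonneg.2 h12)
    refine le_of_mul_le_mul_left ?_ p2
    nlinarith
  have key : ∀ s ∈ Icc t2 T, φ s ∈ Icc t1 T ∧ lam * ψ s ≤ ψ (φ s) := by
    intro s hs
    have hs0 : s ∈ Icc 0 T := ⟨m2.1.trans hs.1, hs.2⟩
    have a0 := mul_nonneg hl0.le (sub_nonneg.2 hs.1)
    have a1 : φ s ≤ s := by
      have := mul_le_mul_of_nonneg_left (show s - t2 ≤ T - t2 by linarith [hs.2])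
        (show 0 ≤ lam - 1 by linarith)
      simp only [hφ]; nlinarith
    have a2 : t1 ≤ φ s := by simp only [hφ]; linarith
    refine ⟨⟨a2, a1.trans hs.2⟩, ?_⟩
    have hd : 0 < t2 - t1 := by linarith
    refine le_of_mul_le_mul_left ?_ hd
    rcases hs.1.eq_or_lt with rfl | hst
    · simp [hφ, hψ1]
    have hs2 := h3 t1 t2 s m1 hs0 h12 hs.1 (by linarith)
    rw [hψ1] at hs2
    rcases le_or_gt (φ s) t2 with hc | hc
    · have h := h3 t1 (φ s) t2 m1 m2 a2 hc h12'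
      rw [hψ1] at h
      have := mul_le_mul_of_nonneg_left hs2 hl0.le
      simp only [hφ] at h ⊢
      nlinarith
    · have h := h3 t2 (φ s) s m2 hs0 hc.le a1 hst
      have hh := mul_le_mul_of_nonneg_left h hd.le
      have := mul_nonneg (mul_nonneg (show 0 ≤ lam * (s - t2) - (φ s - t2) by
        simp only [hφ]; linarith) (show 0 ≤ t2 - t1 by linarith)) (sub_nonneg.2 hs2)
      refine le_of_mul_le_mul_right ?_ (sub_pos.2 hst)
      simp only [hφ] at hh this ⊢
      nlinarith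
  have hI : lam ^ (m + 1) * tail m ψ T t2 ≤ tail m ψ T t1 := by
    have hcomp := intervalIntegral.smul_integral_comp_mul_add (a := t2) (b := T)
      (fun s => ψ s ^ m) lam (t1 - lam * t2)
    simp only [smul_eq_mul] at hcomp
    have e : ∀ x, lam * x + (t1 - lam * t2) = φ x := fun x => by simp [hφ]; ring
    simp only [e] at hcomp
    have hmono : ∫ s in t2..T, lam ^ m * ψ s ^ m ≤ ∫ s in t2..T, ψ (φ s) ^ m :=
      intervalIntegral.integral_mono_on h2.le ((hf.intervalIntegrable _ _).const_mul _)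
        (Continuous.intervalIntegrable (by simp only [hφ]; fun_prop) _ _) fun s hs => by
          rw [← mul_pow]
          exact pow_le_pow_left₀ (mul_nonneg hl0.le (hnn s ⟨m2.1.trans hs.1, hs.2⟩)) (key s hs).2 m
    rw [intervalIntegral.integral_const_mul] at hmono
    unfold tail
    calc lam ^ (m + 1) * ∫ s in t2..T, ψ s ^ m = lam * (lam ^ m * ∫ s in t2..T, ψ s ^ m) := by ring
      _ ≤ lam * ∫ s in t2..T, ψ (φ s) ^ m := mul_le_mul_of_nonneg_left hmono hl0.le
      _ = ∫ s in φ t2..φ T, ψ s ^ m := hcomp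
      _ ≤ ∫ s in t1..T, ψ s ^ m := by
          have : φ t2 = t1 := by simp [hφ]
          rw [this]
          exact hsub t1 (φ T) h0 (key T ⟨h2.le, le_rfl⟩).1.1 (key T ⟨h2.le, le_rfl⟩).1.2
  rw [hψ1, mul_pow]
  calc tail m ψ T t2 * (lam ^ (m + 1) * ψ t2 ^ (m + 1))
      = lam ^ (m + 1) * tail m ψ T t2 * ψ t2 ^ (m + 1) := by ring
    _ ≤ _ := mul_le_mul_of_nonneg_right hI (pow_nonneg p2.le _)

/-- The inequality for a decreasing concave profile. -/
theorem one_sided (hm : 1 ≤ m) (hT0 : 0 < T) (hψc : Continuous ψ)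
    (hconc : ConcaveOn ℝ (Icc 0 T) ψ) (hanti : AntitoneOn ψ (Icc 0 T))
    (hpos : ∀ t ∈ Ico 0 T, 0 < ψ t) (hT : 0 ≤ ψ T) :
    let V := ∫ t in (0:ℝ)..T, ψ t ^ m
    let M1 := ∫ t in (0:ℝ)..T, t * ψ t ^ m
    let M2 := ∫ t in (0:ℝ)..T, t ^ 2 * ψ t ^ m
    let W := ∫ t in (0:ℝ)..T, ψ t ^ (m + 2)
    0 < V ∧ (V * M2 - M1 ^ 2) * W ^ m ≤ cPhi m * V ^ (m + 4) ∧
      ((V * M2 - M1 ^ 2) * W ^ m = cPhi m * V ^ (m + 4) →
        ∃ b, 0 < b ∧ ∀ t ∈ Icc 0 T, ψ t = b * (T - t)) := by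
  intro V M1 M2 W
  have hf : Continuous fun t => ψ t ^ m := hψc.pow m
  set U : ℝ → ℝ := tail m ψ T with hU
  have hUd : ∀ t, HasDerivAt U (-(ψ t ^ m)) t := fun t =>
    intervalIntegral.integral_hasDerivAt_left (hf.intervalIntegrable _ _)
      (hf.stronglyMeasurableAtFilter _ _) hf.continuousAt
  have hUc : Continuous U := continuous_iff_continuousAt.2 fun t => (hUd t).continuousAt
  have hUanti : StrictAntiOn U (Icc 0 T) :=
    strictAntiOn_of_hasDerivWithinAt_neg (convex_Icc 0 T) hUc.continuousOn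
      (fun t _ => (hUd t).hasDerivWithinAt) fun t ht => by
        rw [interior_Icc] at ht
        simpa using pow_pos (hpos t ⟨ht.1.le, ht.2⟩) m
  have hU0 : U 0 = V := rfl
  have hUT : U T = 0 := intervalIntegral.integral_same
  have hV : 0 < V := by
    have := hUanti ⟨le_rfl, hT0.le⟩ ⟨hT0.le, le_rfl⟩ hT0
    rwa [hU0, hUT] at this
  refine ⟨hV, ?_⟩
  have himg : U '' Icc 0 T = Icc 0 V := by
    refine le_antisymm ?_ ?_
    · rintro _ ⟨t, ht, rfl⟩
      exact ⟨le_of_eq_of_le hUT.symm (hUanti.antitoneOn ht ⟨hT0.le, le_rfl⟩ ht.2),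
        le_of_le_of_eq (hUanti.antitoneOn ⟨le_rfl, hT0.le⟩ ht ht.1) hU0⟩
    · have := intermediate_value_Icc' hT0.le hUc.continuousOn
      rwa [hU0, hUT] at this
  set n : ℕ := m + 1 with hn
  -- the inverse
  set τ : ℝ → ℝ := fun w => Function.invFunOn U (Icc 0 T) (V * w ^ n) with hτ
  have hmem : ∀ w ∈ Icc (0:ℝ) 1, V * w ^ n ∈ U '' Icc 0 T := fun w hw => by
    rw [himg]
    exact ⟨mul_nonneg hV.le (pow_nonneg hw.1 _), by
      nlinarith [pow_le_one₀ (n := n) hw.1 hw.2]⟩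
  have τmem : ∀ w ∈ Icc (0:ℝ) 1, τ w ∈ Icc 0 T := fun w hw => Function.invFunOn_mem (hmem w hw)
  have τeq : ∀ w ∈ Icc (0:ℝ) 1, U (τ w) = V * w ^ n := fun w hw => Function.invFunOn_eq (hmem w hw)
  have τ1 : τ 1 = 0 := hUanti.injOn (τmem 1 ⟨zero_le_one, le_rfl⟩) ⟨le_rfl, hT0.le⟩
    (by rw [τeq 1 ⟨zero_le_one, le_rfl⟩, hU0]; simp)
  have τ0 : τ 0 = T := hUanti.injOn (τmem 0 ⟨le_rfl, zero_le_one⟩) ⟨hT0.le, le_rfl⟩
    (by rw [τeq 0 ⟨le_rfl, zero_le_one⟩, hUT]; simp [hn])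
  have τlt : ∀ w ∈ Ioc (0:ℝ) 1, τ w < T := fun w hw => by
    refine lt_of_le_of_ne (τmem w ⟨hw.1.le, hw.2⟩).2 fun h => ?_
    have := τeq w ⟨hw.1.le, hw.2⟩
    rw [h, hUT] at this
    nlinarith [pow_pos hw.1 n]
  have ψpos : ∀ w ∈ Ioc (0:ℝ) 1, 0 < ψ (τ w) := fun w hw =>
    hpos _ ⟨(τmem w ⟨hw.1.le, hw.2⟩).1, τlt w hw⟩
  have τanti : AntitoneOn τ (Icc 0 1) := fun u hu w hw huw => by
    by_contra h
    push Not at h
    have := hUanti (τmem u hu) (τmem w hw) h
    rw [τeq u hu, τeq w hw] at this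
    nlinarith [pow_le_pow_left₀ hu.1 huw n]
  have τc : ContinuousOn τ (Icc 0 1) := by
    rw [continuousOn_iff_isClosed]
    intro s hs
    refine ⟨(fun w => V * w ^ n) ⁻¹' (U '' (s ∩ Icc 0 T)), ?_, ?_⟩
    · exact ((isCompact_Icc.inter_left hs).image hUc).isClosed.preimage (by fun_prop)
    · ext w
      simp only [mem_inter_iff, mem_preimage, mem_image]
      constructor
      · rintro ⟨h1, h2⟩
        exact ⟨⟨τ w, ⟨h1, τmem w h2⟩, τeq w h2⟩, h2⟩
      · rintro ⟨⟨t, ⟨h1, h1'⟩, h3⟩, h2⟩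
        exact ⟨(hUanti.injOn (τmem w h2) h1' (by rw [τeq w h2, h3])) ▸ h1, h2⟩
  have τd : ∀ w ∈ Ioo (0:ℝ) 1, HasDerivAt τ (-((n:ℝ) * V * w ^ m / ψ (τ w) ^ m)) w := by
    intro w hw
    have hwI : w ∈ Icc (0:ℝ) 1 := ⟨hw.1.le, hw.2.le⟩
    have hne : ψ (τ w) ^ m ≠ 0 := (pow_pos (ψpos w ⟨hw.1, hw.2.le⟩) m).ne'
    have hlin : HasDerivAt (fun w : ℝ => V * w ^ n) (V * ((n:ℝ) * w ^ m)) w := by
      simpa [hn] using (hasDerivAt_pow n w).const_mul V
    -- invert `(U / V)` composed with the power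
    have h1 : HasDerivAt (fun v => Function.invFunOn U (Icc 0 T) v) (-(ψ (τ w) ^ m))⁻¹ (V * w ^ n) := by
      have hv : V * w ^ n ∈ Ioo 0 V :=
        ⟨mul_pos hV (pow_pos hw.1 n), by nlinarith [pow_lt_one₀ hw.1.le hw.2 (show n ≠ 0 by omega)]⟩
      refine HasDerivAt.of_local_left_inverse ?_ (hUd (τ w)) (neg_ne_zero.2 hne) ?_
      · have hc : ContinuousOn (Function.invFunOn U (Icc 0 T)) (Icc 0 V) := by
          rw [continuousOn_iff_isClosed]
          intro s hs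
          refine ⟨U '' (s ∩ Icc 0 T), ((isCompact_Icc.inter_left hs).image hUc).isClosed, ?_⟩
          ext v
          simp only [mem_inter_iff, mem_preimage, mem_image]
          constructor
          · rintro ⟨a, b⟩
            have hb : v ∈ U '' Icc 0 T := by rw [himg]; exact b
            exact ⟨⟨_, ⟨a, Function.invFunOn_mem hb⟩, Function.invFunOn_eq hb⟩, b⟩
          · rintro ⟨⟨t, ⟨a, a'⟩, c⟩, b⟩
            have hb : v ∈ U '' Icc 0 T := by rw [himg]; exact b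
            exact ⟨(hUanti.injOn (Function.invFunOn_mem hb) a'
              (by rw [Function.invFunOn_eq hb, c])) ▸ a, b⟩
        exact hc.continuousAt (Icc_mem_nhds hv.1 hv.2)
      · filter_upwards [Ioo_mem_nhds hv.1 hv.2] with v hv'
        exact Function.invFunOn_eq (show v ∈ U '' Icc 0 T by rw [himg]; exact ⟨hv'.1.le, hv'.2.le⟩)
    refine (h1.comp w hlin).congr_deriv ?_
    field_simp
  set a : ℝ := ((n:ℝ) * V / ((m:ℝ) + 2)) ^ ((m:ℝ)⁻¹) with ha
  have ha0 : 0 < a := Real.rpow_pos_of_pos (by positivity) _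
  have ham : a ^ m = (n:ℝ) * V / ((m:ℝ) + 2) :=
    Real.rpow_inv_natCast_pow (by positivity) (by omega)
  set y0 : ℝ → ℝ := fun w => a * w / ψ (τ w) with hy0
  have y0pos : ∀ w ∈ Ioc (0:ℝ) 1, 0 < y0 w := fun w hw =>
    div_pos (mul_pos ha0 hw.1) (ψpos w hw)
  have y0mono : MonotoneOn y0 (Ioc 0 1) := by
    intro u hu w hw huw
    have hu' : u ∈ Icc (0:ℝ) 1 := ⟨hu.1.le, hu.2⟩
    have hw' : w ∈ Icc (0:ℝ) 1 := ⟨hw.1.le, hw.2⟩
    have h := tail_homothety (m := m) hψc hconc hanti hpos hT (τmem w hw').1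
      (τanti hu' hw' huw) (τlt u hu)
    rw [← hU, τeq u hu', τeq w hw', mul_assoc, mul_assoc, ← mul_pow, ← mul_pow] at h
    have h2 := le_of_pow_le_pow_left₀ (show n ≠ 0 by omega)
      (mul_nonneg hw.1.le (ψpos u hu).le) (le_of_mul_le_mul_left h hV)
    simp only [hy0]
    rw [div_le_div_iff₀ (ψpos u hu) (ψpos w hw), mul_assoc, mul_assoc]
    exact mul_le_mul_of_nonneg_left h2 ha0.le
  have y0cont : ContinuousOn y0 (Ioc 0 1) :=
    ((continuous_const.mul continuous_id).continuousOn).div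
      (hψc.comp_continuousOn (τc.mono Ioc_subset_Icc_self)) fun w hw => (ψpos w hw).ne'
  set L := sInf (y0 '' Ioc 0 1) with hL
  have hbdd : BddBelow (y0 '' Ioc 0 1) := ⟨0, by
    rintro _ ⟨w, hw, rfl⟩; exact (y0pos w hw).le⟩
  have hLle : ∀ w ∈ Ioc (0:ℝ) 1, L ≤ y0 w := fun w hw => csInf_le hbdd ⟨w, hw, rfl⟩
  set y1 : ℝ → ℝ := fun w => if w ≤ 0 then L else y0 w with hy1
  have y1c : ContinuousOn y1 (Icc 0 1) := by
    intro w hw
    rcases hw.1.eq_or_lt with rfl | hw0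
    · rw [Metric.continuousWithinAt_iff]
      intro ε hε
      obtain ⟨_, ⟨d, hd, rfl⟩, hlt⟩ := exists_lt_of_csInf_lt
        (s := y0 '' Ioc 0 1) ⟨_, 1, ⟨zero_lt_one, le_rfl⟩, rfl⟩ (show L < L + ε by linarith)
      refine ⟨d, hd.1, fun {x} hx hxd => ?_⟩
      simp only [hy1, le_refl, if_true]
      rcases hx.1.eq_or_lt with rfl | hx0
      · simpa using hε
      · rw [if_neg (not_le.2 hx0), Real.dist_eq, abs_of_nonneg (sub_nonneg.2 (hLle x ⟨hx0, hx.2⟩))]
        rw [Real.dist_eq, sub_zero, abs_of_pos hx0] at hxd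
        linarith [y0mono ⟨hx0, hx.2⟩ hd hxd.le]
    · have : ContinuousWithinAt y0 (Icc 0 1) w := by
        refine (y0cont w ⟨hw0, hw.2⟩).mono_of_mem_nhdsWithin ?_
        exact mem_of_superset (inter_mem_nhdsWithin _ (Ioi_mem_nhds hw0))
          fun x hx => ⟨hx.2, hx.1.2⟩
      refine this.congr_of_eventuallyEq ?_ (if_neg (not_le.2 hw0))
      filter_upwards [nhdsWithin_le_nhds (Ioi_mem_nhds hw0)] with x hx
      exact if_neg (not_le.2 hx)
  set y : ℝ → ℝ := IccExtend (zero_le_one (α := ℝ)) ((Icc (0:ℝ) 1).domRestrict y1) with hy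
  have ye : ∀ w ∈ Icc (0:ℝ) 1, y w = y1 w := fun w hw => IccExtend_of_mem _ _ hw
  have ye' : ∀ w ∈ Ioc (0:ℝ) 1, y w = y0 w := fun w hw => by
    rw [ye w ⟨hw.1.le, hw.2⟩]; exact if_neg (not_le.2 hw.1)
  have hg : Good y := by
    refine ⟨(continuousOn_iff_continuous_domRestrict.1 y1c).Icc_extend',
      fun w h1 h2 => by rw [ye' w ⟨h1, h2⟩]; exact y0pos w ⟨h1, h2⟩, ?_, ?_⟩
    · intro u hu w hw huw
      rcases hw.1.eq_or_lt with rfl | hw0
      · rw [le_antisymm huw hu.1]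
      rw [ye' w ⟨hw0, hw.2⟩]
      rcases hu.1.eq_or_lt with rfl | hu0
      · rw [ye 0 hu]; simp only [hy1, le_refl, if_true]; exact hLle w ⟨hw0, hw.2⟩
      · rw [ye' u ⟨hu0, hu.2⟩]; exact y0mono ⟨hu0, hu.2⟩ ⟨hw0, hw.2⟩ huw
    · intro u w hu huw hw
      have hw0 := hu.trans_le huw
      rw [ye' u ⟨hu, huw.trans hw⟩, ye' w ⟨hw0, hw⟩]
      simp only [hy0]
      have := hanti (τmem w ⟨hw0.le, hw⟩) (τmem u ⟨hu.le, huw.trans hw⟩)
        (τanti ⟨hu.le, huw.trans hw⟩ ⟨hw0.le, hw⟩ huw)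
      rw [div_mul_eq_mul_div, div_mul_eq_mul_div,
        div_le_div_iff₀ (ψpos w ⟨hw0, hw⟩) (ψpos u ⟨hu, huw.trans hw⟩)]
      exact le_of_le_of_eq
        (mul_le_mul_of_nonneg_left this (by positivity)) (by ring)
  have τd' : ∀ w ∈ Ioo (0:ℝ) 1, HasDerivAt τ (-(((m:ℝ) + 2) * y w ^ m)) w := by
    intro w hw
    refine (τd w hw).congr_deriv ?_
    rw [ye' w ⟨hw.1, hw.2.le⟩]
    simp only [hy0, div_pow, mul_pow, ham]
    field_simp
  have hx : Continuous fun w => y w ^ m := hg.contx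
  have τT : ∀ w ∈ Icc (0:ℝ) 1, Tf m (fun z => y z ^ m) w = τ w := by
    intro w hw
    have := intervalIntegral.integral_eq_sub_of_hasDerivAt_of_le hw.2
      (τc.mono (Icc_subset_Icc hw.1 le_rfl))
      (fun z hz => τd' z ⟨hw.1.trans_lt hz.1, hz.2⟩) ((hx.const_mul _).neg.intervalIntegrable _ _)
    rw [intervalIntegral.integral_neg, intervalIntegral.integral_const_mul, τ1] at this
    simp only [Tf]; linarith
  -- change of variables
  have cov : ∀ g : ℝ → ℝ, Continuous g →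
      ∫ t in (0:ℝ)..T, g t * ψ t ^ m = (n:ℝ) * V * ∫ w in (0:ℝ)..1, w ^ m * g (τ w) := by
    intro g hgc
    have hgf : Continuous fun t => g t * ψ t ^ m := by fun_prop
    have hprim : Continuous fun u => ∫ t in (0:ℝ)..u, g t * ψ t ^ m :=
      continuous_iff_continuousAt.2 fun u =>
        (hgf.integral_hasStrictDerivAt 0 u).hasDerivAt.continuousAt
    have := intervalIntegral.integral_eq_sub_of_hasDerivAt_of_le (zero_le_one (α := ℝ))
      (hprim.comp_continuousOn τc)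
      (f' := fun w => -((n:ℝ) * V * (w ^ m * g (τ w))))
      (fun w hw => by
        have hne : ψ (τ w) ^ m ≠ 0 := (pow_pos (ψpos w ⟨hw.1, hw.2.le⟩) m).ne'
        exact ((hgf.integral_hasStrictDerivAt 0 (τ w)).hasDerivAt.comp w (τd w hw)).congr_deriv
          (by field_simp))
      (by
        refine (ContinuousOn.intervalIntegrable ?_)
        rw [uIcc_of_le zero_le_one]
        exact ((continuous_pow m).continuousOn.mul (hgc.comp_continuousOn τc)).const_smul
          ((n:ℝ) * V) |>.neg)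
    simp only [Function.comp_def, τ1, τ0, intervalIntegral.integral_same, zero_sub,
      intervalIntegral.integral_neg, intervalIntegral.integral_const_mul] at this
    linarith
  have hS : Continuous (Tf m fun z => y z ^ m) := continuous_Tf hx
  have hθ : M1 = V * theta m y := by
    show (∫ t in (0:ℝ)..T, t * ψ t ^ m) = _
    rw [cov (fun t => t) continuous_id]
    have e : ∫ w in (0:ℝ)..1, w ^ m * τ w = ∫ w in (0:ℝ)..1, w ^ m * Tf m (fun z => y z ^ m) w :=
      intervalIntegral.integral_congr fun w hw => by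
        rw [uIcc_of_le zero_le_one] at hw; simp only [τT w hw]
    rw [e]
    have h := intervalIntegral.integral_eq_sub_of_hasDerivAt (a := (0:ℝ)) (b := 1)
      (f := fun w => w ^ n * Tf m (fun z => y z ^ m) w)
      (f' := fun w => (n:ℝ) * (w ^ m * Tf m (fun z => y z ^ m) w)
        - ((m:ℝ) + 2) * (w ^ (m + 1) * y w ^ m))
      (fun w _ => ((hasDerivAt_pow n w).mul (hasDerivAt_Tf hx w)).congr_deriv
        (by simp only [hn, Nat.add_sub_cancel]; ring))
      (Continuous.intervalIntegrable (by have := hg.cont; fun_prop) _ _)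
    rw [intervalIntegral.integral_sub (Continuous.intervalIntegrable (by fun_prop) _ _)
      (Continuous.intervalIntegrable (by have := hg.cont; fun_prop) _ _),
      intervalIntegral.integral_const_mul, intervalIntegral.integral_const_mul] at h
    simp [Tf, hn] at h
    simp only [theta, Sf, hn]
    simp [Tf]
    linear_combination V * h
  have hQ : M2 = V * QQ m y := by
    show (∫ t in (0:ℝ)..T, t ^ 2 * ψ t ^ m) = _
    rw [cov (fun t => t ^ 2) (continuous_pow 2)]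
    have e : ∫ w in (0:ℝ)..1, w ^ m * τ w ^ 2 =
        ∫ w in (0:ℝ)..1, w ^ m * Tf m (fun z => y z ^ m) w ^ 2 :=
      intervalIntegral.integral_congr fun w hw => by
        rw [uIcc_of_le zero_le_one] at hw; simp only [τT w hw]
    rw [e]
    have h := intervalIntegral.integral_eq_sub_of_hasDerivAt (a := (0:ℝ)) (b := 1)
      (f := fun w => w ^ n * (Tf m (fun z => y z ^ m) w) ^ 2)
      (f' := fun w => (n:ℝ) * (w ^ m * Tf m (fun z => y z ^ m) w ^ 2)
        - 2 * (((m:ℝ) + 2) * w ^ (m + 1) * y w ^ m * Tf m (fun z => y z ^ m) w))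
      (fun w _ => ((hasDerivAt_pow n w).mul ((hasDerivAt_Tf hx w).pow 2)).congr_deriv
        (by simp only [hn, Nat.add_sub_cancel, Pi.pow_apply]; push_cast; ring))
      (Continuous.intervalIntegrable (by have := hg.cont; fun_prop) _ _)
    rw [intervalIntegral.integral_sub (Continuous.intervalIntegrable (by fun_prop) _ _)
      (Continuous.intervalIntegrable (by have := hg.cont; fun_prop) _ _),
      intervalIntegral.integral_const_mul, intervalIntegral.integral_const_mul] at h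
    simp [Tf, hn] at h
    simp only [QQ, hn]
    simp [Tf]
    linear_combination V * h
  have hW : W = (n:ℝ) * V * a ^ 2 * (WW m y / ((m:ℝ) + 3)) := by
    show (∫ t in (0:ℝ)..T, ψ t ^ (m + 2)) = _
    have e0 : (fun t => ψ t ^ (m + 2)) = fun t => ψ t ^ 2 * ψ t ^ m := by funext t; ring
    rw [e0, cov (fun t => ψ t ^ 2) (hψc.pow 2)]
    have e : ∫ w in (0:ℝ)..1, w ^ m * ψ (τ w) ^ 2 =
        a ^ 2 * ∫ w in (0:ℝ)..1, w ^ m * (w / y w) ^ 2 := by
      rw [← intervalIntegral.integral_const_mul]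
      refine intervalIntegral.integral_congr fun w hw => ?_
      rw [uIcc_of_le zero_le_one] at hw
      rcases hw.1.eq_or_lt with rfl | hw0
      · simp [show m ≠ 0 by omega]
      · have := ψpos w ⟨hw0, hw.2⟩
        simp only [ye' w ⟨hw0, hw.2⟩, hy0, div_pow, mul_pow]
        field_simp
    rw [e]; unfold WW; field_simp
  obtain ⟨hle, heq⟩ := phi hm hg
  set K : ℝ := V ^ 2 * ((n:ℝ) * V * a ^ 2 / ((m:ℝ) + 3)) ^ m with hK
  have hK0 : 0 < K := by positivity
  have hprod : (V * M2 - M1 ^ 2) * W ^ m = K * ((QQ m y - theta m y ^ 2) * WW m y ^ m) := by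
    rw [hθ, hQ, hW, hK, show (n:ℝ) * V * a ^ 2 * (WW m y / ((m:ℝ) + 3)) =
      (n:ℝ) * V * a ^ 2 / ((m:ℝ) + 3) * WW m y by ring, mul_pow]
    ring
  have hconst : K * (((m:ℝ) + 1) / (m + 3)) = cPhi m * V ^ (m + 4) := by
    rw [hK, div_pow, mul_pow, ← pow_mul, mul_comm 2 m, pow_mul, ham]
    simp only [hn, cPhi]
    push_cast
    simp only [div_pow, mul_pow]
    field_simp
    ring
  rw [hprod, ← hconst]
  refine ⟨mul_le_mul_of_nonneg_left hle hK0.le, fun h => ?_⟩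
  obtain ⟨c, hc0, hc⟩ := heq (mul_left_cancel₀ hK0.ne' h)
  have hcm : 0 < ((m:ℝ) + 2) * c ^ m := by positivity
  have τlin : ∀ w ∈ Icc (0:ℝ) 1, τ w = ((m:ℝ) + 2) * c ^ m * (1 - w) := by
    intro w hw
    rw [← τT w hw, Tf, intervalIntegral.integral_congr (g := fun _ => c ^ m) (fun z hz => ?_)]
    · simp; ring
    · rw [uIcc_of_le hw.2] at hz
      simp only [hc z ⟨hw.1.trans hz.1, hz.2⟩]
  have hTv : T = ((m:ℝ) + 2) * c ^ m := by
    have := τlin 0 ⟨le_rfl, zero_le_one⟩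
    rw [τ0] at this; linarith
  refine ⟨a / c / T, by positivity, ?_⟩
  have hIoo : EqOn ψ (fun t => a / c / T * (T - t)) (Ico 0 T) := by
    intro t ht
    set w := 1 - t / T with hw
    have hw01 : w ∈ Ioc (0:ℝ) 1 := by
      have := div_lt_one hT0 |>.2 ht.2
      have := div_nonneg ht.1 hT0.le
      constructor <;> simp only [hw] <;> linarith
    have hτw : τ w = t := by
      rw [τlin w ⟨hw01.1.le, hw01.2⟩, ← hTv, hw]; field_simp; ring
    have hy' := ye' w hw01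
    rw [hc w ⟨hw01.1.le, hw01.2⟩] at hy'
    simp only [hy0, hτw] at hy'
    have := hpos t ht
    show ψ t = _
    have hne : T - t ≠ 0 := (sub_pos.2 ht.2).ne'
    rw [hy', hw]
    field_simp
  have := hIoo.closure hψc (by fun_prop)
  rw [closure_Ico hT0.ne] at this
  exact fun t ht => this ht

end Vale.Agent.P254.Rev
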