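import Vale.Agent.P254.RevMain

/-!
The one dimensional inequality `Var * W ^ m ≤ (its value at constant profiles)`.
-/

open MeasureTheory Set Filter Topology

namespace Vale.Agent.P254.Rev

variable {m : ℕ} {y : ℝ → ℝ}

/-- The upper limit for the crossing point. -/
noncomputable def wbar (m : ℕ) : ℝ := ((m:ℝ) + 1) / ((m:ℝ) + 1 + 7 / 10)

lemma wbar_lt : wbar m < 1 := by
  unfold wbar; rw [div_lt_one (by positivity)]; linarith

lemma wbar_ge : 1 / 4 ≤ wbar m := by
  have : (0:ℝ) ≤ m := m.cast_nonneg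
  unfold wbar; rw [le_div_iff₀ (by positivity)]; linarith

lemma wbar_pow_ge : 500 / 1007 ≤ wbar m ^ (m + 1) := by
  have h := Real.exp_bound' (x := 7/10) (by norm_num) (by norm_num) (n := 6) (by norm_num)
  simp [Finset.sum_range_succ, Nat.factorial] at h
  have h2 : (1 + 7 / 10 / ((m:ℝ) + 1)) ^ (m + 1) ≤ Real.exp (7/10) := by
    have := Real.add_one_le_exp (7 / 10 / ((m:ℝ) + 1))
    calc (1 + 7 / 10 / ((m:ℝ) + 1)) ^ (m + 1) ≤ Real.exp (7 / 10 / ((m:ℝ) + 1)) ^ (m + 1) :=
          pow_le_pow_left₀ (by positivity) (by linarith) _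
      _ = _ := by rw [← Real.exp_nat_mul]; congr 1; push_cast; field_simp
  have e : wbar m = (1 + 7 / 10 / ((m:ℝ) + 1))⁻¹ := by
    unfold wbar; rw [eq_comm, inv_eq_iff_eq_inv, inv_div]; field_simp
  rw [e, inv_pow, ← one_div, le_div_iff₀ (by positivity)]
  norm_num at h
  linarith [h]

lemma bracket_le (hm : 1 ≤ m) :
    ((m:ℝ) + 2) / (m + 1) * ((1 - wbar m ^ (m + 1))
      + ((m:ℝ) + 2) / (m + 1) * (1 - wbar m ^ (m + 1)) ^ 2 / (2 * wbar m ^ (m + 1)) + 7 / 10)
      ≤ 13 / 6 := by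
  rcases (show m = 1 ∨ 2 ≤ m by omega) with rfl | h2
  · norm_num [wbar]
  · have hm2 : (2:ℝ) ≤ m := by exact_mod_cast h2
    have hk : ((m:ℝ) + 2) / (m + 1) ≤ 4 / 3 := by
      rw [div_le_iff₀ (by positivity)]; linarith
    have hP := wbar_pow_ge (m := m)
    have hP1 : wbar m ^ (m + 1) ≤ 1 :=
      pow_le_one₀ (by linarith [wbar_ge (m := m)]) wbar_lt.le
    generalize wbar m ^ (m + 1) = P at hP hP1 ⊢
    have hk0 : 0 ≤ ((m:ℝ) + 2) / (m + 1) := by positivity
    generalize ((m:ℝ) + 2) / (m + 1) = k at hk hk0 ⊢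
    have h1 : 1 - P ≤ 507 / 1007 := by linarith
    have h3 : (1 - P) ^ 2 / (2 * P) ≤ (507 / 1007) ^ 2 / (2 * (500 / 1007)) :=
      div_le_div₀ (by norm_num) (pow_le_pow_left₀ (by linarith) h1 2) (by norm_num) (by linarith)
    have h4 : k * (1 - P) ^ 2 / (2 * P) ≤ 4/3 * ((507 / 1007) ^ 2 / (2 * (500 / 1007))) := by
      rw [mul_div_assoc]
      exact mul_le_mul hk h3 (div_nonneg (sq_nonneg _) (by linarith)) (by norm_num)
    refine (mul_le_mul hk (add_le_add (add_le_add h1 h4) le_rfl) ?_ (by norm_num)).trans (by norm_num)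
    have : 0 ≤ k * (1 - P) ^ 2 / (2 * P) :=
      div_nonneg (mul_nonneg hk0 (sq_nonneg _)) (by linarith)
    linarith

lemma crossing_cond {p : ℝ} (hp : 0 < p) (hpw : p ≤ wbar m) :
    4 / 3 * p * (1 - p ^ (m + 1)) ≤ ((m:ℝ) + 1) * (1 - p) := by
  set w := wbar m with hw
  have hw1 : w < 1 := wbar_lt
  have hsum : p * ∑ i ∈ Finset.range (m + 1), p ^ i ≤ w * ∑ i ∈ Finset.range (m + 1), w ^ i :=
    mul_le_mul hpw (Finset.sum_le_sum fun i _ => pow_le_pow_left₀ hp.le hpw i)
      (Finset.sum_nonneg fun i _ => pow_nonneg hp.le i) (hp.le.trans hpw)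
  have h1 := geom_sum_mul p (m + 1)
  have h2 := geom_sum_mul w (m + 1)
  have hkey : 4 / 3 * (w * ∑ i ∈ Finset.range (m + 1), w ^ i) ≤ (m:ℝ) + 1 := by
    have hP := wbar_pow_ge (m := m)
    rw [← hw] at hP
    have hw0 : ((m:ℝ) + 1) * (1 - w) = 7 / 10 * w := by
      rw [hw]; unfold wbar; field_simp; ring
    have h3 : (1 - w) * (4 / 3 * (w * ∑ i ∈ Finset.range (m + 1), w ^ i)) =
        4 / 3 * w * (1 - w ^ (m + 1)) := by
      linear_combination (-(4 / 3 * w)) * h2
    have h4 : 4 / 3 * w * (1 - w ^ (m + 1)) ≤ (1 - w) * ((m:ℝ) + 1) := by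
      rw [mul_comm (1 - w), hw0]
      nlinarith [hp.trans_le hpw, mul_le_mul_of_nonneg_left hP (hp.le.trans hpw)]
    rw [← h3] at h4
    exact le_of_mul_le_mul_left h4 (by linarith)
  have h5 : 4 / 3 * p * (1 - p ^ (m + 1)) =
      (1 - p) * (4 / 3 * (p * ∑ i ∈ Finset.range (m + 1), p ^ i)) := by
    linear_combination (4 / 3 * p) * h1
  rw [h5, mul_comm ((m:ℝ) + 1)]
  exact mul_le_mul_of_nonneg_left (by linarith) (by linarith)

lemma exists_crossing (hm : 1 ≤ m) (hy : Good y) :
    ∃ p, 0 < p ∧ p ≤ wbar m ∧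
      ((m:ℝ) + 2) / (m + 1) * (Sf m (fun z => y z ^ m) p / p ^ (m + 1)
        + Tf m (fun z => y z ^ m) p - theta m y + ((m:ℝ) + 1) * (1 - p) * y p ^ m)
      = 13 / 6 * p * y p ^ m := by
  set x : ℝ → ℝ := fun z => y z ^ m with hx
  have hc : Continuous x := hy.contx
  set k : ℝ := ((m:ℝ) + 2) / (m + 1) with hk
  set Γ : ℝ → ℝ := fun w => k * (Sf m x w + w ^ (m + 1) * Tf m x w - theta m y * w ^ (m + 1)
    + ((m:ℝ) + 1) * (1 - w) * x w * w ^ (m + 1)) - 13 / 6 * w * x w * w ^ (m + 1) with hΓ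
  have cS := continuous_Sf (m := m) hc
  have cT := continuous_Tf (m := m) hc
  have hΓc : Continuous Γ := by simp only [hΓ]; fun_prop
  have hx0 : ∀ z ∈ Icc (0:ℝ) 1, 0 < z → 0 < x z := fun z hz h0 => pow_pos (hy.pos z h0 hz.2) m
  have hk0 : 0 < k := by positivity
  have hkn : k * ((m:ℝ) + 1) = (m:ℝ) + 2 := by simp only [hk]; field_simp
  have hlo : 0 ≤ Γ (1/4) := by
    have hs := K_slope (m := m) hy (show (0:ℝ) < 1/4 by norm_num) (show (1/4:ℝ) ≤ 1 by norm_num) le_rfl
    have hI : 0 ≤ ∫ z in (1/4:ℝ)..1, x z := intervalIntegral.integral_nonneg (by norm_num)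
      fun z hz => (hx0 z ⟨by linarith [hz.1], hz.2⟩ (by linarith [hz.1])).le
    have hT1 : Tf m x 1 = 0 := by simp [Tf]
    rw [show theta m y = Sf m x 1 from rfl] at hΓ
    simp only [one_pow, div_one, ← hx, hT1, add_zero] at hs
    have hq : (0:ℝ) < (1/4) ^ (m + 1) := by positivity
    have h1 : Sf m x 1 * (1/4) ^ (m + 1) ≤ Sf m x (1/4) + (1/4) ^ (m + 1) * Tf m x (1/4) := by
      have := mul_le_mul_of_nonneg_right hs hq.le
      rw [add_mul, add_mul, div_mul_cancel₀ _ hq.ne'] at this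
      nlinarith [mul_nonneg (mul_nonneg (show (0:ℝ) ≤ ((m:ℝ) + 2) / 2 by positivity) hI) hq.le]
    have hm1 : (1:ℝ) ≤ m := by exact_mod_cast hm
    have hxq := hx0 (1/4) ⟨by norm_num, by norm_num⟩ (by norm_num)
    simp only [hΓ]
    have h2 := mul_nonneg hk0.le (sub_nonneg.2 h1)
    have h3 := mul_nonneg (show (0:ℝ) ≤ ((m:ℝ) + 2) * (3/4) - 13/24 by linarith)
      (mul_pos hxq hq).le
    nlinarith
  have hhi : Γ (wbar m) ≤ 0 := by
    set p := wbar m with hp
    have hp0 : 0 < p := by linarith [wbar_ge (m := m)]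
    have hp1 : p < 1 := wbar_lt
    have hnp : ((m:ℝ) + 1) * (1 - p) = 7 / 10 * p := by
      rw [hp]; unfold wbar; field_simp; ring
    have hb := bracket_le hm
    rw [← hk, ← hp] at hb
    set X := x p with hX
    have hXp : 0 < X := hx0 p ⟨hp0.le, hp1.le⟩ hp0
    have hS : Sf m x p ≤ X * p ^ (m + 2) := by
      have h := intervalIntegral.integral_mono_on hp0.le
        (show IntervalIntegrable (fun z => z ^ (m + 1) * x z) volume 0 p from
          Continuous.intervalIntegrable (by fun_prop) _ _)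
        (show IntervalIntegrable (fun z => z ^ (m + 1) * X) volume 0 p from
          Continuous.intervalIntegrable (by fun_prop) _ _) fun z hz => by
          refine mul_le_mul_of_nonneg_left ?_ (pow_nonneg hz.1 _)
          rcases hz.1.eq_or_lt with rfl | hz0
          · exact le_of_tendsto (x := 𝓝[>] (0:ℝ)) ((hc.tendsto 0).mono_left nhdsWithin_le_nhds)
              (by
                filter_upwards [Ioo_mem_nhdsGT hp0] with z hz
                exact pow_le_pow_left₀ (hy.pos z hz.1 (hz.2.le.trans hp1.le)).le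
                  (hy.mono ⟨hz.1.le, hz.2.le.trans hp1.le⟩ ⟨hp0.le, hp1.le⟩ hz.2.le) m)
          · exact pow_le_pow_left₀ (hy.pos z hz0 (hz.2.trans hp1.le)).le
              (hy.mono ⟨hz.1, hz.2.trans hp1.le⟩ ⟨hp0.le, hp1.le⟩ hz.2) m
      rw [intervalIntegral.integral_mul_const, integral_pow] at h
      have := mul_le_mul_of_nonneg_left h (show (0:ℝ) ≤ (m:ℝ) + 2 by positivity)
      refine le_trans this (le_of_eq ?_)
      push_cast; simp; field_simp; ring
    have hsplit : Sf m x 1 = Sf m x p + ((m:ℝ) + 2) * ∫ z in p..1, z ^ (m + 1) * x z := by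
      have hcc : Continuous fun z => z ^ (m + 1) * x z := by fun_prop
      simp only [Sf, ← mul_add]
      rw [intervalIntegral.integral_add_adjacent_intervals (hcc.intervalIntegrable _ _)
        (hcc.intervalIntegrable _ _)]
    have hI : ∫ z in p..1, (1 - z ^ (m + 1)) * x z ≤
        ∫ z in p..1, (1 - z ^ (m + 1)) * (z ^ m * (X / p ^ m)) := by
      refine intervalIntegral.integral_mono_on hp1.le (Continuous.intervalIntegrable (by fun_prop) _ _)
        (Continuous.intervalIntegrable (by fun_prop) _ _) fun z hz => ?_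
      refine mul_le_mul_of_nonneg_left ?_
        (sub_nonneg.2 (pow_le_one₀ (hp0.le.trans hz.1) hz.2))
      have := hy.x_ratio (m := m) hp0 hz.1 hz.2
      rw [← mul_div_assoc, le_div_iff₀ (by positivity)]
      simp only [hX, hx]; linarith
    have hIv : ∫ z in p..1, (1 - z ^ (m + 1)) * (z ^ m * (X / p ^ m)) =
        (1 - p ^ (m + 1)) ^ 2 / (2 * ((m:ℝ) + 1)) * (X / p ^ m) := by
      have e : (fun z : ℝ => (1 - z ^ (m + 1)) * (z ^ m * (X / p ^ m))) =
          fun z => (z ^ m - z ^ (2 * m + 1)) * (X / p ^ m) := by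
        funext z; ring
      rw [e, intervalIntegral.integral_mul_const, intervalIntegral.integral_sub
        (Continuous.intervalIntegrable (by fun_prop) _ _)
        (Continuous.intervalIntegrable (by fun_prop) _ _), integral_pow, integral_pow,
        show 2 * m + 1 + 1 = (m + 1) * 2 by omega, pow_mul, pow_mul]
      push_cast; simp only [one_pow]; field_simp; ring
    have hT : Tf m x p - ((m:ℝ) + 2) * ∫ z in p..1, z ^ (m + 1) * x z =
        ((m:ℝ) + 2) * ∫ z in p..1, (1 - z ^ (m + 1)) * x z := by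
      simp only [Tf, ← mul_sub]
      rw [← intervalIntegral.integral_sub (hc.intervalIntegrable _ _)
        (Continuous.intervalIntegrable (by fun_prop) _ _)]
      congr 1
      exact intervalIntegral.integral_congr fun z _ => by ring
    set P := p ^ (m + 1) with hP
    have hP0 : 0 < P := by positivity
    have hP1 : P ≤ 1 := pow_le_one₀ hp0.le hp1.le
    have hpm : p ^ m = P / p := by rw [hP, pow_succ]; field_simp
    show k * (Sf m x p + P * Tf m x p - theta m y * P + ((m:ℝ) + 1) * (1 - p) * X * P)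
      - 13 / 6 * p * X * P ≤ 0
    have h1 : Sf m x p + P * Tf m x p - theta m y * P ≤
        (1 - P) * (X * p ^ (m + 2)) + P * (((m:ℝ) + 2) *
          ((1 - P) ^ 2 / (2 * ((m:ℝ) + 1)) * (X / (P / p)))) := by
      rw [show theta m y = Sf m x 1 from rfl, hsplit]
      have e : Sf m x p + P * Tf m x p - (Sf m x p + ((m:ℝ) + 2) *
          ∫ z in p..1, z ^ (m + 1) * x z) * P =
          (1 - P) * Sf m x p + P * (((m:ℝ) + 2) * ∫ z in p..1, (1 - z ^ (m + 1)) * x z) := by
        rw [← hT]; ring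
      rw [e]
      rw [hIv, hpm] at hI
      gcongr
    have h2 : (1 - P) * (X * p ^ (m + 2)) + P * (((m:ℝ) + 2) *
          ((1 - P) ^ 2 / (2 * ((m:ℝ) + 1)) * (X / (P / p)))) =
        X * p * P * ((1 - P) + k * (1 - P) ^ 2 / (2 * P)) := by
      rw [pow_succ p (m + 1), ← hP]; simp only [hk]; field_simp
    rw [hnp]
    have h3 := mul_le_mul_of_nonneg_left (h1.trans (le_of_eq h2)) hk0.le
    have h4 := mul_le_mul_of_nonneg_left hb (show 0 ≤ X * p * P by positivity)
    nlinarith
  obtain ⟨p, hp, hp'⟩ := intermediate_value_Icc' wbar_ge hΓc.continuousOn ⟨hhi, hlo⟩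
  have hp0 : 0 < p := by linarith [hp.1]
  refine ⟨p, hp0, hp.2, ?_⟩
  have e : Γ p = p ^ (m + 1) * (k * (Sf m x p / p ^ (m + 1) + Tf m x p - theta m y
      + ((m:ℝ) + 1) * (1 - p) * x p) - 13 / 6 * p * x p) := by
    simp only [hΓ]; field_simp
  rw [e] at hp'
  have := (mul_eq_zero.1 hp').resolve_left (pow_pos hp0 _).ne'
  simp only [hx] at this ⊢
  linarith

lemma scale_facts (c : ℝ) (hc : c ≠ 0) (w : ℝ) :
    Sf m (fun z => (y z / c) ^ m) w = Sf m (fun z => y z ^ m) w / c ^ m ∧
    Tf m (fun z => (y z / c) ^ m) w = Tf m (fun z => y z ^ m) w / c ^ m ∧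
    theta m (fun z => y z / c) = theta m y / c ^ m ∧
    QQ m (fun z => y z / c) = QQ m y / (c ^ m) ^ 2 ∧
    WW m (fun z => y z / c) = c ^ 2 * WW m y := by
  have hS : ∀ w, Sf m (fun z => (y z / c) ^ m) w = Sf m (fun z => y z ^ m) w / c ^ m := by
    intro w
    simp only [Sf, div_pow, mul_div_assoc']
    rw [intervalIntegral.integral_div]; ring
  have hT : ∀ w, Tf m (fun z => (y z / c) ^ m) w = Tf m (fun z => y z ^ m) w / c ^ m := by
    intro w
    simp only [Tf, div_pow]
    rw [intervalIntegral.integral_div]; ring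
  refine ⟨hS w, hT w, hS 1, ?_, ?_⟩
  · unfold QQ
    rw [mul_div_assoc, ← intervalIntegral.integral_div]
    congr 1
    exact intervalIntegral.integral_congr fun w _ => by
      dsimp only; rw [hT, div_pow]; field_simp
  · unfold WW
    rw [mul_left_comm (c ^ 2)]
    congr 1
    rw [← intervalIntegral.integral_const_mul]
    exact intervalIntegral.integral_congr fun w _ => by simp only [div_pow]; field_simp

/-- The one dimensional inequality. -/
theorem phi (hm : 1 ≤ m) (hy : Good y) :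
    (QQ m y - theta m y ^ 2) * WW m y ^ m ≤ ((m:ℝ) + 1) / (m + 3) ∧
    ((QQ m y - theta m y ^ 2) * WW m y ^ m = ((m:ℝ) + 1) / (m + 3) →
      ∃ c, 0 < c ∧ ∀ w ∈ Icc (0:ℝ) 1, y w = c) := by
  obtain ⟨p, hp, hpw, heq⟩ := exists_crossing hm hy
  have hp1 : p < 1 := hpw.trans_lt wbar_lt
  set c := y p with hc
  have hc0 : 0 < c := hy.pos p hp hp1.le
  have hcm : (0:ℝ) < c ^ m := pow_pos hc0 m
  set z : ℝ → ℝ := fun w => y w / c with hz
  have hzG : Good z :=
    ⟨hy.cont.div_const c, fun w h1 h2 => div_pos (hy.pos w h1 h2) hc0,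
      fun a ha b hb hab => div_le_div_of_nonneg_right (hy.mono ha hb hab) hc0.le,
      fun u w h1 h2 h3 => by
        simp only [hz, div_mul_eq_mul_div]
        exact div_le_div_of_nonneg_right (hy.ratio u w h1 h2 h3) hc0.le⟩
  obtain ⟨sS, sT, sθ, sQ, sW⟩ := scale_facts (m := m) (y := y) c hc0.ne' p
  have hzK : KK m z p = 13 / 6 * p := by
    unfold KK
    simp only [hz, sS, sT, sθ]
    field_simp at heq ⊢
    linarith
  obtain ⟨hle, hrig⟩ := phi_normalised hm hzG hp hp1 (by simp [hz, ← hc, hc0.ne']) hzK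
    (crossing_cond hp hpw)
  set σ : ℝ := ((m:ℝ) + 1) / (m + 3) with hσ
  have hσ0 : 0 < σ := by positivity
  set v := QQ m z - theta m z ^ 2 with hv
  set W := WW m z with hW
  have hW0 : 0 ≤ W := mul_nonneg (by positivity) (intervalIntegral.integral_nonneg zero_le_one
    fun w hw => mul_nonneg (pow_nonneg hw.1 _) (sq_nonneg _))
  have hprod : v * W ^ m = (QQ m y - theta m y ^ 2) * WW m y ^ m := by
    simp only [hv]
    simp only [hz]
    rw [sθ, sQ, sW]
    simp only [mul_pow, div_pow]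
    have : (c ^ 2) ^ m = (c ^ m) ^ 2 := by rw [← pow_mul, ← pow_mul, mul_comm]
    rw [this]; field_simp
  have hJ : v * W ^ m ≤ σ * Real.exp ((v - σ + m * σ * (W - 1)) / σ) := by
    rcases le_or_gt v 0 with h | h
    · exact (mul_nonpos_of_nonpos_of_nonneg h (pow_nonneg hW0 m)).trans
        (mul_nonneg hσ0.le (Real.exp_pos _).le)
    · have h1 : v ≤ σ * Real.exp (v / σ - 1) := by
        have := mul_le_mul_of_nonneg_left (Real.add_one_le_exp (v / σ - 1)) hσ0.le
        rwa [show σ * (v / σ - 1 + 1) = v by field_simp; ring] at this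
      have h2 : W ^ m ≤ Real.exp ((m:ℝ) * (W - 1)) := by
        rw [Real.exp_nat_mul]
        exact pow_le_pow_left₀ hW0 (by linarith [Real.add_one_le_exp (W - 1)]) m
      refine (mul_le_mul h1 h2 (pow_nonneg hW0 m) (by positivity)).trans (le_of_eq ?_)
      rw [mul_assoc, ← Real.exp_add]
      congr 2
      field_simp
  rw [← hprod]
  constructor
  · refine hJ.trans ?_
    have := mul_le_mul_of_nonneg_left (Real.exp_le_one_iff.2
      (div_nonpos_of_nonpos_of_nonneg hle hσ0.le)) hσ0.le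
    simpa using this
  · intro h
    rw [h] at hJ
    have h1 : 1 ≤ Real.exp ((v - σ + m * σ * (W - 1)) / σ) :=
      le_of_mul_le_mul_left (by simpa using hJ) hσ0
    have hz1 := hrig (by
      rcases (Real.one_le_exp_iff.1 h1).eq_or_lt with h0 | h0
      · rw [eq_comm, div_eq_zero_iff] at h0
        exact (h0.resolve_right hσ0.ne').ge
      · exact ((div_pos_iff_of_pos_right hσ0).1 h0).le)
    exact ⟨c, hc0, fun w hw => by
      have := hz1 w hw
      simp only [hz] at this
      field_simp at this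
      exact this⟩

end Vale.Agent.P254.Rev
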