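import Mathlib

/-!
Potential used in the one dimensional inequality behind bodies with a symmetric slicing.
-/

open Set

namespace Vale.Agent.P254.Rev

noncomputable def cC (m : ℕ) : ℝ := ((m:ℝ) + 4) / m
noncomputable def cB (m : ℕ) : ℝ := ((m:ℝ) + 2) ^ 2 / (2 * m * ((m:ℝ) + 1))
noncomputable def dm (m : ℕ) : ℝ :=
  2 * ((m:ℝ) + 2) / (m + 1) - 3 * ((m:ℝ) + 2) * (m + 4) / ((m + 3) * (2 * m + 3))
    - ((m:ℝ) + 2) ^ 2 / (3 * ((m:ℝ) + 1) ^ 2)

/-- The lower profile of the kernel: `Phi d` with `d = dm` and `d = 1/6`. -/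
noncomputable def Phi (m : ℕ) (d y : ℝ) : ℝ :=
  2 + d - ((m:ℝ) + 4) * Real.log y + cB m * (1 - y ^ m)

noncomputable def hh (m : ℕ) (y : ℝ) : ℝ :=
  m * (1 / y ^ 2 - 1) - (1 - y ^ m) * Phi m (dm m) y

noncomputable def ZZ (m : ℕ) (y : ℝ) : ℝ :=
  ((m:ℝ) + 3) * (m / ((m + 1) * y ^ 2) + (-(m + 2 + dm m + cB m)) / (m + 3)
    + (2 + dm m + 2 * cB m) * y ^ m / (2 * m + 3) + (-cB m) * (y ^ m) ^ 2 / (3 * m + 3)
    + (m + 4) * (Real.log y / (m + 3) - 1 / ((m:ℝ) + 3) ^ 2)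
    - (m + 4) * y ^ m * (Real.log y / (2 * m + 3) - 1 / (2 * (m:ℝ) + 3) ^ 2))

noncomputable def PP (m : ℕ) (x : ℝ) : ℝ :=
  -2 * Real.exp (-(2 / (m:ℝ)) * Real.log x) + cC m + (2 + dm m + 2 * cB m - cC m) * x
    - 2 * cB m * x ^ 2 - cC m * (x * Real.log x)

variable {m : ℕ}

lemma cB_nonneg : 0 ≤ cB m := by unfold cB; positivity

lemma cC_nonneg : 0 ≤ cC m := by unfold cC; positivity

lemma dm_nonneg (hm : 1 ≤ m) : 0 ≤ dm m := by
  obtain ⟨j, rfl⟩ := Nat.exists_eq_add_of_le hm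
  have hj : (0:ℝ) ≤ j := j.cast_nonneg
  unfold dm
  push_cast
  rw [div_sub_div _ _ (by positivity) (by positivity),
    div_sub_div _ _ (by positivity) (by positivity)]
  apply div_nonneg _ (by positivity)
  ring_nf
  nlinarith [pow_nonneg hj 2, pow_nonneg hj 3, pow_nonneg hj 4, pow_nonneg hj 5]

lemma dm_lt : dm m < 1 / 6 := by
  have hj : (0:ℝ) ≤ m := m.cast_nonneg
  unfold dm
  rw [div_sub_div _ _ (by positivity) (by positivity),
    div_sub_div _ _ (by positivity) (by positivity), div_lt_iff₀ (by positivity)]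
  ring_nf
  nlinarith [pow_nonneg hj 2, pow_nonneg hj 3, pow_nonneg hj 4, pow_nonneg hj 5]

lemma hh_one : hh m 1 = 0 := by simp [hh]

lemma ZZ_one : ZZ m 1 = 0 := by
  unfold ZZ cB dm
  rcases Nat.eq_zero_or_pos m with rfl | hm
  · norm_num
  · have : (0:ℝ) < m := by exact_mod_cast hm
    simp only [one_pow, Real.log_one]
    field_simp
    ring

lemma hasDerivAt_ZZ (hm : 1 ≤ m) {y : ℝ} (hy : 0 < y) :
    HasDerivAt (ZZ m) (((m:ℝ) + 3) / y * (hh m y - ZZ m y)) y := by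
  obtain ⟨j, rfl⟩ := Nat.exists_eq_add_of_le hm
  have h2 : HasDerivAt (fun y : ℝ => y ^ (1 + j)) (((1:ℝ) + j) * y ^ j) y := by
    simpa using hasDerivAt_pow (1 + j) y
  have hl := Real.hasDerivAt_log hy.ne'
  have hi := (((hasDerivAt_pow 2 y).const_mul (((1 + j : ℕ):ℝ) + 1))).inv (by positivity)
  have := ((((((hi.const_mul (((1 + j : ℕ):ℝ))).add_const
      ((-(((1 + j : ℕ):ℝ) + 2 + dm (1+j) + cB (1+j))) / (((1 + j : ℕ):ℝ) + 3))).add
      ((h2.const_mul (2 + dm (1+j) + 2 * cB (1+j))).div_const (2 * ((1 + j : ℕ):ℝ) + 3))).add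
      (((h2.pow 2).const_mul (-cB (1+j))).div_const (3 * ((1 + j : ℕ):ℝ) + 3))).add
      (((hl.div_const (((1 + j : ℕ):ℝ) + 3)).sub_const (1 / (((1 + j : ℕ):ℝ) + 3) ^ 2)).const_mul
        (((1 + j : ℕ):ℝ) + 4))).sub
      ((h2.const_mul (((1 + j : ℕ):ℝ) + 4)).mul
        ((hl.div_const (2 * ((1 + j : ℕ):ℝ) + 3)).sub_const (1 / (2 * ((1 + j : ℕ):ℝ) + 3) ^ 2)))).const_mul
      (((1 + j : ℕ):ℝ) + 3)
  refine (this.congr_of_eventuallyEq (Filter.EventuallyEq.of_eq ?_)).congr_deriv ?_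
  · funext z; simp only [ZZ, Pi.inv_apply, Pi.pow_apply, Pi.add_apply, Pi.sub_apply, Pi.mul_apply]; ring
  · simp only [ZZ, hh, Phi]
    push_cast
    field_simp
    ring

lemma hasDerivAt_hh (hm : 1 ≤ m) {y : ℝ} (hy : 0 < y) :
    HasDerivAt (hh m) ((m:ℝ) / y * PP m (y ^ m)) y := by
  obtain ⟨j, rfl⟩ := Nat.exists_eq_add_of_le hm
  have h2 : HasDerivAt (fun y : ℝ => y ^ (1 + j)) (((1:ℝ) + j) * y ^ j) y := by
    simpa using hasDerivAt_pow (1 + j) y
  have hl := Real.hasDerivAt_log hy.ne'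
  have hP := (((hl.const_mul (((1 + j : ℕ):ℝ) + 4)).const_sub (2 + dm (1+j))).add
    ((h2.const_sub 1).const_mul (cB (1+j))))
  have := ((((hasDerivAt_pow 2 y).inv (by positivity)).sub_const 1).const_mul
    (((1 + j : ℕ):ℝ))).sub ((h2.const_sub 1).mul hP)
  have e : Real.exp (-(2 / ((1 + j : ℕ):ℝ)) * Real.log (y ^ (1 + j))) = 1 / y ^ 2 := by
    rw [Real.log_pow]
    have h0 : ((1 + j : ℕ):ℝ) ≠ 0 := by positivity
    rw [show -(2 / ((1 + j : ℕ):ℝ)) * (((1 + j : ℕ):ℝ) * Real.log y) = -(((2:ℕ):ℝ) * Real.log y) by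
      field_simp; push_cast; ring]
    rw [← Real.log_pow, Real.exp_neg, Real.exp_log (by positivity), one_div]
  refine (this.congr_of_eventuallyEq (Filter.EventuallyEq.of_eq ?_)).congr_deriv ?_
  · funext z; simp only [hh, Phi, Pi.inv_apply, Pi.add_apply, Pi.sub_apply, Pi.mul_apply]; ring
  · unfold PP
    rw [e]
    simp only [Real.log_pow, cC, Pi.add_apply]
    push_cast
    field_simp
    ring

lemma PP_one : PP m 1 = dm m := by simp [PP]; ring

lemma concaveOn_PP : ConcaveOn ℝ (Ioi (0:ℝ)) (PP m) := by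
  have h1 : ConvexOn ℝ (Ioi (0:ℝ)) fun x => Real.exp (-(2 / (m:ℝ)) * Real.log x) := by
    have hl : ConvexOn ℝ (Ioi (0:ℝ)) fun x => -(2 / (m:ℝ)) * Real.log x := by
      have := (strictConcaveOn_log_Ioi.concaveOn.smul (show (0:ℝ) ≤ 2 / m by positivity)).neg
      simpa [smul_eq_mul, Pi.neg_def, neg_mul] using this
    refine ⟨convex_Ioi 0, fun a ha b hb s t hs ht hst => ?_⟩
    exact le_trans (Real.exp_le_exp.2 (hl.2 ha hb hs ht hst))
      (convexOn_exp.2 (mem_univ _) (mem_univ _) hs ht hst)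
  have hxl : ConvexOn ℝ (Ioi (0:ℝ)) fun x => x * Real.log x :=
    Real.convexOn_mul_log.subset Ioi_subset_Ici_self (convex_Ioi 0)
  refine ⟨convex_Ioi 0, fun a ha b hb s t hs ht hst => ?_⟩
  have e1 := h1.2 ha hb hs ht hst
  have e2 := hxl.2 ha hb hs ht hst
  simp only [smul_eq_mul] at e1 e2 ⊢
  have hB := cB_nonneg (m := m)
  have hC := cC_nonneg (m := m)
  obtain rfl : t = 1 - s := by linarith
  unfold PP
  nlinarith [mul_le_mul_of_nonneg_left e2 hC,
    mul_nonneg hB (mul_nonneg (mul_nonneg hs ht) (sq_nonneg (a - b)))]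

lemma ZZ_sub_nonneg (hm : 1 ≤ m) {y : ℝ} (hy : 0 < y) (hy1 : y ≤ 1) : hh m y ≤ ZZ m y := by
  set N : ℝ → ℝ := fun z => z ^ (m + 3) * (ZZ m z - hh m z) with hN
  have hc : Continuous N := by
    have e : N = fun z => ((m:ℝ) + 3) * (m / (m + 1) * z ^ (m + 1)
        + (-(m + 2 + dm m + cB m)) / (m + 3) * z ^ (m + 3)
        + (2 + dm m + 2 * cB m) / (2 * m + 3) * z ^ (m + 3) * z ^ m
        + (-cB m) / (3 * m + 3) * z ^ (m + 3) * (z ^ m) ^ 2
        + (m + 4) * (z ^ (m + 2) * (z * Real.log z) / (m + 3) - z ^ (m + 3) / ((m:ℝ) + 3) ^ 2)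
        - (m + 4) * z ^ m * (z ^ (m + 2) * (z * Real.log z) / (2 * m + 3)
            - z ^ (m + 3) / (2 * (m:ℝ) + 3) ^ 2))
        - (m * (z ^ (m + 1) - z ^ (m + 3)) - (1 - z ^ m) * ((2 + dm m + cB m * (1 - z ^ m))
            * z ^ (m + 3) - ((m:ℝ) + 4) * (z ^ (m + 2) * (z * Real.log z)))) := by
      funext z
      rcases eq_or_ne z 0 with rfl | hz
      · simp [hN]
      · simp only [hN, ZZ, hh, Phi, pow_succ]
        field_simp
        ring
    rw [e]
    have := Real.continuous_mul_log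
    fun_prop
  have hd : ∀ z, 0 < z → HasDerivAt N (-(z ^ (m + 2) * (m * PP m (z ^ m)))) z := by
    intro z hz
    have := (hasDerivAt_pow (m + 3) z).mul ((hasDerivAt_ZZ hm hz).sub (hasDerivAt_hh hm hz))
    refine this.congr_deriv ?_
    simp only [Pi.sub_apply, show m + 3 - 1 = m + 2 by omega]
    push_cast
    rw [pow_succ z (m + 2)]
    field_simp
    ring
  suffices 0 ≤ N y by
    rcases hy1.eq_or_lt with rfl | _
    · rw [ZZ_one, hh_one]
    have h := nonneg_of_mul_nonneg_right (show 0 ≤ y ^ (m + 3) * (ZZ m y - hh m y) from this)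
      (pow_pos hy _)
    linarith
  by_cases hP : 0 ≤ PP m (y ^ m)
  · have hanti : AntitoneOn N (Icc y 1) := by
      refine antitoneOn_of_hasDerivWithinAt_nonpos (f' := fun z => -(z ^ (m + 2) * (m * PP m (z ^ m))))
        (convex_Icc y 1) hc.continuousOn
        (fun z hz => (hd z ?_).hasDerivWithinAt) (fun z hz => ?_) <;> rw [interior_Icc] at hz
      · linarith [hz.1]
      · have hz0 : 0 < z := by linarith [hz.1]
        have hseg : z ^ m ∈ segment ℝ (y ^ m) 1 := by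
          rw [segment_eq_Icc (pow_le_one₀ hy.le hy1)]
          exact ⟨pow_le_pow_left₀ hy.le hz.1.le m, pow_le_one₀ hz0.le hz.2.le⟩
        have := (concaveOn_PP (m := m)).ge_on_segment (show y ^ m ∈ Ioi (0:ℝ) from pow_pos hy _)
          (show (1:ℝ) ∈ Ioi (0:ℝ) from mem_Ioi.2 one_pos) hseg
        rw [PP_one] at this
        have : 0 ≤ PP m (z ^ m) := le_trans (le_min hP (dm_nonneg hm)) this
        have : 0 ≤ z ^ (m + 2) * (m * PP m (z ^ m)) :=
          mul_nonneg (pow_nonneg hz0.le _) (mul_nonneg m.cast_nonneg this)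
        linarith
    have := hanti ⟨le_rfl, hy1⟩ ⟨hy1, le_rfl⟩ hy1
    simpa [hN, ZZ_one, hh_one] using this
  · push Not at hP
    have hmono : MonotoneOn N (Icc 0 y) := by
      refine monotoneOn_of_hasDerivWithinAt_nonneg (f' := fun z => -(z ^ (m + 2) * (m * PP m (z ^ m))))
        (convex_Icc 0 y) hc.continuousOn
        (fun z hz => (hd z ?_).hasDerivWithinAt) (fun z hz => ?_) <;> rw [interior_Icc] at hz
      · exact hz.1
      · have : PP m (z ^ m) < 0 := by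
          by_contra hle
          push Not at hle
          have hseg : y ^ m ∈ segment ℝ (z ^ m) 1 := by
            rw [segment_eq_Icc (pow_le_one₀ hz.1.le (by linarith [hz.2]))]
            exact ⟨pow_le_pow_left₀ hz.1.le hz.2.le m, pow_le_one₀ hy.le hy1⟩
          have := (concaveOn_PP (m := m)).ge_on_segment (show z ^ m ∈ Ioi (0:ℝ) from pow_pos hz.1 _)
            (show (1:ℝ) ∈ Ioi (0:ℝ) from mem_Ioi.2 one_pos) hseg
          rw [PP_one] at this
          linarith [le_trans (le_min hle (dm_nonneg hm)) this]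
        have : z ^ (m + 2) * (m * PP m (z ^ m)) ≤ 0 :=
          mul_nonpos_of_nonneg_of_nonpos (pow_nonneg hz.1.le _)
            (mul_nonpos_of_nonneg_of_nonpos m.cast_nonneg this.le)
        linarith
    have := hmono ⟨le_rfl, hy.le⟩ ⟨hy.le, le_rfl⟩ hy.le
    simpa [hN] using this

lemma ZZ_antitone (hm : 1 ≤ m) : AntitoneOn (ZZ m) (Ioc 0 1) := by
  refine antitoneOn_of_hasDerivWithinAt_nonpos
    (f' := fun z => ((m:ℝ) + 3) / z * (hh m z - ZZ m z)) (convex_Ioc 0 1)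
    (fun z hz => (hasDerivAt_ZZ hm hz.1).continuousAt.continuousWithinAt)
    (fun z hz => ?_) (fun z hz => ?_) <;> rw [interior_Ioc] at hz
  · exact (hasDerivAt_ZZ hm hz.1).hasDerivWithinAt
  · exact mul_nonpos_of_nonneg_of_nonpos (div_nonneg (by positivity) hz.1.le)
      (by linarith [ZZ_sub_nonneg hm hz.1 hz.2.le])

lemma ZZ_nonneg (hm : 1 ≤ m) {y : ℝ} (hy : 0 < y) (hy1 : y ≤ 1) : 0 ≤ ZZ m y := by
  have := ZZ_antitone hm ⟨hy, hy1⟩ ⟨one_pos, le_rfl⟩ hy1
  rwa [ZZ_one] at this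

end Vale.Agent.P254.Rev
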