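import Vale.Agent.P254.Simplex

/-!
The standard simplex has normalised ratio one; invariance under reindexing.
-/

open MeasureTheory Set Matrix

namespace Vale.Agent.P254

lemma sx_vol (n : ℕ) : vol (sx n) = 1 / (n.factorial : ℝ) := by
  have := integral_sx n 0
  simpa [vol, Measure.real] using this

lemma sx_mean (n : ℕ) (i : Fin n) : ∫ x in sx n, x i = 1 / ((n + 1).factorial : ℝ) := by
  have := integral_sx n (Pi.single i 1)
  simpa [Pi.single_apply, apply_ite, Finset.prod_ite_eq', ite_pow] using this

lemma sx_second (n : ℕ) (i j : Fin n) :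
    ∫ x in sx n, x i * x j = (1 + if i = j then 1 else 0) / ((n + 2).factorial : ℝ) := by
  have := integral_sx n (Pi.single i 1 + Pi.single j 1)
  have h1 : ∀ x : Fin n → ℝ,
      ∏ k, x k ^ (Pi.single i 1 + Pi.single j 1 : Fin n → ℕ) k = x i * x j := by
    intro x
    simp only [Pi.add_apply, pow_add, Finset.prod_mul_distrib]
    simp [Pi.single_apply]
  have h2 : ∏ k, (((Pi.single i 1 + Pi.single j 1 : Fin n → ℕ) k).factorial : ℝ)
      = 1 + if i = j then 1 else 0 := by
    rcases eq_or_ne i j with rfl | hij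
    · rw [Finset.prod_eq_single i] <;> simp +contextual [Nat.factorial]
      norm_num
    · rw [if_neg hij, add_zero]
      refine Finset.prod_eq_one fun k _ => ?_
      rcases eq_or_ne k i with rfl | hki
      · simp [hij]
      · rcases eq_or_ne k j with rfl | hkj <;> simp [*]
  have h3 : ∑ k, (Pi.single i 1 + Pi.single j 1 : Fin n → ℕ) k = 2 := by
    simp [Finset.sum_add_distrib]
  simp only [h1, h2, h3] at this
  exact this

lemma sx_isBody (n : ℕ) : IsBody (sx n) := by
  refine ⟨?_, sx_isCompact n, ?_⟩
  · rw [← stdSimp_eq_sx]; exact convex_convexHull _ _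
  · refine ⟨fun _ => 1 / (n + 1 : ℝ), ?_⟩
    refine mem_interior.2 ⟨{x | (∀ i, 0 < x i) ∧ ∑ i, x i < 1},
      fun x hx => ⟨fun i => (hx.1 i).le, hx.2.le⟩, ?_, ?_⟩
    · simp only [ofPred_and, ofPred_forall]
      exact (isOpen_iInter_of_finite fun i => isOpen_lt continuous_const (continuous_apply i)).inter
        (isOpen_lt (by fun_prop) continuous_const)
    · refine ⟨fun _ => by positivity, ?_⟩
      simp only [Finset.sum_const, Finset.card_univ, Fintype.card_fin, nsmul_eq_mul, one_div]
      rw [← div_eq_mul_inv, div_lt_one (by positivity)]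
      linarith

lemma sx_covMat (n : ℕ) (i j : Fin n) :
    covMat (sx n) i j =
      (((n : ℝ) + 1) * (n + 2))⁻¹ * ((if i = j then 1 else 0) - ((n : ℝ) + 1)⁻¹) := by
  rw [covMat_apply (sx_isCompact n) (sx_isBody n).vol_pos.ne', sx_vol, sx_mean, sx_mean, sx_second,
    Nat.factorial_succ (n + 1), Nat.factorial_succ n]
  have : (n.factorial : ℝ) ≠ 0 := by positivity
  push_cast
  field_simp
  ring

theorem nrat_sx (n : ℕ) : nrat (sx n) = 1 := by
  have h : covMat (sx n) = (((n : ℝ) + 1) * (n + 2))⁻¹ •
      (1 + replicateCol Unit (fun _ : Fin n => -((n : ℝ) + 1)⁻¹) *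
        replicateRow Unit (fun _ : Fin n => (1 : ℝ))) := by
    ext i j
    simp [sx_covMat, Matrix.mul_apply, Matrix.one_apply, sub_eq_add_neg]
  unfold nrat isoRatio
  rw [h, det_smul, det_one_add_replicateCol_mul_replicateRow, sx_vol, Fintype.card_fin]
  simp only [dotProduct, one_mul, Finset.sum_const, Finset.card_univ, Fintype.card_fin,
    nsmul_eq_mul, sxConst, inv_pow, mul_pow]
  have : (n.factorial : ℝ) ≠ 0 := by positivity
  rw [div_eq_one_iff_eq (by positivity)]
  field_simp
  ring

theorem nrat_stdSimp (n : ℕ) : nrat (stdSimp n) = 1 := by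
  rw [stdSimp_eq_sx]; exact nrat_sx n

section reindex

variable {ι κ : Type*} [Fintype ι] [Fintype κ] (e : ι ≃ κ)

/-- Relabel coordinates. -/
def reindexSet (K : Set (ι → ℝ)) : Set (κ → ℝ) := (fun y : κ → ℝ => fun i => y (e i)) ⁻¹' K

lemma setIntegral_reindexSet (K : Set (ι → ℝ)) (f : (ι → ℝ) → ℝ) :
    ∫ y in reindexSet e K, f (fun i => y (e i)) = ∫ x in K, f x := by
  let E := (MeasurableEquiv.piCongrLeft (fun _ : κ => ℝ) e).symm
  have hE : MeasurePreserving E volume volume :=
    (volume_measurePreserving_piCongrLeft (fun _ : κ => ℝ) e).symm _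
  have hfun : ∀ y, E y = fun i => y (e i) := fun y => rfl
  rw [← hE.setIntegral_preimage_emb E.measurableEmbedding f K]
  simp only [hfun]
  rfl

lemma vol_reindexSet (K : Set (ι → ℝ)) : vol (reindexSet e K) = vol K := by
  have := setIntegral_reindexSet e K (fun _ => 1)
  rwa [setIntegral_one, setIntegral_one] at this

lemma centroid_reindexSet (K : Set (ι → ℝ)) (i : ι) :
    centroid (reindexSet e K) (e i) = centroid K i := by
  unfold centroid
  rw [vol_reindexSet, ← setIntegral_reindexSet e K (fun x => x i)]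

lemma covMat_reindexSet (K : Set (ι → ℝ)) :
    (covMat (reindexSet e K)).submatrix e e = covMat K := by
  ext i j
  simp only [submatrix_apply, covMat, vol_reindexSet, centroid_reindexSet,
    ← setIntegral_reindexSet e K (fun x => (x i - centroid K i) * (x j - centroid K j))]

lemma nrat_reindexSet [DecidableEq ι] [DecidableEq κ] (K : Set (ι → ℝ)) :
    nrat (reindexSet e K) = nrat K := by
  unfold nrat isoRatio
  rw [vol_reindexSet, ← covMat_reindexSet e K, det_submatrix_equiv_self, Fintype.card_congr e]

omit [Fintype ι] [Fintype κ] in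
lemma reindexSet_eq_image (K : Set (ι → ℝ)) :
    reindexSet e K = (LinearEquiv.funCongrLeft ℝ ℝ e.symm) '' K := by
  rw [LinearEquiv.image_eq_preimage_symm]; rfl

lemma isBody_reindexSet {K : Set (ι → ℝ)} (h : IsBody K) : IsBody (reindexSet e K) := by
  let H := (LinearEquiv.funCongrLeft ℝ ℝ e.symm).toContinuousLinearEquiv
  have him : reindexSet e K = H '' K := reindexSet_eq_image e K
  rw [him]
  refine ⟨h.1.linear_image H.toLinearEquiv.toLinearMap, h.2.1.image H.continuous, ?_⟩
  rw [show H '' K = H.toHomeomorph '' K from rfl, ← H.toHomeomorph.image_interior K]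
  exact h.2.2.image _

lemma isSimplexBody_reindexSet_iff {K : Set (ι → ℝ)} :
    IsSimplexBody (reindexSet e K) → IsSimplexBody K := by
  rintro ⟨v, hv, hK⟩
  let H := LinearEquiv.funCongrLeft ℝ ℝ e
  have hc : Fintype.card ι + 1 = Fintype.card κ + 1 := by rw [Fintype.card_congr e]
  refine ⟨fun k => H (v (finCongr hc k)), ?_, ?_⟩
  · exact (hv.comp_embedding (finCongr hc).toEmbedding).map' H.toLinearMap.toAffineMap H.injective
  · have hr : (range fun k => H (v (finCongr hc k))) = H.toLinearMap '' range v := by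
      rw [← range_comp]
      exact (finCongr hc).surjective.range_comp (H ∘ v)
    rw [hr, ← LinearMap.image_convexHull, hK, reindexSet_eq_image]
    change H '' ((LinearEquiv.funCongrLeft ℝ ℝ e.symm) '' K) = K
    rw [← image_comp]
    convert image_id K
    ext x i
    simp [H, LinearEquiv.funCongrLeft, LinearMap.funLeft]

end reindex

end Vale.Agent.P254
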