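import Vale.Agent.P254.Basic

/-!
Slices of sets in `Fin (n+1) → ℝ` by the coordinate `0`.
-/

open MeasureTheory Set

namespace Vale.Agent.P254

variable {n : ℕ}

/-- The slice of `C` at height `t` of the coordinate `0`. -/
def slc (C : Set (Fin (n + 1) → ℝ)) (t : ℝ) : Set (Fin n → ℝ) := {y | Fin.cons t y ∈ C}

/-- The volume of the slice. -/
noncomputable def slv (C : Set (Fin (n + 1) → ℝ)) (t : ℝ) : ℝ := vol (slc C t)

lemma continuous_cons (t : ℝ) : Continuous fun y : Fin n → ℝ => (Fin.cons t y : Fin (n + 1) → ℝ) := by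
  refine continuous_pi fun i => ?_
  refine Fin.cases ?_ (fun j => ?_) i <;> simp <;> fun_prop

lemma slc_subset_tail (C : Set (Fin (n + 1) → ℝ)) (t : ℝ) :
    slc C t ⊆ (fun z (i : Fin n) => z i.succ) '' C :=
  fun y hy => ⟨_, hy, by simp⟩

lemma slc_isCompact {C : Set (Fin (n + 1) → ℝ)} (hC : IsCompact C) (t : ℝ) :
    IsCompact (slc C t) :=
  (hC.image (f := fun z (i : Fin n) => z i.succ) (by fun_prop)).of_isClosed_subset
    (hC.isClosed.preimage (continuous_cons t)) (slc_subset_tail C t)

lemma combo_cons (s t : ℝ) (x y : Fin n → ℝ) (a b : ℝ) :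
    a • (Fin.cons s x : Fin (n + 1) → ℝ) + b • Fin.cons t y
      = Fin.cons (a * s + b * t) (a • x + b • y) := by
  funext i
  refine Fin.cases ?_ (fun j => ?_) i <;> simp

lemma slc_convex {C : Set (Fin (n + 1) → ℝ)} (hC : Convex ℝ C) (t : ℝ) : Convex ℝ (slc C t) := by
  intro x hx y hy a b ha hb hab
  have := hC hx hy ha hb hab
  rw [combo_cons, show a * t + b * t = t by linear_combination t * hab] at this
  exact this

lemma slv_nonneg (C : Set (Fin (n + 1) → ℝ)) (t : ℝ) : 0 ≤ slv C t := ENNReal.toReal_nonneg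

lemma slv_bound {C : Set (Fin (n + 1) → ℝ)} (hC : IsCompact C) :
    ∃ M : ℝ, ∀ t, slv C t ≤ M := by
  refine ⟨vol ((fun z (i : Fin n) => z i.succ) '' C), fun t => ?_⟩
  exact ENNReal.toReal_mono (hC.image (by fun_prop)).measure_lt_top.ne
    (measure_mono (slc_subset_tail C t))

lemma slc_nonempty_of_pos {C : Set (Fin (n + 1) → ℝ)} {t : ℝ} (h : 0 < slv C t) :
    (slc C t).Nonempty := by
  by_contra hne
  rw [Set.not_nonempty_iff_eq_empty] at hne
  simp [slv, vol, hne] at h

lemma integral_slices {C : Set (Fin (n + 1) → ℝ)} (hC : IsCompact C)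
    {φ : (Fin (n + 1) → ℝ) → ℝ} (hφ : Continuous φ) :
    Integrable (fun t => ∫ y in slc C t, φ (Fin.cons t y)) ∧
    ∫ x in C, φ x = ∫ t, ∫ y in slc C t, φ (Fin.cons t y) := by
  let e := MeasurableEquiv.piFinSuccAbove (fun _ : Fin (n + 1) => ℝ) 0
  have he : MeasurePreserving e volume (volume.prod volume) :=
    volume_preserving_piFinSuccAbove _ 0
  set T : Set (ℝ × (Fin n → ℝ)) := {p | Fin.cons p.1 p.2 ∈ C} with hT
  set F : ℝ × (Fin n → ℝ) → ℝ := fun p => φ (Fin.cons p.1 p.2) with hF
  have hcons : Continuous fun p : ℝ × (Fin n → ℝ) => (Fin.cons p.1 p.2 : Fin (n + 1) → ℝ) := by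
    refine continuous_pi fun i => ?_
    refine Fin.cases ?_ (fun j => ?_) i <;> simp <;> fun_prop
  have hTc : IsCompact T := by
    have : T = (fun x : Fin (n + 1) → ℝ => (x 0, fun i : Fin n => x i.succ)) '' C := by
      ext p
      constructor
      · intro hp; exact ⟨_, hp, by simp⟩
      · rintro ⟨x, hx, rfl⟩
        simp only [hT, mem_ofPred_eq]
        convert hx
        exact Fin.cons_self_tail x
    rw [this]
    exact hC.image (by fun_prop)
  have hTm : MeasurableSet T := hTc.measurableSet
  have hint : IntegrableOn F T (volume.prod volume) :=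
    (hφ.comp hcons).continuousOn.integrableOn_compact hTc
  have hev : ∀ x : Fin (n + 1) → ℝ, (Fin.cons (e x).1 (e x).2 : Fin (n + 1) → ℝ) = x := fun x =>
    Fin.cons_self_tail x
  have hpre : e ⁻¹' T = C := by
    ext x; simp only [mem_preimage, hT, mem_ofPred_eq, hev]
  have h1 : ∫ x in C, φ x = ∫ p in T, F p ∂(volume.prod volume) := by
    rw [← hpre, ← he.setIntegral_preimage_emb e.measurableEmbedding F T]
    simp only [hF, hev]
  have hinner : ∀ t, (∫ y, T.indicator F (t, y)) = ∫ y in slc C t, φ (Fin.cons t y) := by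
    intro t
    have : (fun y => T.indicator F (t, y)) = (slc C t).indicator (fun y => φ (Fin.cons t y)) := by
      funext y; exact (Set.indicator_comp_right (Prod.mk t) (g := F) (x := y)).symm
    rw [this, integral_indicator (slc_isCompact hC t).measurableSet]
  have hind := hint.integrable_indicator hTm
  refine ⟨?_, ?_⟩
  · exact hind.integral_prod_left.congr (.of_forall hinner)
  · rw [h1, ← integral_indicator hTm, integral_prod _ hind]
    simp only [hinner]

lemma vol_slices {C : Set (Fin (n + 1) → ℝ)} (hC : IsCompact C) :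
    Integrable (slv C) ∧ vol C = ∫ t, slv C t := by
  have h := integral_slices hC (φ := fun _ => (1 : ℝ)) continuous_const
  simp only [setIntegral_one] at h
  exact h

end Vale.Agent.P254
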