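import Vale.Agent.P254.OneSym
import Vale.Agent.P254.Affine

/-!
Centrally symmetric bodies in three dimensions. If such a body is isotropic and of small volume,
every support number is at least some `r`; the central sections then contain discs of radius `r`,
and the concave profile of the sections forces a larger support number. The iteration ends with
a ball larger than the body.
-/

open MeasureTheory Set Real Matrix
open scoped MatrixOrder

namespace Vale.Agent.P254

/-- Symmetry about the origin. -/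
def IsCentral {n : ℕ} (K : Set (Fin n → ℝ)) : Prop := ∀ x ∈ K, -x ∈ K

namespace Sym3

variable {n : ℕ}

/-- The Euclidean ball in coordinates. -/
def eball (n : ℕ) (r : ℝ) : Set (Fin n → ℝ) := {x | x ⬝ᵥ x ≤ r ^ 2}

lemma eball_eq (n : ℕ) {r : ℝ} (hr : 0 ≤ r) :
    (@WithLp.ofLp 2 (Fin n → ℝ)) ⁻¹' eball n r =
      Metric.closedBall (0 : EuclideanSpace ℝ (Fin n)) r := by
  ext x
  simp only [mem_preimage, eball, mem_ofPred_eq, dotProduct, Metric.mem_closedBall,
    dist_zero_right, EuclideanSpace.norm_eq, Real.norm_eq_abs, sq_abs,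
    Real.sqrt_le_left hr, ← sq]

lemma measurableSet_eball (n : ℕ) (r : ℝ) : MeasurableSet (eball n r) :=
  (isClosed_le (by unfold dotProduct; fun_prop) continuous_const).measurableSet

lemma volume_eball (n : ℕ) {r : ℝ} (hr : 0 ≤ r) :
    volume (eball n r) = volume (Metric.closedBall (0 : EuclideanSpace ℝ (Fin n)) r) := by
  rw [← eball_eq n hr, (PiLp.volume_preserving_ofLp (Fin n)).measure_preimage
    (measurableSet_eball n r).nullMeasurableSet]

lemma vol_eball_two {r : ℝ} (hr : 0 ≤ r) : vol (eball 2 r) = π * r ^ 2 := by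
  rw [vol, volume_eball 2 hr, EuclideanSpace.volume_closedBall_fin_two, ENNReal.toReal_mul,
    ENNReal.toReal_pow, ENNReal.toReal_ofReal hr, ENNReal.toReal_ofReal pi_pos.le]
  ring

lemma vol_eball_three {r : ℝ} (hr : 0 ≤ r) : vol (eball 3 r) = π * 4 / 3 * r ^ 3 := by
  rw [vol, volume_eball 3 hr, EuclideanSpace.volume_closedBall_fin_three, ENNReal.toReal_mul,
    ENNReal.toReal_pow, ENNReal.toReal_ofReal hr, ENNReal.toReal_ofReal (by positivity)]
  ring

/-- The slice profile of a centrally symmetric body. -/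
lemma central_slices {C : Set (Fin (n + 1) → ℝ)} (hs : IsCentral C) (hc : Convex ℝ C)
    (hk : IsCompact C) (hne : C.Nonempty) (hn : n ≠ 0) :
    ∃ T : ℝ, 0 ≤ T ∧ (∃ z ∈ C, z 0 = T) ∧ (∀ x ∈ C, x 0 ≤ T) ∧
      ConcaveOn ℝ (Icc 0 T) (fun t => slv C t ^ (n⁻¹ : ℝ)) ∧
      AntitoneOn (fun t => slv C t ^ (n⁻¹ : ℝ)) (Icc 0 T) ∧
      ∀ φ : ℝ → ℝ, Continuous φ → ∫ x in C, φ |x 0| = 2 * ∫ t in (0:ℝ)..T, φ t * slv C t := by
  obtain ⟨z, hz, hzmax⟩ := hk.exists_isMaxOn hne (continuous_apply 0).continuousOn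
  set T := z 0 with hT
  have hle : ∀ x ∈ C, |x 0| ≤ T := fun x hx => abs_le.2
    ⟨by have : (-x) 0 ≤ z 0 := hzmax (hs x hx)
        simp only [Pi.neg_apply] at this
        linarith,
     hzmax hx⟩
  have hT0 : 0 ≤ T := (abs_nonneg _).trans (hle z hz)
  have hneg : ∀ t (y : Fin n → ℝ), (Fin.cons t y : Fin (n + 1) → ℝ) ∈ C →
      (Fin.cons (-t) (-y) : Fin (n + 1) → ℝ) ∈ C := fun t y hy => by
    convert hs _ hy using 1
    funext i
    refine Fin.cases ?_ (fun j => ?_) i <;> simp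
  have even : ∀ t, slv C (-t) = slv C t := fun t => by
    have : slc C (-t) = -slc C t := by
      ext y
      simp only [slc, Set.mem_neg, mem_ofPred_eq]
      constructor
      · intro hy
        have := hneg _ _ hy
        rwa [neg_neg] at this
      · intro hy
        have := hneg _ _ hy
        rwa [neg_neg] at this
    rw [slv, slv, this, vol, vol, Measure.measure_neg]
  have hTne : (slc C T).Nonempty := ⟨fun i => z i.succ, by
    change (Fin.cons T (fun i => z i.succ) : Fin (n + 1) → ℝ) ∈ C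
    convert hz
    exact Fin.cons_self_tail z⟩
  have hsne : ∀ t ∈ Icc (-T) T, (slc C t).Nonempty := by
    rintro t ⟨h1, h2⟩
    obtain ⟨y, hy⟩ := hTne
    rcases hT0.eq_or_lt with h | h
    · rw [show t = T by linarith]; exact ⟨y, hy⟩
    refine ⟨((t + T) / (2 * T)) • y + ((T - t) / (2 * T)) • -y, ?_⟩
    have := hc hy (hneg _ _ hy) (a := (t + T) / (2 * T)) (b := (T - t) / (2 * T))
      (div_nonneg (by linarith) (by linarith)) (div_nonneg (by linarith) (by linarith))
      (by field_simp; ring)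
    rw [combo_cons] at this
    change (Fin.cons t _ : Fin (n + 1) → ℝ) ∈ C
    convert this using 2
    field_simp; ring
  have hconc : ConcaveOn ℝ (Icc (-T) T) (fun t => slv C t ^ (n⁻¹ : ℝ)) := by
    refine ⟨convex_Icc _ _, fun x hx y hy a b ha hb hab => ?_⟩
    simp only [smul_eq_mul]
    refine bm_root hn (slc_convex hc x) (slc_isCompact hk x) (hsne x hx) (slc_convex hc y)
      (slc_isCompact hk y) (hsne y hy) (slc_convex hc _) (slc_isCompact hk _) ha hb hab ?_
    intro u hu v hv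
    have := hc hu hv ha hb hab
    rw [combo_cons] at this
    exact this
  refine ⟨T, hT0, ⟨z, hz, rfl⟩, fun x hx => hzmax hx, hconc.subset (Icc_subset_Icc (by linarith) le_rfl) (convex_Icc _ _),
    ?_, fun φ hφ => ?_⟩
  · intro x hx y hy hxy
    rcases (hx.1.trans hxy).eq_or_lt with h | hp
    · rw [show x = y by linarith [hx.1]]
    have h1 : y ∈ Icc (-T) T := ⟨by linarith [hy.1], hy.2⟩
    have h2 : -y ∈ Icc (-T) T := ⟨by linarith [hy.2], by linarith [hy.1]⟩
    have ha : 0 ≤ (y + x) / (2 * y) := div_nonneg (by linarith [hx.1]) (by linarith)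
    have hb : 0 ≤ (y - x) / (2 * y) := div_nonneg (by linarith) (by linarith)
    have := hconc.2 h1 h2 ha hb (by field_simp; ring)
    simp only [smul_eq_mul] at this
    rw [even, show (y + x) / (2 * y) * y + (y - x) / (2 * y) * -y = x by field_simp; ring,
      ← add_mul, show (y + x) / (2 * y) + (y - x) / (2 * y) = 1 by field_simp; ring, one_mul] at this
    exact this
  · obtain ⟨hi, he⟩ := integral_slices hk (φ := fun x => φ |x 0|) (by fun_prop)
    have e : (fun t => ∫ y in slc C t, φ |(Fin.cons t y : Fin (n + 1) → ℝ) 0|) =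
        fun t => φ |t| * slv C t := by
      funext t
      simp [slv, vol, Measure.real, mul_comm]
    rw [e] at hi
    rw [he, e]
    have hout : ∀ t, T < |t| → slv C t = 0 := fun t ht => by
      have : slc C t = ∅ := eq_empty_of_forall_notMem fun y hy => by
        have := hle _ hy
        simp at this
        linarith
      simp [slv, vol, this]
    have h1 : ∫ t, φ |t| * slv C t = ∫ t in (-T)..T, φ |t| * slv C t := by
      rw [intervalIntegral.integral_of_le (by linarith), ← integral_Icc_eq_integral_Ioc]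
      refine (setIntegral_eq_integral_of_forall_compl_eq_zero fun t ht => ?_).symm
      rw [hout t ?_, mul_zero]
      by_contra hh
      push Not at hh
      exact ht (abs_le.1 hh)
    have h2 : ∫ t in (-T)..0, φ |t| * slv C t = ∫ t in (0:ℝ)..T, φ |t| * slv C t := by
      have := intervalIntegral.integral_comp_neg (f := fun t => φ |t| * slv C t) (a := 0) (b := T)
      rw [neg_zero] at this
      rw [← this]
      exact intervalIntegral.integral_congr fun t _ => by simp [even]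
    rw [h1, ← intervalIntegral.integral_add_adjacent_intervals (b := 0) hi.intervalIntegrable
      hi.intervalIntegrable, h2, ← two_mul]
    congr 1
    refine intervalIntegral.integral_congr fun t ht => ?_
    rw [uIcc_of_le hT0] at ht
    simp only [abs_of_nonneg ht.1]

lemma int_line (c β T : ℝ) (hT : T ≠ 0) :
    (∫ t in (0:ℝ)..T, (c * (1 - β * t / T)) ^ 2) = c ^ 2 * T * (1 - β + β ^ 2 / 3) ∧
    (∫ t in (0:ℝ)..T, t ^ 2 * (c * (1 - β * t / T)) ^ 2)
      = c ^ 2 * T ^ 3 * (1 / 3 - β / 2 + β ^ 2 / 5) := by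
  constructor
  · rw [intervalIntegral.integral_congr (g := fun t => c ^ 2 * t ^ 0 - c ^ 2 * 2 * β / T * t ^ 1
      + c ^ 2 * β ^ 2 / T ^ 2 * t ^ 2) fun t _ => by field_simp; ring,
      intervalIntegral.integral_add (Continuous.intervalIntegrable (by fun_prop) _ _)
        (Continuous.intervalIntegrable (by fun_prop) _ _),
      intervalIntegral.integral_sub (Continuous.intervalIntegrable (by fun_prop) _ _)
        (Continuous.intervalIntegrable (by fun_prop) _ _)]
    simp only [intervalIntegral.integral_const_mul, integral_pow]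
    field_simp
    ring
  · rw [intervalIntegral.integral_congr (g := fun t => c ^ 2 * t ^ 2 - c ^ 2 * 2 * β / T * t ^ 3
      + c ^ 2 * β ^ 2 / T ^ 2 * t ^ 4) fun t _ => by field_simp; ring,
      intervalIntegral.integral_add (Continuous.intervalIntegrable (by fun_prop) _ _)
        (Continuous.intervalIntegrable (by fun_prop) _ _),
      intervalIntegral.integral_sub (Continuous.intervalIntegrable (by fun_prop) _ _)
        (Continuous.intervalIntegrable (by fun_prop) _ _)]
    simp only [intervalIntegral.integral_const_mul, integral_pow]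
    field_simp
    ring

/-- A concave profile with unit variance cannot be short if it starts high. -/
lemma profile {T S : ℝ} (hT : 0 < T) {ψ : ℝ → ℝ} (hψ : ConcaveOn ℝ (Icc 0 T) ψ)
    (hψa : AntitoneOn ψ (Icc 0 T)) (hψ0 : ∀ t ∈ Icc 0 T, 0 ≤ ψ t)
    (h0 : ∫ t in (0:ℝ)..T, ψ t ^ 2 = S) (h2 : ∫ t in (0:ℝ)..T, t ^ 2 * ψ t ^ 2 = S)
    (hS : 0 < S) {p β : ℝ} (hp : 0 ≤ p) (hpψ : p ≤ ψ 0 ^ 2) (hβ : 0 ≤ β) (hβ1 : β ≤ 1) :
    1 - β + β ^ 2 / 3 ≤ T ^ 2 * (1 / 3 - β / 2 + β ^ 2 / 5) ∨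
      p * T ^ 3 * ((1 - β + β ^ 2 / 3) - (1 / 3 - β / 2 + β ^ 2 / 5)) ≤ S * (T ^ 2 - 1) := by
  obtain ⟨k0, hk0⟩ : ∃ k, k = 1 - β + β ^ 2 / 3 := ⟨_, rfl⟩
  obtain ⟨q, hq⟩ : ∃ k, k = 1 / 3 - β / 2 + β ^ 2 / 5 := ⟨_, rfl⟩
  rw [← hk0, ← hq]
  have hk0p : 0 < k0 := by rw [hk0]; nlinarith
  have h00 : (0:ℝ) ∈ Icc 0 T := ⟨le_rfl, hT.le⟩
  set p' := min p (S / (T * k0)) with hp'
  have hp'0 : 0 ≤ p' := le_min hp (by positivity)
  set c := √p' with hc
  have hc2 : c ^ 2 = p' := Real.sq_sqrt hp'0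
  have hcψ : c ≤ ψ 0 := by
    rw [hc, ← Real.sqrt_sq (hψ0 0 h00)]
    exact Real.sqrt_le_sqrt ((min_le_left _ _).trans hpψ)
  set g : ℝ → ℝ := fun t => c * (1 - β * t / T) with hg
  have hg0 : ∀ t ∈ Icc 0 T, 0 ≤ g t := fun t ht => by
    refine mul_nonneg (Real.sqrt_nonneg _) ?_
    rw [sub_nonneg, div_le_one hT]
    nlinarith [ht.1, ht.2]
  set P := {t | t ∈ Icc 0 T ∧ g t ≤ ψ t} with hP
  have hP0 : (0:ℝ) ∈ P := ⟨h00, by simpa [hg] using hcψ⟩
  have hPb : BddAbove P := ⟨T, fun t ht => ht.1.2⟩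
  set τ := sSup P with hτ
  have hτ0 : 0 ≤ τ := le_csSup hPb hP0
  have hτT : τ ≤ T := csSup_le ⟨0, hP0⟩ fun t ht => ht.1.2
  have hlow : ∀ t ∈ Icc 0 T, t < τ → g t ≤ ψ t := by
    intro t ht htτ
    obtain ⟨s, hs, hts⟩ := exists_lt_of_lt_csSup ⟨0, hP0⟩ htτ
    have hs0 : 0 < s := ht.1.trans_lt hts
    have ha' : 0 ≤ (s - t) / s := div_nonneg (by linarith) hs0.le
    have hb' : 0 ≤ t / s := div_nonneg ht.1 hs0.le
    have := hψ.2 h00 hs.1 ha' hb' (by field_simp; ring)
    simp only [smul_eq_mul, mul_zero, zero_add, div_mul_cancel₀ _ hs0.ne'] at this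
    refine le_trans ?_ this
    have e : g t = (s - t) / s * g 0 + t / s * g s := by
      simp only [hg]; field_simp; ring
    rw [e]
    exact add_le_add (mul_le_mul_of_nonneg_left hP0.2 ha') (mul_le_mul_of_nonneg_left hs.2 hb')
  have hpt : ∀ t ∈ Icc 0 T, (t ^ 2 - τ ^ 2) * (ψ t ^ 2 - g t ^ 2) ≤ 0 := by
    intro t ht
    rcases lt_trichotomy t τ with h | h | h
    · exact mul_nonpos_of_nonpos_of_nonneg (by nlinarith [ht.1])
        (by have := pow_le_pow_left₀ (hg0 t ht) (hlow t ht h) 2; linarith)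
    · rw [h]; simp
    · have : ψ t < g t := by
        by_contra hh
        push Not at hh
        exact absurd (le_csSup hPb ⟨ht, hh⟩) (not_le.2 h)
      exact mul_nonpos_of_nonneg_of_nonpos (by nlinarith)
        (by have := pow_le_pow_left₀ (hψ0 t ht) this.le 2; linarith)
  have hfa : AntitoneOn (fun t => ψ t ^ 2) (Icc 0 T) :=
    fun x hx y hy hxy => pow_le_pow_left₀ (hψ0 y hy) (hψa hx hy hxy) 2
  have iψ := intervalIntegrable_of_antitoneOn hT.le hfa
  have iψ2 : IntervalIntegrable (fun t => t ^ 2 * ψ t ^ 2) volume 0 T :=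
    iψ.continuousOn_mul (by fun_prop)
  have ig : IntervalIntegrable (fun t => g t ^ 2) volume 0 T :=
    Continuous.intervalIntegrable (by simp only [hg]; fun_prop) _ _
  have ig2 : IntervalIntegrable (fun t => t ^ 2 * g t ^ 2) volume 0 T :=
    Continuous.intervalIntegrable (by simp only [hg]; fun_prop) _ _
  have key : (∫ t in (0:ℝ)..T, t ^ 2 * ψ t ^ 2) - (∫ t in (0:ℝ)..T, t ^ 2 * g t ^ 2)
      ≤ τ ^ 2 * ((∫ t in (0:ℝ)..T, ψ t ^ 2) - ∫ t in (0:ℝ)..T, g t ^ 2) := by
    rw [← intervalIntegral.integral_sub iψ2 ig2, ← intervalIntegral.integral_sub iψ ig,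
      ← intervalIntegral.integral_const_mul]
    exact intervalIntegral.integral_mono_on hT.le (iψ2.sub ig2) ((iψ.sub ig).const_mul _)
      fun t ht => by nlinarith [hpt t ht]
  obtain ⟨e0, e2⟩ := int_line c β T hT.ne'
  rw [h0, h2, e0, e2, hc2, ← hk0, ← hq] at key
  rcases min_choice p (S / (T * k0)) with h | h
  · right
    rw [← hp'] at h
    rw [h] at key
    have hle : p * T * k0 ≤ S := by
      have := min_le_right p (S / (T * k0))
      rw [← hp', h, le_div_iff₀ (by positivity)] at this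
      linarith
    have : τ ^ 2 * (S - p * T * k0) ≤ T ^ 2 * (S - p * T * k0) := by gcongr
    linarith
  · left
    rw [← hp'] at h
    rw [h] at key
    have e : S / (T * k0) * T * k0 = S := by field_simp
    have e' : S / (T * k0) * T ^ 3 * q = S * (T ^ 2 * q) / k0 := by field_simp
    rw [e, e', sub_self, mul_zero, sub_nonpos, le_div_iff₀ hk0p] at key
    exact le_of_mul_le_mul_left key hS

/-- Isotropic normalisation of a centrally symmetric body of bounded volume. -/
def Norm3 (C : Set (Fin 3 → ℝ)) : Prop :=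
  IsBody C ∧ IsCentral C ∧ covMat C = 1 ∧ vol C ≤ 29815 / 1000

lemma central_centroid {K : Set (Fin n → ℝ)} (hs : IsCentral K) (i : Fin n) :
    ∫ x in K, x i = 0 := by
  have hKneg : Neg.neg ⁻¹' K = K := by
    ext x; exact ⟨fun h => by simpa using hs _ h, fun h => hs x h⟩
  have := ((Measure.measurePreserving_neg (volume : Measure (Fin n → ℝ))).setIntegral_preimage_emb
    (MeasurableEquiv.neg _).measurableEmbedding (fun x => x i) K)
  rw [hKneg] at this
  simp only [Pi.neg_apply, integral_neg] at this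
  linarith

lemma second_eq {C : Set (Fin 3 → ℝ)} (h : Norm3 C) : ∫ x in C, x 0 ^ 2 = vol C := by
  obtain ⟨hb, hs, hcov, -⟩ := h
  have hv := hb.vol_pos
  have := congrFun (congrFun hcov 0) 0
  rw [covMat_apply hb.2.1 hv.ne', central_centroid hs] at this
  simp only [Matrix.one_apply_eq, mul_zero, sub_zero] at this
  rw [inv_mul_eq_iff_eq_mul₀ hv.ne', mul_one] at this
  simpa [sq] using this

/-- Data of the profile of a normalised body along the coordinate `0`. -/
lemma norm3_profile {C : Set (Fin 3 → ℝ)} (h : Norm3 C) :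
    ∃ (T S : ℝ) (ψ : ℝ → ℝ), 0 < T ∧ (∃ z ∈ C, z 0 = T) ∧ (∀ x ∈ C, x 0 ≤ T) ∧ 0 < S ∧ S ≤ 149075 / 10000 ∧
      ConcaveOn ℝ (Icc 0 T) ψ ∧ AntitoneOn ψ (Icc 0 T) ∧ (∀ t ∈ Icc 0 T, 0 ≤ ψ t) ∧
      (∫ t in (0:ℝ)..T, ψ t ^ 2) = S ∧ (∫ t in (0:ℝ)..T, t ^ 2 * ψ t ^ 2) = S ∧
      ψ 0 ^ 2 = slv C 0 := by
  have h' := h
  obtain ⟨hb, hs, -, hV⟩ := h
  obtain ⟨T, hT, hz, hmax, hconc, hanti, hφ⟩ :=
    central_slices (n := 2) hs hb.1 hb.2.1 hb.nonempty (by norm_num)
  set ψ : ℝ → ℝ := fun t => slv C t ^ (((2 : ℕ) : ℝ)⁻¹) with hψ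
  have hψm : ∀ t, ψ t ^ 2 = slv C t := fun t =>
    rpow_inv_natCast_pow (slv_nonneg _ _) (by norm_num)
  have hv := hb.vol_pos
  have e0 : ∫ t in (0:ℝ)..T, ψ t ^ 2 = vol C / 2 := by
    have := hφ (fun _ => 1) continuous_const
    simp only [setIntegral_one, one_mul] at this
    simp only [hψm]
    linarith
  have e2 : ∫ t in (0:ℝ)..T, t ^ 2 * ψ t ^ 2 = vol C / 2 := by
    have := hφ (fun t => t ^ 2) (by fun_prop)
    simp only [sq_abs, second_eq h'] at this
    simp only [hψm]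
    linarith
  have hTp : 0 < T := by
    rcases hT.eq_or_lt with he | he
    · rw [← he, intervalIntegral.integral_same] at e0
      linarith
    · exact he
  exact ⟨T, vol C / 2, ψ, hTp, hz, hmax, by linarith, by linarith, hconc, hanti,
    fun t _ => rpow_nonneg (slv_nonneg _ _) _, e0, e2, hψm 0⟩

/-- Every normalised body contains the Euclidean ball of radius `r`. -/
def Contains (r : ℝ) : Prop := ∀ C, Norm3 C → eball 3 r ⊆ C

lemma disc_subset_slc {C : Set (Fin 3 → ℝ)} {r : ℝ} (h : eball 3 r ⊆ C) :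
    eball 2 r ⊆ slc C 0 := by
  intro y hy
  refine h ?_
  show (Fin.cons 0 y : Fin 3 → ℝ) ⬝ᵥ Fin.cons 0 y ≤ r ^ 2
  rw [dotProduct, Fin.sum_univ_succ]
  simpa [eball, dotProduct] using hy

lemma coord_base {C : Set (Fin 3 → ℝ)} (h : Norm3 C) : ∃ x ∈ C, 1732 / 1000 ≤ x 0 := by
  obtain ⟨T, S, ψ, hT, ⟨z, hz, hzT⟩, -, hS, -, hc, ha, hn, e0, e2, -⟩ := norm3_profile h
  refine ⟨z, hz, hzT ▸ ?_⟩
  have hA : S ≤ ψ 0 ^ 2 * T := by
    have hfa : AntitoneOn (fun t => ψ t ^ 2) (Icc 0 T) :=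
      fun x hx y hy hxy => pow_le_pow_left₀ (hn y hy) (ha hx hy hxy) 2
    calc S = ∫ t in (0:ℝ)..T, ψ t ^ 2 := e0.symm
      _ ≤ ∫ _t in (0:ℝ)..T, ψ 0 ^ 2 := intervalIntegral.integral_mono_on hT.le
          (intervalIntegrable_of_antitoneOn hT.le hfa) intervalIntegrable_const
          fun t ht => hfa ⟨le_rfl, hT.le⟩ ht ht.1
      _ = _ := by simp [mul_comm]
  rcases profile hT hc ha hn e0 e2 hS (p := ψ 0 ^ 2) (β := 0) (sq_nonneg _) le_rfl le_rfl
    zero_le_one with h1 | h1
  · nlinarith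
  · have hA0 : 0 < ψ 0 ^ 2 * T := hS.trans_le hA
    have hT1 : 0 ≤ T ^ 2 - 1 := by
      by_contra hh
      push Not at hh
      nlinarith [mul_pos hA0 (pow_pos hT 2), mul_neg_of_pos_of_neg hS hh]
    have h3 : ψ 0 ^ 2 * T * (3 - T ^ 2) ≤ 0 := by
      nlinarith [mul_le_mul_of_nonneg_right hA hT1]
    have h4 : 3 ≤ T ^ 2 := by
      by_contra hh
      push Not at hh
      nlinarith [mul_pos hA0 (sub_pos.2 hh)]
    nlinarith

lemma coord_step {r H β : ℝ} (hr : 1732 / 1000 ≤ r) (hβ : 0 ≤ β) (hβ1 : β ≤ 1)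
    (hq : H ^ 2 * (1 / 3 - β / 2 + β ^ 2 / 5) < 1 - β + β ^ 2 / 3)
    (hk : 149075 / 10000 * (10001 / 10000 * (r ^ 2 - 1)) <
      314159 / 100000 * r ^ 2 * r ^ 3 *
        ((1 - β + β ^ 2 / 3) - (1 / 3 - β / 2 + β ^ 2 / 5)))
    (hin : Contains r) {C : Set (Fin 3 → ℝ)} (h : Norm3 C) : ∃ x ∈ C, H ≤ x 0 := by
  obtain ⟨T, S, ψ, hT, ⟨z, hz, hzT⟩, hmax, hS, hS0, hc, ha, hn, e0, e2, eA⟩ := norm3_profile h
  refine ⟨z, hz, hzT ▸ ?_⟩
  by_contra hlt
  push Not at hlt
  have hb := hin C h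
  have hTr : r ≤ T := by
    have hpt : (![r, 0, 0] : Fin 3 → ℝ) ∈ C :=
      hb (by simp [eball, dotProduct, Fin.sum_univ_succ, sq])
    have := hmax _ hpt
    simpa using this
  have hA : 314159 / 100000 * r ^ 2 ≤ ψ 0 ^ 2 := by
    rw [eA]
    calc 314159 / 100000 * r ^ 2 ≤ π * r ^ 2 := by
          gcongr
          exact le_trans (by norm_num) pi_gt_d6.le
      _ = vol (eball 2 r) := (vol_eball_two (by linarith)).symm
      _ ≤ slv C 0 := ENNReal.toReal_mono
          (slc_isCompact h.1.2.1 0).measure_lt_top.ne (measure_mono (disc_subset_slc hb))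
  rcases profile hT hc ha hn e0 e2 hS (p := 314159 / 100000 * r ^ 2) (β := β) (by positivity) hA hβ
    hβ1 with h1 | h1
  · have hq0 : 0 ≤ 1 / 3 - β / 2 + β ^ 2 / 5 := by nlinarith [sq_nonneg (β - 1)]
    have : T ^ 2 * (1 / 3 - β / 2 + β ^ 2 / 5) ≤ H ^ 2 * (1 / 3 - β / 2 + β ^ 2 / 5) := by gcongr
    linarith
  · set k := (1 - β + β ^ 2 / 3) - (1 / 3 - β / 2 + β ^ 2 / 5)
    have hm : (T ^ 2 - 1) * r ^ 3 ≤ 10001 / 10000 * (r ^ 2 - 1) * T ^ 3 := by
      obtain ⟨s, hs, rfl⟩ : ∃ s, 0 ≤ s ∧ T = r + s := ⟨T - r, by linarith, by ring⟩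
      have h3 : (2999824 : ℝ) / 1000000 ≤ r ^ 2 := by nlinarith
      have c0 : 0 ≤ 1 / 10000 * (r ^ 2 - 1) * r ^ 3 :=
        mul_nonneg (by linarith) (by positivity)
      have c1 : 0 ≤ (10003 / 10000 * r ^ 2 - 30003 / 10000) * (r ^ 2 * s) :=
        mul_nonneg (by linarith) (by positivity)
      have c2 : 0 ≤ (30003 / 10000 * (r ^ 2 - 1) - r ^ 2) * (r * s ^ 2) :=
        mul_nonneg (by linarith) (by positivity)
      have c3 : 0 ≤ 10001 / 10000 * (r ^ 2 - 1) * s ^ 3 :=
        mul_nonneg (by linarith) (by positivity)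
      linear_combination c0 + c1 + c2 + c3
    have hT1 : 0 ≤ T ^ 2 - 1 := by nlinarith
    have hr3 : 0 < r ^ 3 := pow_pos (by linarith) 3
    have a1 : 314159 / 100000 * r ^ 2 * r ^ 3 * k * T ^ 3 ≤
        149075 / 10000 * (10001 / 10000 * (r ^ 2 - 1)) * T ^ 3 := by
      calc 314159 / 100000 * r ^ 2 * r ^ 3 * k * T ^ 3
          = 314159 / 100000 * r ^ 2 * T ^ 3 * k * r ^ 3 := by ring
        _ ≤ S * (T ^ 2 - 1) * r ^ 3 := mul_le_mul_of_nonneg_right h1 hr3.le
        _ ≤ 149075 / 10000 * (T ^ 2 - 1) * r ^ 3 := by gcongr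
        _ = 149075 / 10000 * ((T ^ 2 - 1) * r ^ 3) := by ring
        _ ≤ 149075 / 10000 * (10001 / 10000 * (r ^ 2 - 1) * T ^ 3) :=
            mul_le_mul_of_nonneg_left hm (by norm_num)
        _ = _ := by ring
    exact absurd (le_of_mul_le_mul_right a1 (pow_pos hT 3)) (not_le.2 hk)

lemma isCentral_image {m : ℕ} {K : Set (Fin m → ℝ)} (hs : IsCentral K)
    (M : Matrix (Fin m) (Fin m) ℝ) : IsCentral (affMap 0 M '' K) := by
  rintro _ ⟨x, hx, rfl⟩
  exact ⟨-x, hs x hx, by simp [affMap_apply, mulVec_neg]⟩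

lemma covMat_image {m : ℕ} {K : Set (Fin m → ℝ)} (hK : IsBody K) (hs : IsCentral K)
    {M : Matrix (Fin m) (Fin m) ℝ} (hM : M.det ≠ 0) :
    covMat (affMap 0 M '' K) = M * covMat K * Mᵀ := by
  have hb := isBody_affMap (a := 0) hM hK
  have hm := hK.2.1.measurableSet
  have hs' := isCentral_image hs M
  have hd : 0 < |M.det| := abs_pos.2 hM
  have hv := hK.vol_pos
  ext i j
  rw [covMat_apply hb.2.1 hb.vol_pos.ne', central_centroid hs', central_centroid hs',
    setIntegral_affMap hM hm, vol_affMap hM hm]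
  simp only [affMap_apply, zero_add, mul_zero, sub_zero, Matrix.mul_apply, transpose_apply,
    Matrix.mulVec, dotProduct, Finset.sum_mul_sum]
  have hint : ∀ k l, Integrable (fun x : Fin m → ℝ => M i k * x k * (M j l * x l))
      (volume.restrict K) := fun k l =>
    (by fun_prop : Continuous fun x : Fin m → ℝ =>
      M i k * x k * (M j l * x l)).continuousOn.integrableOn_compact hK.2.1
  rw [integral_finsetSum _ (fun k _ => integrable_finsetSum _ fun l _ => hint k l),
    Finset.mul_sum, Finset.mul_sum]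
  simp only [Finset.sum_mul]
  rw [Finset.sum_comm (γ := Fin m)]
  refine Finset.sum_congr rfl fun k _ => ?_
  rw [integral_finsetSum _ (fun l _ => hint k l), Finset.mul_sum, Finset.mul_sum]
  refine Finset.sum_congr rfl fun l _ => ?_
  rw [covMat_apply hK.2.1 hv.ne', central_centroid hs, mul_zero, zero_mul, sub_zero]
  have he : (fun x : Fin m → ℝ => M i k * x k * (M j l * x l)) =
      fun x => M i k * M j l * (x k * x l) := by funext x; ring
  rw [he, integral_const_mul]
  field_simp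

/-- A reflection moving a unit vector to the first coordinate. -/
lemma exists_reflection (u : Fin 3 → ℝ) (hu : u ⬝ᵥ u = 1) :
    ∃ M : Matrix (Fin 3) (Fin 3) ℝ, Mᵀ = M ∧ M * M = 1 ∧ ∀ x, (M *ᵥ x) 0 = u ⬝ᵥ x := by
  set v : Fin 3 → ℝ := u - Pi.single 0 1 with hv
  have hvv : v ⬝ᵥ v = 2 - 2 * u 0 := by
    rw [hv, sub_dotProduct, dotProduct_sub, dotProduct_sub, hu]
    simp
    ring
  rcases eq_or_ne v 0 with h | h
  · refine ⟨1, transpose_one, one_mul 1, fun x => ?_⟩
    have : u = Pi.single 0 1 := sub_eq_zero.1 h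
    simp [this]
  · have hpos : 0 < v ⬝ᵥ v :=
      lt_of_le_of_ne (Finset.sum_nonneg fun i _ => mul_self_nonneg _)
        (Ne.symm (mt dotProduct_self_eq_zero.1 h))
    refine ⟨1 - (2 / (v ⬝ᵥ v)) • vecMulVec v v, ?_, ?_, fun x => ?_⟩
    · rw [transpose_sub, transpose_one, transpose_smul, transpose_vecMulVec]
    · have : vecMulVec v v * vecMulVec v v = (v ⬝ᵥ v) • vecMulVec v v := by
        rw [vecMulVec_mul_vecMulVec, vecMulVec_smul]
      rw [sub_mul, mul_sub, mul_sub, one_mul, mul_one, one_mul, smul_mul_assoc, mul_smul_comm,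
        this, smul_smul, smul_smul]
      have e : 2 / (v ⬝ᵥ v) * (2 / (v ⬝ᵥ v) * (v ⬝ᵥ v)) = 2 * (2 / (v ⬝ᵥ v)) := by field_simp
      rw [mul_assoc, e, mul_smul, two_smul]
      abel
    · rw [sub_mulVec, one_mulVec, smul_mulVec, vecMulVec_mulVec]
      have hv0 : v 0 = u 0 - 1 := by simp [hv]
      have hvx : v ⬝ᵥ x = u ⬝ᵥ x - x 0 := by simp [hv, sub_dotProduct]
      simp only [Pi.sub_apply, Pi.smul_apply, MulOpposite.smul_eq_mul_unop,
        MulOpposite.unop_op, smul_eq_mul, hv0, hvx, hvv]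
      rw [hvv] at hpos
      have e : 2 / (2 - 2 * u 0) * (u 0 - 1) = -1 := by
        rw [div_mul_eq_mul_div, div_eq_iff hpos.ne']
        ring
      linear_combination -(u ⬝ᵥ x - x 0) * e

/-- From one coordinate to every direction. -/
lemma contains_of_coord {H : ℝ} (hH : 0 ≤ H)
    (h : ∀ C, Norm3 C → ∃ x ∈ C, H ≤ x 0) : Contains H := by
  intro C hC w hw
  by_contra hwC
  obtain ⟨f, s, hfs, hsw⟩ :=
    geometric_hahn_banach_closed_point hC.1.1 hC.1.2.1.isClosed hwC
  set a : Fin 3 → ℝ := fun i => f (Pi.single i 1) with ha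
  have hfx : ∀ x, f x = a ⬝ᵥ x := by
    intro x
    conv_lhs => rw [pi_eq_sum_univ' x]
    simp only [map_sum, map_smul, smul_eq_mul, ha, dotProduct, mul_comm]
  have ha0 : 0 < a ⬝ᵥ a := by
    refine lt_of_le_of_ne (Finset.sum_nonneg fun i _ => mul_self_nonneg _) fun h0 => ?_
    obtain ⟨x, hx⟩ := hC.1.nonempty
    have := (hfs x hx).trans hsw
    rw [hfx, hfx, dotProduct_self_eq_zero.1 h0.symm] at this
    simp at this
  set l := √(a ⬝ᵥ a) with hl
  have hl0 : 0 < l := Real.sqrt_pos.2 ha0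
  have hl2 : l ^ 2 = a ⬝ᵥ a := Real.sq_sqrt ha0.le
  obtain ⟨M, hMt, hMM, hM0⟩ := exists_reflection (l⁻¹ • a) (by
    rw [smul_dotProduct, dotProduct_smul, ← hl2]
    simp only [smul_eq_mul]
    field_simp)
  have hdet : M.det * M.det = 1 := by rw [← det_mul, hMM, det_one]
  have hd : M.det ≠ 0 := fun h0 => by rw [h0, zero_mul] at hdet; exact zero_ne_one hdet
  have habs : |M.det| = 1 := by
    nlinarith [abs_nonneg M.det, abs_mul_abs_self M.det]
  obtain ⟨y, ⟨x, hx, rfl⟩, hy⟩ := h (affMap 0 M '' C) ⟨isBody_affMap hd hC.1,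
    isCentral_image hC.2.1 M,
    by rw [covMat_image hC.1 hC.2.1 hd, hC.2.2.1, mul_one, hMt, hMM],
    by rw [vol_affMap hd hC.1.2.1.measurableSet, habs, one_mul]; exact hC.2.2.2⟩
  rw [affMap_apply, zero_add, hM0, smul_dotProduct, smul_eq_mul, le_inv_mul_iff₀ hl0, ← hfx] at hy
  have h1 := hfs x hx
  have h2 : f w ≤ l * H := by
    rw [hfx]
    refine le_of_abs_le (abs_le_of_sq_le_sq ?_ (by positivity))
    calc (a ⬝ᵥ w) ^ 2 ≤ (∑ i, a i ^ 2) * ∑ i, w i ^ 2 :=
          Finset.sum_mul_sq_le_sq_mul_sq _ _ _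
      _ ≤ l ^ 2 * H ^ 2 := by
          simp only [sq] at hl2 ⊢
          rw [hl2]
          simp only [eball, mem_ofPred_eq, dotProduct, sq] at hw ⊢
          gcongr
      _ = _ := by ring
  linarith

lemma not_norm3 (C : Set (Fin 3 → ℝ)) : ¬ Norm3 C := by
  intro h
  have h0 : Contains (1732 / 1000) := contains_of_coord (by norm_num) fun C hC => coord_base hC
  have h1 : Contains (1788 / 1000) := contains_of_coord (by norm_num) fun C hC =>
    coord_step (β := 119 / 1000) le_rfl (by norm_num) (by norm_num) (by norm_num) (by norm_num)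
      h0 hC
  have h2 : Contains (1837 / 1000) := contains_of_coord (by norm_num) fun C hC =>
    coord_step (β := 203 / 1000) (by norm_num) (by norm_num) (by norm_num) (by norm_num)
      (by norm_num) h1 hC
  have h3 : Contains (1886 / 1000) := contains_of_coord (by norm_num) fun C hC =>
    coord_step (β := 276 / 1000) (by norm_num) (by norm_num) (by norm_num) (by norm_num)
      (by norm_num) h2 hC
  have h4 : Contains (1940 / 1000) := contains_of_coord (by norm_num) fun C hC =>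
    coord_step (β := 348 / 1000) (by norm_num) (by norm_num) (by norm_num) (by norm_num)
      (by norm_num) h3 hC
  have hle : vol (eball 3 (1940 / 1000)) ≤ vol C :=
    ENNReal.toReal_mono h.1.2.1.measure_lt_top.ne (measure_mono (h4 C h))
  rw [vol_eball_three (by norm_num)] at hle
  have := h.2.2.2
  nlinarith [pi_gt_d6]

/-- Every centrally symmetric body in three dimensions is strictly below the simplex. -/
theorem nrat_lt_one {K : Set (Fin 3 → ℝ)} (hK : IsBody K) (hs : IsCentral K) : nrat K < 1 := by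
  classical
  have hsx : sxConst 3 = 9 / 8000 := by norm_num [sxConst, Nat.factorial]
  by_cases hd : (covMat K).det = 0
  · simp [nrat, isoRatio, hd]
  by_contra hge
  push Not at hge
  have hP := covMat_posSemidef hK.2.1
  set S := CFC.sqrt (covMat K) with hS
  have hSS : S * S = covMat K := CFC.sqrt_mul_sqrt_self _ hP.nonneg
  have hSt : Sᵀ = S := by
    have := (CFC.sqrt_nonneg (covMat K)).posSemidef.1
    simpa [Matrix.IsHermitian, conjTranspose_eq_transpose_of_trivial] using this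
  have hSd : S.det ≠ 0 := fun h => hd (by rw [← hSS, det_mul, h, mul_zero])
  have hMd : S⁻¹.det ≠ 0 := by rw [det_nonsing_inv]; simpa using hSd
  set C := affMap 0 S⁻¹ '' K with hC
  have hb : IsBody C := isBody_affMap hMd hK
  have hcov : covMat C = 1 := by
    rw [hC, covMat_image hK hs hMd, transpose_nonsing_inv, hSt, ← hSS, ← mul_assoc,
      nonsing_inv_mul _ hSd.isUnit, one_mul, mul_nonsing_inv _ hSd.isUnit]
  have hn : nrat C = nrat K := nrat_affMap hMd hK
  rw [← hn, nrat, isoRatio, hcov, det_one, Fintype.card_fin, hsx,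
    le_div_iff₀ (by norm_num), one_mul, le_div_iff₀ (pow_pos hb.vol_pos 2)] at hge
  refine not_norm3 C ⟨hb, isCentral_image hs _, hcov, ?_⟩
  nlinarith [hb.vol_pos]

end Sym3

end Vale.Agent.P254
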